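import Crest.Agent.R227.Defs

/-!
# 227-IND: the digit principle, and 227-WIT (link between `stdp` and `WCong`) is in `Wit.lean`.  
-/
set_option autoImplicit false

namespace Crest.Agent.R227
noncomputable section

namespace IND
open Polynomial

/-- monic polynomials of distinct degrees are independent. -/
theorem monic_indep {κ T : Type*} [Field κ] (S : Finset T) (Q : T → κ[X]) (s : T → κ)
    (hQ : ∀ D ∈ S, (Q D).Monic)
    (hinj : ∀ D ∈ S, ∀ D' ∈ S, (Q D).natDegree = (Q D').natDegree → D = D')
    (h : ∑ D ∈ S, C (s D) * Q D = 0) : ∀ D ∈ S, s D = 0 := by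
  classical
  by_contra hne
  push Not at hne
  obtain ⟨D, hD, hmax⟩ := Finset.exists_max_image (S.filter fun D => s D ≠ 0)
    (fun D => (Q D).natDegree) (by
      obtain ⟨D, h1, h2⟩ := hne
      exact ⟨D, Finset.mem_filter.2 ⟨h1, h2⟩⟩)
  obtain ⟨hDS, hD0⟩ := Finset.mem_filter.1 hD
  have h1 := congrArg (fun P => P.coeff (Q D).natDegree) h
  simp only [finsetSum_coeff, coeff_C_mul, coeff_zero] at h1
  rw [Finset.sum_eq_single D] at h1
  · rw [(hQ D hDS).coeff_natDegree, mul_one] at h1
    exact hD0 h1
  · intro D' hD' hne'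
    by_cases h0 : s D' = 0
    · simp [h0]
    · have h2 := hmax D' (Finset.mem_filter.2 ⟨hD', h0⟩)
      have h3 : (Q D').natDegree < (Q D).natDegree :=
        lt_of_le_of_ne h2 fun e => hne' (hinj D' hD' D hDS e)
      rw [coeff_eq_zero_of_natDegree_lt h3, mul_zero]
  · intro h; exact absurd hDS h

/-- base `p` digits. -/
theorem digits {I : Type*} (p n : ℕ) (hp : 0 < p) (tt : I → ℕ) (htt : ∀ i, tt i < n) (A : Set I)
    (hinj : Set.InjOn tt A) : ∃ φ : (I →₀ ℕ) → (Fin n → Fin p),
      ∀ D : I →₀ ℕ, (∀ i, D i < p) → (D.support : Set I) ⊆ A →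
        (D.sum fun i m => m * p ^ tt i) = finFunctionFinEquiv (φ D) ∧
        ∀ i ∈ A, (φ D ⟨tt i, htt i⟩ : ℕ) = D i := by
  classical
  refine ⟨fun D t => ⟨D.mapDomain tt t % p, Nat.mod_lt _ hp⟩, fun D hD hA => ?_⟩
  have hlt : ∀ t, D.mapDomain tt t < p := by
    intro t
    by_cases ht : t ∈ (D.mapDomain tt).support
    · obtain ⟨i, hi, rfl⟩ := Finset.mem_image.1 (Finsupp.mapDomain_support ht)
      rw [Finsupp.mapDomain_apply' A D hA hinj (hA hi)]
      exact hD i
    · rw [Finsupp.notMem_support_iff.1 ht]; exact hp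
  refine ⟨?_, fun i hi => ?_⟩
  · rw [finFunctionFinEquiv_apply]
    simp only [Nat.mod_eq_of_lt (hlt _)]
    rw [← Finsupp.sum_mapDomain_index (f := tt) (h := fun t m => m * p ^ t) (fun _ => zero_mul _)
      (fun _ _ _ => add_mul _ _ _), Finsupp.sum_of_support_subset _ (s := Finset.range n),
      Finset.sum_range]
    · intro t ht
      obtain ⟨i, -, rfl⟩ := Finset.mem_image.1 (Finsupp.mapDomain_support ht)
      exact Finset.mem_range.2 (htt i)
    · intro _ _; exact zero_mul _
  · simp only [Nat.mod_eq_of_lt (hlt _)]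
    exact Finsupp.mapDomain_apply' A D hA hinj hi

theorem main {κ I : Type*} [Field κ] (p n : ℕ) [Fact p.Prime] (hn : 1 ≤ n) (ι : GaloisField p n →+* κ)
    (Nn tt : I → ℕ) (htt : ∀ i, tt i < n) (hinj : ∀ i i', Nn i = Nn i' → tt i = tt i' → i = i')
    (ψ : I → (ℕ →₀ GaloisField p n) → κ)
    (hψ : ∀ i (a a' : ℕ →₀ GaloisField p n), (∀ j < Nn i, a j = a' j) → ψ i a = ψ i a') (J : ℕ) :
    ∀ (S : Finset (I →₀ ℕ)) (c : (I →₀ ℕ) → κ), (∀ d ∈ S, ∀ i, d i < p) →
      (∀ d ∈ S, ∀ i ∈ d.support, Nn i < J) →
      (∀ a : ℕ →₀ GaloisField p n,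
        ∑ d ∈ S, c d * d.prod (fun i m => (ι (a (Nn i)) ^ p ^ tt i + ψ i a) ^ m) = 0) →
      ∀ d ∈ S, c d = 0 := by
  classical
  have hp : 0 < p := (Fact.out : p.Prime).pos
  induction J with
  | zero =>
    intro S c _ hS h d hd
    have h0 : ∀ d ∈ S, d = 0 := fun d hd => by
      ext i
      by_contra hi
      exact absurd (hS d hd i (Finsupp.mem_support_iff.2 hi)) (Nat.not_lt_zero _)
    have h1 := h 0
    rw [Finset.sum_eq_single d (fun d' hd' hne => absurd ((h0 d' hd').trans (h0 d hd).symm) hne)
      (fun h => absurd hd h), h0 d hd] at h1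
    rw [h0 d hd]
    simpa using h1
  | succ J ih =>
    intro S c hdig hS h d₀ hd₀
    set F : (I →₀ ℕ) → (ℕ →₀ GaloisField p n) → κ := fun d a =>
      d.prod (fun i m => (ι (a (Nn i)) ^ p ^ tt i + ψ i a) ^ m) with hF
    set top : (I →₀ ℕ) → (I →₀ ℕ) := fun d => d.filter fun i => Nn i = J with htop
    set low : (I →₀ ℕ) → (I →₀ ℕ) := fun d => d.filter fun i => ¬ Nn i = J with hlow
    have hsplit : ∀ d, top d + low d = d := fun d => Finsupp.filter_add_filter_not d _
    have hlowJ : ∀ d ∈ S, ∀ i ∈ (low d).support, Nn i < J := by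
      intro d hd i hi
      simp only [hlow, Finsupp.support_filter, Finset.mem_filter] at hi
      have := hS d hd i hi.1
      omega
    have htopJ : ∀ d, ∀ i ∈ (top d).support, Nn i = J := by
      intro d i hi
      simp only [htop, Finsupp.support_filter, Finset.mem_filter] at hi
      exact hi.2
    have htopd : ∀ d ∈ S, ∀ i, top d i < p := by
      intro d hd i
      simp only [htop, Finsupp.filter_apply]
      split_ifs
      · exact hdig d hd i
      · exact hp
    obtain ⟨φ, hφ⟩ := digits p n hp tt htt {i | Nn i = J}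
      (fun i hi i' hi' e => hinj i i' (hi.trans hi'.symm) e)
    have key : ∀ a, ∀ D ∈ S.image top,
        ∑ d ∈ S.filter (fun d => top d = D), c d * F (low d) a = 0 := by
      intro a
      set Q : (I →₀ ℕ) → κ[X] := fun D => D.prod fun i m => (X ^ p ^ tt i + C (ψ i a)) ^ m with hQ
      have hmon : ∀ i, (X ^ p ^ tt i + C (ψ i a) : κ[X]).Monic := fun i =>
        monic_X_pow_add_C _ (pow_pos hp _).ne'
      have hQm : ∀ D, (Q D).Monic := fun D => monic_prod_of_monic _ _ fun i _ => (hmon i).pow _
      have hQd : ∀ D, (Q D).natDegree = D.sum fun i m => m * p ^ tt i := fun D => by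
        simp only [hQ, Finsupp.prod, Finsupp.sum]
        rw [natDegree_prod_of_monic _ _ fun i _ => (hmon i).pow _]
        refine Finset.sum_congr rfl fun i _ => ?_
        rw [(hmon i).natDegree_pow, natDegree_X_pow_add_C]
      have himg : ∀ D ∈ S.image top, (∀ i, D i < p) ∧ (D.support : Set I) ⊆ {i | Nn i = J} := by
        intro D hD
        obtain ⟨d, hd, rfl⟩ := Finset.mem_image.1 hD
        exact ⟨htopd d hd, fun i hi => htopJ d i hi⟩
      refine monic_indep (S.image top) Q _ (fun D _ => hQm D) (fun D hD D' hD' e => ?_) ?_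
      · obtain ⟨h1, h2⟩ := hφ D (himg D hD).1 (himg D hD).2
        obtain ⟨h3, h4⟩ := hφ D' (himg D' hD').1 (himg D' hD').2
        rw [hQd, hQd, h1, h3] at e
        have e' : φ D = φ D' := finFunctionFinEquiv.injective (Fin.ext e)
        ext i
        by_cases hi : Nn i = J
        · rw [← h2 i hi, ← h4 i hi, e']
        · rw [Finsupp.notMem_support_iff.1 fun h => hi ((himg D hD).2 h),
            Finsupp.notMem_support_iff.1 fun h => hi ((himg D' hD').2 h)]
      · have : Fintype (GaloisField p n) := Fintype.ofFinite _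
        refine eq_zero_of_natDegree_lt_card_of_eval_eq_zero _ ι.injective (fun b => ?_) ?_
        · rw [← h (a.update J b), eval_finsetSum,
            ← Finset.sum_fiberwise_of_maps_to (s := S) (t := S.image top) (g := top)
              (fun d hd => Finset.mem_image_of_mem _ hd)]
          refine Finset.sum_congr rfl fun D _ => ?_
          rw [eval_mul, eval_C, Finset.sum_mul]
          refine Finset.sum_congr rfl fun d hd => ?_
          obtain ⟨hdS, rfl⟩ := Finset.mem_filter.1 hd
          rw [mul_assoc, ← Finsupp.prod_filter_mul_prod_filter_not (fun i => Nn i = J) d, mul_comm (F _ _)]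
          congr 2
          · simp only [hQ, Finsupp.prod, eval_prod, eval_pow, eval_add, eval_X, eval_C]
            refine Finset.prod_congr rfl fun i hi => ?_
            have hi' := htopJ d i hi
            rw [hψ i (a.update J b) a (fun j hj => by
              rw [Finsupp.update_apply, if_neg (by omega)]), hi', Finsupp.update_apply, if_pos rfl]
          · simp only [hF, Finsupp.prod]
            refine Finset.prod_congr rfl fun i hi => ?_
            have hi' := hlowJ d hdS i hi
            rw [hψ i (a.update J b) a (fun j hj => by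
              rw [Finsupp.update_apply, if_neg (by omega)]), Finsupp.update_apply, if_neg (by omega)]
        · rw [← Nat.card_eq_fintype_card, GaloisField.card p n (by omega)]
          have hpos : 0 < p ^ n := pow_pos hp n
          rw [← Nat.le_sub_one_iff_lt hpos]
          refine natDegree_sum_le_of_forall_le _ _ fun D hD => (natDegree_C_mul_le _ _).trans ?_
          rw [Nat.le_sub_one_iff_lt hpos, hQd, (hφ D (himg D hD).1 (himg D hD).2).1]
          exact Fin.is_lt _
    have hinjlow : Set.InjOn low (S.filter fun d => top d = top d₀) := by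
      intro d hd d' hd' e
      rw [← hsplit d, ← hsplit d', (Finset.mem_filter.1 hd).2, (Finset.mem_filter.1 hd').2, e]
    have := ih ((S.filter fun d => top d = top d₀).image low) (fun e => c (top d₀ + e))
      (fun e he i => by
        obtain ⟨d, hd, rfl⟩ := Finset.mem_image.1 he
        simp only [hlow, Finsupp.filter_apply]
        split_ifs
        · exact hp
        · exact hdig d (Finset.mem_filter.1 hd).1 i)
      (fun e he => by
        obtain ⟨d, hd, rfl⟩ := Finset.mem_image.1 he
        exact hlowJ d (Finset.mem_filter.1 hd).1)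
      (fun a => by
        rw [Finset.sum_image hinjlow, ← key a (top d₀) (Finset.mem_image_of_mem _ hd₀)]
        refine Finset.sum_congr rfl fun d hd => ?_
        rw [← (Finset.mem_filter.1 hd).2, hsplit])
      (low d₀) (Finset.mem_image_of_mem _ (Finset.mem_filter.2 ⟨hd₀, rfl⟩))
    simpa only [hsplit] using this

end IND

/-- PLAN: it suffices to show: for every `J` and every finite relation `∑_{d ∈ S} c_d ∏ f^d = 0` whose `d` only involve indices `i` with `Nn i < J`,
all `c_d = 0`.  Induction on `J`.  Split `d = d_top + d_low` (`Finsupp.filter (Nn · = J)`).  Fix `a`; vary `a_J` over `k` (`Finsupp.update`); the low factors and the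
`ψ i` (`Nn i = J`) do not change.  The polynomials `Q_D(A) = ∏_{Nn i = J} (A^(p^(tt i)) + ψ i a)^(D i)` are monic of degrees `∑ D_i p^(tt i) < p^n`, pairwise distinct
(uniqueness of base `p` digits), and `∑_D S_D Q_D` vanishes at `q` points, so it is `0` and every `S_D = ∑_{d_top = D} c_d ∏ low` vanishes
(look at a top degree); apply the induction hypothesis to each `S_D`. -/
theorem digit_indep {κ I : Type*} [Field κ] (p n : ℕ) [Fact p.Prime] (hn : 1 ≤ n) (ι : GaloisField p n →+* κ)
    (Nn tt : I → ℕ) (htt : ∀ i, tt i < n) (hinj : ∀ i i', Nn i = Nn i' → tt i = tt i' → i = i')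
    (ψ : I → (ℕ →₀ GaloisField p n) → κ)
    (hψ : ∀ i (a a' : ℕ →₀ GaloisField p n), (∀ j < Nn i, a j = a' j) → ψ i a = ψ i a') :
    LinearIndependent κ fun (d : {d : I →₀ ℕ // ∀ i, d i < p}) (a : ℕ →₀ GaloisField p n) =>
      d.1.prod fun i m => (ι (a (Nn i)) ^ p ^ tt i + ψ i a) ^ m := by
  classical
  rw [linearIndependent_iff']
  intro S g h d hd
  obtain ⟨J, hJ⟩ : ∃ J, ∀ d ∈ S, ∀ i ∈ d.1.support, Nn i < J :=
    ⟨S.sup (fun d => d.1.support.sup Nn) + 1, fun d hd i hi => Nat.lt_succ_of_le
      ((Finset.le_sup (f := Nn) hi).trans (Finset.le_sup (f := fun d => d.1.support.sup Nn) hd))⟩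
  have := IND.main p n hn ι Nn tt htt hinj ψ hψ J (S.image Subtype.val)
    (fun d => if h : ∀ i, d i < p then g ⟨d, h⟩ else 0)
    (fun d hd => by obtain ⟨d, -, rfl⟩ := Finset.mem_image.1 hd; exact d.2)
    (fun d hd => by obtain ⟨d, hd', rfl⟩ := Finset.mem_image.1 hd; exact hJ d hd')
    (fun a => by
      rw [Finset.sum_image Subtype.val_injective.injOn]
      have h1 := congrFun h a
      simp only [Finset.sum_apply, Pi.smul_apply, smul_eq_mul, Pi.zero_apply] at h1
      rw [← h1]
      exact Finset.sum_congr rfl fun d _ => by rw [dif_pos d.2])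
    d.1 (Finset.mem_image_of_mem _ hd)
  simpa only [dif_pos d.2] using this

end
end Crest.Agent.R227
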