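import Crest.Agent.R227.Ell
import Crest.Agent.R227.Ind

/-!
# 227-CAP: the capacity lower bound.  (filled by helper8)
-/
set_option autoImplicit false

namespace Crest.Agent.R227
noncomputable section
variable {C : Type} [NormedField C] [IsUltrametricDist C]

namespace CAP

variable {r : ℕ}

/-- Gauss norm at most `ρ`. -/
def GN (x : Fin r → Ob C) (ρ : ℝ) (P : MvPolynomial (Fin r) (Ob C)) : Prop :=
  ∀ β, ‖P.coeff β‖ * xp x β ≤ ρ

theorem xp_nonneg (x : Fin r → Ob C) (β : Fin r →₀ ℕ) : 0 ≤ xp x β :=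
  Finset.prod_nonneg fun _ _ => by positivity

theorem xp_le_one (x : Fin r → Ob C) (β : Fin r →₀ ℕ) : xp x β ≤ 1 :=
  Finset.prod_le_one (fun _ _ => by positivity)
    (fun s _ => pow_le_one₀ (norm_nonneg _) (Ob.norm_le_one _))

theorem xp_add (x : Fin r → Ob C) (β β' : Fin r →₀ ℕ) : xp x (β + β') = xp x β * xp x β' := by
  simp [xp, pow_add, Finset.prod_mul_distrib]

theorem xp_zero (x : Fin r → Ob C) : xp x 0 = 1 := by simp [xp]

theorem xp_single (x : Fin r → Ob C) (s : Fin r) (k : ℕ) : xp x (Finsupp.single s k) = ‖x s‖ ^ k := by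
  rw [xp, Finset.prod_eq_single s (fun b _ hb => by simp [Finsupp.single_eq_of_ne hb]) (by simp)]
  simp

theorem wt_add (β β' : Fin r →₀ ℕ) : wt (β + β') = wt β + wt β' := by
  simp [wt, add_mul, Finset.sum_add_distrib]

theorem norm_add_mul_le {a b : Ob C} {w ρ : ℝ} (hw : 0 ≤ w) (ha : ‖a‖ * w ≤ ρ) (hb : ‖b‖ * w ≤ ρ) :
    ‖a + b‖ * w ≤ ρ := by
  refine (mul_le_mul_of_nonneg_right (IsUltrametricDist.norm_add_le_max a b) hw).trans ?_
  rw [max_mul_of_nonneg _ _ hw]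
  exact max_le ha hb

theorem norm_sum_mul_le {ι : Type*} (S : Finset ι) (u : ι → Ob C) {w ρ : ℝ} (hw : 0 ≤ w)
    (hρ : 0 ≤ ρ) (h : ∀ i ∈ S, ‖u i‖ * w ≤ ρ) : ‖∑ i ∈ S, u i‖ * w ≤ ρ := by
  classical
  induction S using Finset.induction_on with
  | empty => simpa using hρ
  | insert i S hi ih =>
    rw [Finset.sum_insert hi]
    exact norm_add_mul_le hw (h i (Finset.mem_insert_self _ _))
      (ih fun j hj => h j (Finset.mem_insert_of_mem hj))

variable {x : Fin r → Ob C} {ρ ρ' : ℝ} {P Q : MvPolynomial (Fin r) (Ob C)}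

theorem GN.nonneg (h : GN x ρ P) : 0 ≤ ρ :=
  (mul_nonneg (norm_nonneg _) (xp_nonneg x 0)).trans (h 0)

theorem GN.mono (h : GN x ρ P) (hρ : ρ ≤ ρ') : GN x ρ' P := fun β => (h β).trans hρ

theorem GN.zero (hρ : 0 ≤ ρ) : GN x ρ 0 := fun β => by simpa using hρ

theorem GN.add (h : GN x ρ P) (h' : GN x ρ Q) : GN x ρ (P + Q) := fun β => by
  rw [MvPolynomial.coeff_add]
  exact norm_add_mul_le (xp_nonneg x β) (h β) (h' β)

theorem GN.mul (h : GN x ρ P) (h' : GN x ρ' Q) : GN x (ρ * ρ') (P * Q) := fun β => by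
  classical
  rw [MvPolynomial.coeff_mul]
  refine norm_sum_mul_le _ _ (xp_nonneg x β) (mul_nonneg h.nonneg h'.nonneg) (fun b hb => ?_)
  rw [← Finset.HasAntidiagonal.mem_antidiagonal.1 hb, xp_add, norm_mul, mul_mul_mul_comm]
  exact mul_le_mul (h _) (h' _) (mul_nonneg (norm_nonneg _) (xp_nonneg x _)) h.nonneg

theorem GN.monomial (x : Fin r → Ob C) (γ : Fin r →₀ ℕ) (c : Ob C) :
    GN x (‖c‖ * xp x γ) (MvPolynomial.monomial γ c) := fun β => by
  classical
  rw [MvPolynomial.coeff_monomial]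
  split_ifs with h
  · rw [h]
  · simpa using mul_nonneg (norm_nonneg c) (xp_nonneg x γ)

theorem GN.const (x : Fin r → Ob C) (c : Ob C) : GN x ‖c‖ (MvPolynomial.C c) := by
  simpa [xp_zero] using GN.monomial x 0 c

theorem exists_of_coeff_mul {β : Fin r →₀ ℕ} (h : (P * Q).coeff β ≠ 0) :
    ∃ b b', b + b' = β ∧ P.coeff b ≠ 0 ∧ Q.coeff b' ≠ 0 := by
  classical
  rw [MvPolynomial.coeff_mul] at h
  obtain ⟨b, hb, h0⟩ := Finset.exists_ne_zero_of_sum_ne_zero h
  exact ⟨b.1, b.2, Finset.HasAntidiagonal.mem_antidiagonal.1 hb, left_ne_zero_of_mul h0, right_ne_zero_of_mul h0⟩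

theorem GN.eval (h : GN x ρ P) {l : Fin r → Ob C} (hl : ∀ s, ‖l s‖ ≤ ‖x s‖) :
    ‖MvPolynomial.eval l P‖ ≤ ρ := by
  rw [MvPolynomial.eval_eq']
  refine IsUltrametricDist.norm_sum_le_of_forall_le_of_nonneg h.nonneg (fun β _ => ?_)
  refine le_trans ?_ (h β)
  rw [norm_mul, norm_prod]
  refine mul_le_mul_of_nonneg_left (Finset.prod_le_prod (fun _ _ => norm_nonneg _)
    (fun s _ => ?_)) (norm_nonneg _)
  rw [norm_pow]
  exact pow_le_pow_left₀ (norm_nonneg _) (hl s) _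

theorem ldT_GN {θ : ℝ} (hθ : θ ≤ 1) {γ : Fin r →₀ ℕ} (h : LdT x θ γ P) : GN x (xp x γ) P := by
  obtain ⟨l, e, rfl, -, h2, h3⟩ := h
  have m : GN x (xp x γ) (MvPolynomial.monomial γ 1) := by simpa using GN.monomial x γ 1
  exact (m.add h2).add (GN.mono h3 (mul_le_of_le_one_left (xp_nonneg x γ) hθ))

theorem ldT_one {θ : ℝ} (hθ0 : 0 ≤ θ) : LdT x θ 0 1 :=
  ⟨0, 0, by simp, fun β h => absurd rfl h, fun β => by simp [xp_zero],
    fun β => by simpa [xp_zero] using hθ0⟩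

/-- `F` lies in the span of the `e β` up to Gauss norm `ρ`. -/
def Sp (x : Fin r → Ob C) (e : (Fin r →₀ ℕ) → MvPolynomial (Fin r) (Ob C)) (ρ : ℝ)
    (F : MvPolynomial (Fin r) (Ob C)) : Prop :=
  ∃ (c : (Fin r →₀ ℕ) →₀ Ob C) (G : MvPolynomial (Fin r) (Ob C)),
    F = c.sum (fun β b => MvPolynomial.C b * e β) + G ∧ GN x ρ G

variable {e : (Fin r →₀ ℕ) → MvPolynomial (Fin r) (Ob C)}

theorem Sp.add (h : Sp x e ρ P) (h' : Sp x e ρ Q) : Sp x e ρ (P + Q) := by
  obtain ⟨c, G, rfl, hG⟩ := h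
  obtain ⟨c', G', rfl, hG'⟩ := h'
  refine ⟨c + c', G + G', ?_, hG.add hG'⟩
  rw [Finsupp.sum_add_index' (fun _ => by simp) (fun _ _ _ => by simp [add_mul])]
  ring

theorem Sp.of_GN (h : GN x ρ P) : Sp x e ρ P := ⟨0, P, by simp, h⟩

theorem Sp.basis (hρ : 0 ≤ ρ) (β : Fin r →₀ ℕ) (c : Ob C) : Sp x e ρ (MvPolynomial.C c * e β) :=
  ⟨Finsupp.single β c, 0, by rw [Finsupp.sum_single_index (by simp), add_zero], GN.zero hρ⟩

theorem Sp.sum {ι : Type*} (S : Finset ι) (u : ι → MvPolynomial (Fin r) (Ob C)) (hρ : 0 ≤ ρ)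
    (h : ∀ i ∈ S, Sp x e ρ (u i)) : Sp x e ρ (∑ i ∈ S, u i) := by
  classical
  induction S using Finset.induction_on with
  | empty => exact Sp.of_GN (by simpa using GN.zero hρ)
  | insert i S hi ih =>
    rw [Finset.sum_insert hi]
    exact (h i (Finset.mem_insert_self _ _)).add (ih fun j hj => h j (Finset.mem_insert_of_mem hj))

theorem sp_monomial {θ : ℝ} (hθ0 : 0 ≤ θ) (he : ∀ β, LdT x θ β (e β)) (w : ℕ) :
    ∀ β, wt β < w → ∀ c : Ob C, ‖c‖ * xp x β ≤ ρ → Sp x e (θ * ρ) (MvPolynomial.monomial β c) := by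
  induction w with
  | zero => intro β h; omega
  | succ w ih =>
    intro β hβ c hc
    have hρ : 0 ≤ ρ := (mul_nonneg (norm_nonneg _) (xp_nonneg x β)).trans hc
    obtain ⟨l, er, h0, h1, h2, h3⟩ := he β
    have e1 : MvPolynomial.monomial β c = MvPolynomial.C c * e β +
        ∑ b ∈ l.support, MvPolynomial.monomial b (-c * l.coeff b) + MvPolynomial.C (-c) * er := by
      have : ∑ b ∈ l.support, MvPolynomial.monomial b (-c * l.coeff b) =
          MvPolynomial.C (-c) * l := by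
        conv_rhs => rw [l.as_sum, Finset.mul_sum]
        exact Finset.sum_congr rfl fun b _ => by rw [MvPolynomial.C_mul_monomial]
      rw [this, h0, map_neg, mul_add, mul_add, MvPolynomial.C_mul_monomial, mul_one]
      ring
    rw [e1]
    refine ((Sp.basis (mul_nonneg hθ0 hρ) β c).add (Sp.sum _ _ (mul_nonneg hθ0 hρ)
      fun b hb => ih b ?_ _ ?_)).add (Sp.of_GN (((GN.const x (-c)).mul h3).mono ?_))
    · have := h1 b (MvPolynomial.mem_support_iff.1 hb); omega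
    · rw [norm_mul, norm_neg, mul_assoc]
      exact (mul_le_mul_of_nonneg_left (h2 b) (norm_nonneg _)).trans hc
    · rw [norm_neg, mul_left_comm]
      exact mul_le_mul_of_nonneg_left hc hθ0

theorem sp_GN {θ : ℝ} (hθ0 : 0 ≤ θ) (he : ∀ β, LdT x θ β (e β)) (h : GN x ρ P) :
    Sp x e (θ * ρ) P := by
  rw [P.as_sum]
  exact Sp.sum _ _ (mul_nonneg hθ0 h.nonneg) fun b _ =>
    sp_monomial hθ0 he (wt b + 1) b (Nat.lt_succ_self _) _ (h b)

end CAP

open CAP

/-- `LdT` is multiplicative.  PLAN: "Gauss norm `≤ ρ`" (`∀ β, ‖coeff β P‖ * xp x β ≤ ρ`) is additive and multiplicative (ultrametric `coeff_mul`);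
`wt`, `xp` are additive/multiplicative. -/
theorem LdT.mul {r : ℕ} {x : Fin r → Ob C} {θ : ℝ} (hθ0 : 0 ≤ θ) (hθ : θ ≤ 1) {γ γ' : Fin r →₀ ℕ}
    {P P' : MvPolynomial (Fin r) (Ob C)} (h : LdT x θ γ P) (h' : LdT x θ γ' P') : LdT x θ (γ + γ') (P * P') := by
  have _ := hθ0
  obtain ⟨l, e, rfl, h1, h2, h3⟩ := h
  obtain ⟨l', e', rfl, h1', h2', h3'⟩ := h'
  have m : GN x (xp x γ) (MvPolynomial.monomial γ 1) := by simpa using GN.monomial x γ 1
  have m' : GN x (xp x γ') (MvPolynomial.monomial γ' 1) := by simpa using GN.monomial x γ' 1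
  have w : ∀ β, (MvPolynomial.monomial γ (1 : Ob C)).coeff β ≠ 0 → wt β ≤ wt γ := fun β hβ => by
    rw [MvPolynomial.coeff_monomial] at hβ
    split_ifs at hβ with h
    · rw [h]
    · exact absurd rfl hβ
  have w' : ∀ β, (MvPolynomial.monomial γ' (1 : Ob C)).coeff β ≠ 0 → wt β ≤ wt γ' := fun β hβ => by
    rw [MvPolynomial.coeff_monomial] at hβ
    split_ifs at hβ with h
    · rw [h]
    · exact absurd rfl hβ
  have k' : GN x (xp x γ') e' :=
    GN.mono h3' (mul_le_of_le_one_left (xp_nonneg x γ') hθ)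
  refine ⟨MvPolynomial.monomial γ 1 * l' + l * MvPolynomial.monomial γ' 1 + l * l',
    e * (MvPolynomial.monomial γ' 1 + l' + e') + (MvPolynomial.monomial γ 1 + l) * e', ?_, ?_, ?_, ?_⟩
  · have : MvPolynomial.monomial (γ + γ') (1 : Ob C) =
        MvPolynomial.monomial γ 1 * MvPolynomial.monomial γ' 1 := by
      rw [MvPolynomial.monomial_mul, one_mul]
    rw [this]; ring
  · intro β hβ
    rw [wt_add]
    by_contra hc
    apply hβ
    have a1 : (MvPolynomial.monomial γ 1 * l').coeff β = 0 := by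
      by_contra h0
      obtain ⟨b, b', rfl, hb, hb'⟩ := exists_of_coeff_mul h0
      have := w b hb; have := h1' b' hb'
      rw [wt_add] at hc; omega
    have a2 : (l * MvPolynomial.monomial γ' 1).coeff β = 0 := by
      by_contra h0
      obtain ⟨b, b', rfl, hb, hb'⟩ := exists_of_coeff_mul h0
      have := h1 b hb; have := w' b' hb'
      rw [wt_add] at hc; omega
    have a3 : (l * l').coeff β = 0 := by
      by_contra h0
      obtain ⟨b, b', rfl, hb, hb'⟩ := exists_of_coeff_mul h0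
      have := h1 b hb; have := h1' b' hb'
      rw [wt_add] at hc; omega
    rw [MvPolynomial.coeff_add, MvPolynomial.coeff_add, a1, a2, a3, add_zero, add_zero]
  · rw [xp_add]
    exact ((m.mul h2').add (GN.mul h2 m')).add (GN.mul h2 h2')
  · rw [xp_add]
    refine GN.add ((GN.mul h3 ((m'.add h2').add k')).mono (le_of_eq (by ring)))
      (((m.add h2).mul h3').mono (le_of_eq (by ring)))

/-- (SPAN) PLAN: first: every `c T^β` with `‖c‖ xp β ≤ ρ` is `∑ c' e + G` with `G` of Gauss norm `≤ θ ρ` (strong induction on `wt β`: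
`c T^β = c e_β - c low - c err`); so every `F` of Gauss norm `≤ ρ` is `∑ c' e + G`, `G` of Gauss norm `≤ θ ρ`; iterate from `ρ = 1`. -/
theorem span_LdT {r : ℕ} {x : Fin r → Ob C} {θ : ℝ} (hθ0 : 0 ≤ θ) (hθ : θ ≤ 1)
    (e : (Fin r →₀ ℕ) → MvPolynomial (Fin r) (Ob C)) (he : ∀ β, LdT x θ β (e β))
    (F : MvPolynomial (Fin r) (Ob C)) (D : ℕ) :
    ∃ (c : (Fin r →₀ ℕ) →₀ Ob C) (G : MvPolynomial (Fin r) (Ob C)),
      F = c.sum (fun β b => MvPolynomial.C b * e β) + G ∧ ∀ β, ‖G.coeff β‖ * xp x β ≤ θ ^ D := by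
  have _ := hθ
  show Sp x e (θ ^ D) F
  induction D with
  | zero =>
    refine Sp.of_GN fun β => ?_
    rw [pow_zero]
    exact mul_le_one₀ (Ob.norm_le_one _) (xp_nonneg x β) (xp_le_one x β)
  | succ D ih =>
    obtain ⟨c, G, rfl, hG⟩ := ih
    rw [pow_succ']
    exact Sp.add ⟨c, 0, (add_zero _).symm, GN.zero (by positivity)⟩ (sp_GN hθ0 he hG)

namespace CAP

variable {r : ℕ} {x : Fin r → Ob C}

theorem ldT_pow {θ : ℝ} (hθ0 : 0 ≤ θ) (hθ : θ ≤ 1) {γ : Fin r →₀ ℕ}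
    {P : MvPolynomial (Fin r) (Ob C)} (h : LdT x θ γ P) (m : ℕ) : LdT x θ (m • γ) (P ^ m) := by
  induction m with
  | zero => simpa using ldT_one hθ0
  | succ m ih => rw [succ_nsmul, pow_succ]; exact ih.mul hθ0 hθ h

theorem ldT_prod {θ : ℝ} (hθ0 : 0 ≤ θ) (hθ : θ ≤ 1) {I : Type*} (S : Finset I) (m : I → ℕ)
    (γ : I → Fin r →₀ ℕ) (P : I → MvPolynomial (Fin r) (Ob C)) (h : ∀ i, LdT x θ (γ i) (P i)) :
    LdT x θ (∑ i ∈ S, m i • γ i) (∏ i ∈ S, P i ^ m i) := by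
  classical
  induction S using Finset.induction_on with
  | empty => simpa using ldT_one hθ0
  | insert i S hi ih =>
    rw [Finset.sum_insert hi, Finset.prod_insert hi]
    exact (ldT_pow hθ0 hθ (h i) _).mul hθ0 hθ ih

theorem xp_sum {I : Type*} (S : Finset I) (m : I → ℕ) (γ : I → Fin r →₀ ℕ) :
    xp x (∑ i ∈ S, m i • γ i) = ∏ i ∈ S, xp x (γ i) ^ m i := by
  classical
  have h : ∀ (k : ℕ) (β : Fin r →₀ ℕ), xp x (k • β) = xp x β ^ k := fun k β => by
    induction k with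
    | zero => simp [xp_zero]
    | succ k ih => rw [succ_nsmul, xp_add, ih, pow_succ]
  induction S using Finset.induction_on with
  | empty => simp [xp_zero]
  | insert i S hi ih => rw [Finset.sum_insert hi, Finset.prod_insert hi, xp_add, ih, h]

/-- the base-`p` digits of a multi-index. -/
def dg (p : ℕ) (β : Fin r →₀ ℕ) : Fin r × ℕ →₀ ℕ :=
  Finsupp.onFinset (Finset.univ ×ˢ Finset.range (∑ s, β s))
    (fun i => if i.2 < ∑ s, β s then β i.1 / p ^ i.2 % p else 0) (fun i h => by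
      by_contra hc
      have : ¬ i.2 < ∑ s, β s := by simpa using hc
      exact h (if_neg this))

theorem dg_lt (p : ℕ) (hp : 1 < p) (β : Fin r →₀ ℕ) (i : Fin r × ℕ) : dg p β i < p := by
  rw [dg, Finsupp.onFinset_apply]
  split_ifs
  · exact Nat.mod_lt _ (by omega)
  · omega

theorem digit_sum (p k M : ℕ) : ∑ e ∈ Finset.range M, k / p ^ e % p * p ^ e = k % p ^ M := by
  induction M with
  | zero => simp [Nat.mod_one]
  | succ M ih => rw [Finset.sum_range_succ, ih, Nat.mod_pow_succ, mul_comm]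

theorem dg_sum (p : ℕ) (hp : 1 < p) (β : Fin r →₀ ℕ) :
    ∑ i ∈ (dg p β).support, dg p β i • Finsupp.single i.1 (p ^ i.2) = β := by
  classical
  have hsub : (dg p β).support ⊆ Finset.univ ×ˢ Finset.range (∑ s, β s) :=
    Finsupp.support_onFinset_subset
  rw [Finset.sum_subset hsub
    (fun i _ hi => by rw [Finsupp.notMem_support_iff.1 hi, zero_smul]), Finset.sum_product]
  conv_rhs => rw [← Finsupp.univ_sum_single β]
  refine Finset.sum_congr rfl fun s _ => ?_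
  have h1 : β s ≤ ∑ s, β s :=
    Finset.single_le_sum (f := fun s => β s) (fun _ _ => Nat.zero_le _) (Finset.mem_univ s)
  have h2 : β s % p ^ (∑ s, β s) = β s :=
    Nat.mod_eq_of_lt (h1.trans_lt (Nat.lt_pow_self hp))
  conv_rhs => rw [← h2, ← digit_sum, Finsupp.single_finsetSum]
  refine Finset.sum_congr rfl fun e he => ?_
  rw [dg, Finsupp.onFinset_apply, if_pos (Finset.mem_range.1 he), Finsupp.smul_single, smul_eq_mul]

end CAP

/-- (CAP) PLAN: `A` from `ell`; `ℓ (s,e), ω (s,e), ψ (s,e)` by choice.  Digits `dg β : Fin r × ℕ →₀ ℕ`, `dg β (s,e) = β s / p^e % p` (injective,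
`∑_e dg β (s,e) p^e = β s`), `e β = (dg β).prod (ℓ ^ ·)` is `LdT β` (`LdT.mul`), `ω^β = (dg β).prod (ω ^ ·)`, `‖ω^β‖ ≥ (xp x β)^A > 0`.
`eval (lam a) (e β) = ω^β · ê_β(a)` with `ê_β(a) ∈ O` reducing mod `mO` to the functions of `digit_indep` (`κ = O ⧸ mO`, `Nn (s,e) = e / n * r + s`, `tt = e % n`).
Hence for `c ≠ 0` some `a` has `‖∑ c_β eval (lam a) (e β)‖ = max ‖c_β ω^β‖` (divide by a maximal term, reduce).  Take `D` with `θ^D < (xp x β₀)^A` and `θ^D < xp x β₀`, `span_LdT`: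
`‖G.coeff β₀‖ < 1`, so some `β` has `‖c_β‖ = ‖(e β).coeff β₀‖ = 1`; then `xp β₀ ≤ xp β` (from `LdT`), `max ≥ ‖ω^β‖ ≥ (xp β₀)^A > θ^D ≥ ‖eval (lam a) G‖`. -/
theorem cap [IsAlgClosed C] (p : ℕ) [Fact p.Prime] [CharP C p] (n : ℕ) {r : ℕ} (hr : 0 < r) (hrn : r < n) : ∃ A : ℕ,
    ∀ (ι : GaloisField p n →+* Ob C) (x : Fin r → Ob C) (ϖ : Ob C) (lam : (ℕ →₀ GaloisField p n) → Fin r → Ob C),
      OrthFam p (p ^ n) x → ‖ϖ‖ < 1 → (∀ a s, ‖lam a s‖ ≤ ‖x s‖) → WCong p n ι x ϖ lam →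
      ∀ (F : MvPolynomial (Fin r) (Ob C)) (β₀ : Fin r →₀ ℕ), ‖F.coeff β₀‖ = 1 →
        ∃ a, xp x β₀ ^ A ≤ ‖MvPolynomial.eval (lam a) F‖ := by
  classical
  obtain ⟨A, hA⟩ := ell (C := C) p n hr hrn
  refine ⟨A, fun ι x ϖ lam hx hϖ hlam hW F β₀ hF => ?_⟩
  choose ℓ ω ψ hℓ hω hψ hev using hA ι x ϖ lam hx hϖ hW
  have hp := (Fact.out : p.Prime).one_lt
  have hx0 : ∀ s, 0 < ‖x s‖ := fun s => norm_pos_iff.2 (hx.1 s)
  have hxp : ∀ β, 0 < xp x β := fun β => Finset.prod_pos fun s _ => pow_pos (hx0 s) _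
  set θ := ‖x ⟨0, hr⟩‖ with hθ
  have hθ0 : 0 ≤ θ := norm_nonneg _
  have hθ1 : θ < 1 := hx.2.1 _
  -- the basis
  let e : (Fin r →₀ ℕ) → MvPolynomial (Fin r) (Ob C) := fun β =>
    (dg p β).prod fun i m => ℓ i.1 i.2 ^ m
  let Ω : (Fin r →₀ ℕ) → Ob C := fun β => (dg p β).prod fun i m => ω i.1 i.2 ^ m
  have he : ∀ β, LdT x θ β (e β) := fun β => by
    have := ldT_prod hθ0 hθ1.le (dg p β).support (fun i => dg p β i)
      (fun i => Finsupp.single i.1 (p ^ i.2)) (fun i => ℓ i.1 i.2) (fun i => hℓ i.1 i.2)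
    rwa [dg_sum p hp β] at this
  have hΩ : ∀ β, xp x β ^ A ≤ ‖Ω β‖ := fun β => by
    conv_lhs => rw [← dg_sum p hp β, xp_sum]
    rw [← Finset.prod_pow]
    simp only [Ω, Finsupp.prod, norm_prod]
    refine Finset.prod_le_prod (fun _ _ => pow_nonneg (pow_nonneg (xp_nonneg x _) _) _) (fun i _ => ?_)
    rw [xp_single, norm_pow, ← pow_mul, mul_comm, pow_mul]
    exact pow_le_pow_left₀ (by positivity) (hω i.1 i.2) _
  -- normalised values
  have hu : ∀ (i : Fin r × ℕ) (a : ℕ →₀ GaloisField p n), ∃ u : Ob C,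
      MvPolynomial.eval (lam a) (ℓ i.1 i.2) = ω i.1 i.2 * u ∧
      Ideal.Quotient.mk (Ob.mO C) u =
        ((Ideal.Quotient.mk (Ob.mO C)).comp ι) (a (i.2 / n * r + i.1)) ^ p ^ (i.2 % n) +
          Ideal.Quotient.mk (Ob.mO C) (ψ i.1 i.2 a) := by
    intro i a
    have h1 := hev i.1 i.2 a
    obtain ⟨δ, hδ⟩ := Ob.dvd_iff.2 h1.le
    rw [hδ, norm_mul] at h1
    have h2 : ‖δ‖ < 1 := by
      by_contra h
      have := mul_le_mul_of_nonneg_left (not_lt.1 h) (norm_nonneg (ω i.1 i.2))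
      linarith
    refine ⟨ι (a (i.2 / n * r + i.1)) ^ p ^ (i.2 % n) + ψ i.1 i.2 a + δ, ?_, ?_⟩
    · rw [mul_add, ← hδ]; ring
    · rw [map_add, Ideal.Quotient.eq_zero_iff_mem.2 (Ob.mem_mO.2 h2), add_zero, map_add, map_pow]
      rfl
  choose u hu1 hu2 using hu
  have hE : ∀ β a, MvPolynomial.eval (lam a) (e β) =
      Ω β * (dg p β).prod fun i m => u i a ^ m := fun β a => by
    simp only [e, Ω, Finsupp.prod, map_prod, map_pow, hu1, mul_pow, Finset.prod_mul_distrib]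
  let _ : Field (Ob C ⧸ Ob.mO C) := Ideal.Quotient.field _
  have hli := (digit_indep (κ := Ob C ⧸ Ob.mO C) (I := Fin r × ℕ) p n (by omega)
    ((Ideal.Quotient.mk (Ob.mO C)).comp ι) (fun i => i.2 / n * r + i.1) (fun i => i.2 % n)
    (fun i => Nat.mod_lt _ (by omega)) (fun i i' h1 h2 => by
      have h3 : (i.1 : ℕ) = i'.1 := by
        have := congrArg (· % r) h1
        simpa [Nat.mul_add_mod', Nat.mod_eq_of_lt i.1.2, Nat.mod_eq_of_lt i'.1.2] using this
      have h4 : i.2 / n = i'.2 / n := by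
        have h5 : i.2 / n * r = i'.2 / n * r := by omega
        exact Nat.eq_of_mul_eq_mul_right hr h5
      refine Prod.ext (Fin.ext h3) ?_
      rw [← Nat.div_add_mod i.2 n, ← Nat.div_add_mod i'.2 n, h4, h2])
    (fun i a => Ideal.Quotient.mk (Ob.mO C) (ψ i.1 i.2 a))
    (fun i a a' h => by rw [hψ i.1 i.2 a a' h])).comp
    (fun β : Fin r →₀ ℕ => ⟨dg p β, fun i => dg_lt p hp β i⟩) (fun β β' h => by
      have h' : dg p β = dg p β' := congrArg Subtype.val h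
      rw [← dg_sum p hp β, ← dg_sum p hp β', h'])
  -- truncation level
  obtain ⟨D, hD⟩ := exists_pow_lt_of_lt_one
    (lt_min (pow_pos (hxp β₀) A) (hxp β₀)) hθ1
  obtain ⟨c, G, hFc, hG⟩ := span_LdT hθ0 hθ1.le e he F D
  have hG0 : ‖G.coeff β₀‖ < 1 := by
    by_contra h
    have h1 := mul_le_mul_of_nonneg_right (not_lt.1 h) (hxp β₀).le
    have h2 := hG β₀
    have h3 := hD.trans_le (min_le_right _ _)
    linarith
  obtain ⟨β₁, hβ₁, hc₁⟩ : ∃ β ∈ c.support, ¬ ‖c β * (e β).coeff β₀‖ < 1 := by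
    by_contra h
    push Not at h
    have h1 : F.coeff β₀ ∈ Ob.mO C := by
      rw [hFc, MvPolynomial.coeff_add, Finsupp.sum, MvPolynomial.coeff_sum]
      refine add_mem (sum_mem fun β hβ => ?_) hG0
      rw [MvPolynomial.coeff_C_mul]
      exact h β hβ
    rw [Ob.mem_mO, hF] at h1
    exact lt_irrefl _ h1
  rw [norm_mul, not_lt] at hc₁
  have hc1 : 1 ≤ ‖c β₁‖ :=
    hc₁.trans (mul_le_of_le_one_right (norm_nonneg _) (Ob.norm_le_one _))
  have hc2 : 1 ≤ ‖(e β₁).coeff β₀‖ :=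
    hc₁.trans (mul_le_of_le_one_left (norm_nonneg _) (Ob.norm_le_one _))
  have hx1 : xp x β₀ ≤ xp x β₁ :=
    (le_mul_of_one_le_left (hxp β₀).le hc2).trans (ldT_GN hθ1.le (he β₁) β₀)
  -- a maximal term
  obtain ⟨βm, hβm, hmax⟩ := c.support.exists_max_image (fun β => ‖c β * Ω β‖) ⟨β₁, hβ₁⟩
  have hlow : xp x β₀ ^ A ≤ ‖c βm * Ω βm‖ := by
    refine le_trans ?_ (hmax β₁ hβ₁)
    rw [norm_mul]
    exact ((pow_le_pow_left₀ (hxp β₀).le hx1 A).trans (hΩ β₁)).trans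
      (le_mul_of_one_le_left (norm_nonneg _) hc1)
  have hm0 : c βm * Ω βm ≠ 0 := norm_pos_iff.1 ((pow_pos (hxp β₀) A).trans_le hlow)
  have hg : ∀ β, ∃ g : Ob C, β ∈ c.support → c β * Ω β = c βm * Ω βm * g := fun β => by
    by_cases hβ : β ∈ c.support
    · obtain ⟨g, hg⟩ := Ob.dvd_iff.2 (hmax β hβ)
      exact ⟨g, fun _ => hg⟩
    · exact ⟨0, fun h => absurd h hβ⟩
  choose g hg using hg
  have hg1 : g βm = 1 := mul_left_cancel₀ hm0 (by rw [← hg βm hβm, mul_one])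
  obtain ⟨a, ha⟩ : ∃ a, ¬ ‖∑ β ∈ c.support, g β * (dg p β).prod fun i m => u i a ^ m‖ < 1 := by
    by_contra h
    push Not at h
    have h1 := linearIndependent_iff'.1 hli c.support (fun β => Ideal.Quotient.mk (Ob.mO C) (g β))
      (by
        funext a
        have h2 := Ideal.Quotient.eq_zero_iff_mem.2 (Ob.mem_mO.2 (h a))
        rw [map_sum] at h2
        rw [Finset.sum_apply, Pi.zero_apply, ← h2]
        refine Finset.sum_congr rfl fun β _ => ?_
        simp only [Pi.smul_apply, Function.comp_apply, smul_eq_mul, map_mul, Finsupp.prod, map_prod,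
          map_pow, hu2]) βm hβm
    rw [hg1, map_one] at h1
    exact one_ne_zero h1
  refine ⟨a, ?_⟩
  have hS : MvPolynomial.eval (lam a) (c.sum fun β b => MvPolynomial.C b * e β) =
      c βm * Ω βm * ∑ β ∈ c.support, g β * (dg p β).prod fun i m => u i a ^ m := by
    rw [Finsupp.sum, map_sum, Finset.mul_sum]
    refine Finset.sum_congr rfl fun β hβ => ?_
    rw [map_mul, MvPolynomial.eval_C, hE, ← mul_assoc, hg β hβ, mul_assoc]
  have hS' : xp x β₀ ^ A ≤ ‖MvPolynomial.eval (lam a) (c.sum fun β b => MvPolynomial.C b * e β)‖ := by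
    rw [hS, norm_mul]
    exact hlow.trans (le_mul_of_one_le_right (norm_nonneg _) (not_lt.1 ha))
  have hG' : ‖MvPolynomial.eval (lam a) G‖ < xp x β₀ ^ A :=
    (GN.eval hG (hlam a)).trans_lt (hD.trans_le (min_le_left _ _))
  rw [hFc, map_add, IsUltrametricDist.norm_add_eq_max_of_norm_ne_norm (by linarith)]
  exact le_max_of_le_left hS'

end
end Crest.Agent.R227
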