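import Crest.Agent.R227.Honda

/-!
# 227-STD: standard form of `Γ` and its endomorphisms.  (fill all `sorry`s, keep statements)
`cc = WittVector.constantCoeff : W → k`.
-/
set_option autoImplicit false
open Crest.LubinTate MvPowerSeries

namespace Crest.Agent.R227
noncomputable section
variable {p : ℕ} [Fact p.Prime] {n : ℕ}

/-- `F₀` is the formal group over `W` with logarithm `l₀`. -/
def IsStd (F₀ : FormalGroup (WW p n)) : Prop :=
  (l0 p n).subst (F₀.toPowerSeries.map (iK p n)) =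
    (l0 p n).subst (X 0 : MvPowerSeries (Fin 2) (KK p n)) + (l0 p n).subst (X 1 : MvPowerSeries (Fin 2) (KK p n))

open FGA

namespace STD

variable {σ : Type*}

theorem dvd_iff_map (f : MvPowerSeries σ (WW p n)) :
    (p : MvPowerSeries σ (WW p n)) ∣ f ↔ f.map WittVector.constantCoeff = 0 := by
  rw [Honda.dvd_iff_coeff, MvPowerSeries.ext_iff]
  refine forall_congr' fun d => ?_
  rw [← Ideal.mem_span_singleton, ← WittVector.ker_constantCoeff, RingHom.mem_ker, coeff_map,
    map_zero]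

theorem const_X_pow {R : Type*} [CommRing R] {m : ℕ} (hm : m ≠ 0) :
    PowerSeries.constantCoeff (PowerSeries.X ^ m : PowerSeries R) = 0 := by simp [hm]

theorem map_X_pow {R S : Type*} [CommRing R] [CommRing S] (f : R →+* S) (m : ℕ) :
    MvPowerSeries.map f (PowerSeries.X ^ m : PowerSeries R) = (PowerSeries.X ^ m : PowerSeries S) := by
  change PowerSeries.map f _ = _
  rw [map_pow, PowerSeries.map_X]

theorem map_inj {f g : MvPowerSeries σ (WW p n)} (h : f.map (iK p n) = g.map (iK p n)) : f = g := by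
  ext1 d
  exact Honda.iK_inj (by rw [← coeff_map, ← coeff_map, h])

theorem hsK (F₀ : FormalGroup (WW p n)) :
    PowerSeries.HasSubst (F₀.toPowerSeries.map (iK p n)) := hsF0 (F₀.map (iK p n))

theorem std_addK {F₀ : FormalGroup (WW p n)} (hF : IsStd F₀) {A B : MvPowerSeries σ (KK p n)}
    (hA : PowerSeries.HasSubst A) (hB : PowerSeries.HasSubst B) :
    (l0 p n).subst ((F₀.toPowerSeries.map (iK p n)).subst ![A, B]) =
      (l0 p n).subst A + (l0 p n).subst B := by
  have := congrArg (MvPowerSeries.subst ![A, B]) hF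
  rwa [mv_ps (hs2 hA hB) (hsK F₀), subst_add (hs2 hA hB),
    mv_ps (hs2 hA hB) (hsX 0), mv_ps (hs2 hA hB) (hsX 1), sX0 hA hB, sX1 hA hB] at this

theorem std_add {F₀ : FormalGroup (WW p n)} (hF : IsStd F₀) {A B : MvPowerSeries σ (WW p n)}
    (hA : constantCoeff A = 0) (hB : constantCoeff B = 0) :
    (l0 p n).subst ((F₀.toPowerSeries.subst ![A, B]).map (iK p n)) =
      (l0 p n).subst (A.map (iK p n)) + (l0 p n).subst (B.map (iK p n)) := by
  rw [map2 (.of_constantCoeff_zero hA) (.of_constantCoeff_zero hB),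
    std_addK hF (.of_constantCoeff_zero (Honda.const_map _ hA))
      (.of_constantCoeff_zero (Honda.const_map _ hB))]

theorem l0_map (φ : KK p n →+* KK p n) : (l0 p n).map φ = l0 p n := by
  ext d
  rw [PowerSeries.coeff_map, l0, PowerSeries.coeff_mk]
  split_ifs <;> simp

theorem frob_fix (hn : 1 ≤ n) {F₀ : FormalGroup (WW p n)} (hF : IsStd F₀) :
    F₀.toPowerSeries.map WittVector.frobenius = F₀.toPowerSeries := by
  let φ : KK p n →+* KK p n := WittVector.FractionRing.frobeniusRingHom p (GaloisField p n)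
  have hφ : φ.comp (iK p n) = (iK p n).comp WittVector.frobenius :=
    RingHom.ext fun a => IsFractionRing.ringEquivOfRingEquiv_algebraMap
      (WittVector.frobeniusEquiv p (GaloisField p n)) a
  have h1 := congrArg (MvPowerSeries.map φ) hF
  rw [map_add, PowerSeries.map_subst (hsK F₀), PowerSeries.map_subst (hsX 0),
    PowerSeries.map_subst (hsX 1), l0_map, map_X, map_X, ← hF] at h1
  have h0 : constantCoeff (F₀.toPowerSeries.map (iK p n)) = 0 :=
    Honda.const_map _ F₀.zero_constantCoeff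
  have h2 := l0_inj hn (Honda.const_map _ h0) h0 h1
  rw [map_map, hφ, ← map_map] at h2
  exact map_inj h2

theorem pow_cong (hn : 1 ≤ n) {F₀ : FormalGroup (WW p n)} (hF : IsStd F₀) (j : ℕ) :
    (p : MvPowerSeries (Fin 2) (WW p n)) ∣ F₀.toPowerSeries ^ p ^ j -
      F₀.toPowerSeries.subst ![(X 0 : MvPowerSeries (Fin 2) (WW p n)) ^ p ^ j, X 1 ^ p ^ j] := by
  have hp : p ≠ 0 := (Fact.out : p.Prime).ne_zero
  have h1 : F₀.toPowerSeries.subst ![(X 0 : MvPowerSeries (Fin 2) (WW p n)) ^ p ^ j, X 1 ^ p ^ j] =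
      expand (p ^ j) (pow_ne_zero j hp) F₀.toPowerSeries := by
    rw [expand, substAlgHom_apply]
    congr 1
    funext s
    fin_cases s <;> rfl
  have h2 : ∀ d, WittVector.constantCoeff (coeff d F₀.toPowerSeries) ^ p =
      WittVector.constantCoeff (coeff d F₀.toPowerSeries) := by
    intro d
    conv_rhs => rw [← frob_fix hn hF]
    simp [WittVector.coeff_frobenius_charP]
  have h3 : ∀ d i, WittVector.constantCoeff (coeff d F₀.toPowerSeries) ^ p ^ i =
      WittVector.constantCoeff (coeff d F₀.toPowerSeries) := by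
    intro d i
    induction i with
    | zero => simp
    | succ i ih => rw [pow_succ, pow_mul, ih, h2]
  rw [h1, dvd_iff_map, map_sub, map_pow, map_expand, ← map_iterateFrobenius_expand p hp,
    map_expand, sub_eq_zero]
  congr 1
  ext d
  rw [coeff_map, coeff_map, iterateFrobenius_def, h3]

theorem subst_sum (w : ℕ →₀ WW p n) {A : PowerSeries (KK p n)} (hA : PowerSeries.HasSubst A)
    (h : (l0 p n).subst A = w.sum fun j b =>
      PowerSeries.C (iK p n b) * (l0 p n).subst (PowerSeries.X ^ (p ^ j) : PowerSeries (KK p n)))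
    {Y : MvPowerSeries σ (KK p n)} (hY : PowerSeries.HasSubst Y) :
    (l0 p n).subst (A.subst Y) = ∑ j ∈ w.support, C (iK p n (w j)) * (l0 p n).subst (Y ^ p ^ j) := by
  have hp : p ≠ 0 := (Fact.out : p.Prime).ne_zero
  rw [← comp hY hA, h, Finsupp.sum, ← PowerSeries.coe_substAlgHom hY, map_sum]
  refine Finset.sum_congr rfl fun j _ => ?_
  rw [PowerSeries.coe_substAlgHom, PowerSeries.subst_mul hY, PowerSeries.subst_C,
    comp hY (PowerSeries.HasSubst.X_pow (pow_ne_zero j hp)), PowerSeries.subst_pow hY,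
    PowerSeries.subst_X hY]

theorem pint_C_mul (b : WW p n) {f : MvPowerSeries σ (KK p n)} (hf : PInt p n f) :
    PInt p n (C (iK p n b) * f) := by
  obtain ⟨g, rfl⟩ := hf
  exact ⟨C b * g, by rw [← map_C, ← map_mul, mul_left_comm]⟩

theorem pint_sum {ι : Type*} (s : Finset ι) (f : ι → MvPowerSeries σ (KK p n))
    (hf : ∀ i ∈ s, PInt p n (f i)) : PInt p n (∑ i ∈ s, f i) :=
  Finset.sum_induction f (PInt p n) (fun _ _ => Honda.pint_add) ⟨0, by simp⟩ hf

theorem pow_dvd_subst {R : Type*} [CommRing R] {Y : MvPowerSeries σ R} (hY : PowerSeries.HasSubst Y)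
    {f : PowerSeries R} {m : ℕ} (h : PowerSeries.X ^ m ∣ f) : Y ^ m ∣ f.subst Y := by
  obtain ⟨g, rfl⟩ := h
  rw [PowerSeries.subst_mul hY, PowerSeries.subst_pow hY, PowerSeries.subst_X hY]
  exact dvd_mul_right _ _

theorem dvd_subst {R : Type*} [CommRing R] {Y : MvPowerSeries σ R} (hY : PowerSeries.HasSubst Y)
    {f : PowerSeries R} (h : PowerSeries.constantCoeff f = 0) : Y ∣ f.subst Y := by
  have := pow_dvd_subst (m := 1) hY (f := f) (by rwa [pow_one, PowerSeries.X_dvd_iff])
  rwa [pow_one] at this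

omit [Fact p.Prime] in
theorem map_Lam {A B : Type*} [CommRing A] [CommRing B] (f : A →+* B) (L : ℕ) (Y : A) :
    f (Lam p n L Y) = Lam p n L (f Y) := by
  simp [Lam]

theorem dvd_of_map {m : ℕ} {f : PowerSeries (WW p n)}
    (h : (PowerSeries.X ^ m : PowerSeries (KK p n)) ∣ f.map (iK p n)) : PowerSeries.X ^ m ∣ f := by
  rw [PowerSeries.X_pow_dvd_iff] at h ⊢
  intro i hi
  exact Honda.iK_inj (by rw [← PowerSeries.coeff_map, h i hi, map_zero])

theorem trunc_at (hn : 1 ≤ n) (L : ℕ) {Y : PowerSeries (KK p n)}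
    (hY : PowerSeries.constantCoeff Y = 0) :
    (PowerSeries.X : PowerSeries (KK p n)) ^ ((p ^ n) ^ (L + 1)) ∣
      (p : PowerSeries (KK p n)) ^ L * (l0 p n).subst Y - Lam p n L Y := by
  have h1 := pow_dvd_subst (hs0 hY) (l0_trunc (p := p) hn L)
  rw [← PowerSeries.coe_substAlgHom (hs0 hY), map_sub, map_mul, map_pow, map_natCast] at h1
  have h2 := map_Lam (p := p) (n := n) (PowerSeries.substAlgHom (R := KK p n) (hs0 hY)).toRingHom L
    PowerSeries.X
  simp only [AlgHom.toRingHom_eq_coe, RingHom.coe_coe, PowerSeries.substAlgHom_X] at h2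
  rw [h2, PowerSeries.coe_substAlgHom] at h1
  exact (pow_dvd_pow_of_dvd (PowerSeries.X_dvd_iff.2 hY) _).trans h1

theorem fg_subst {R : Type*} [CommRing R] (F : FormalGroup R) {A B : MvPowerSeries σ R}
    (hA : PowerSeries.HasSubst A) (hB : PowerSeries.HasSubst B) :
    ∃ K, F.toPowerSeries.subst ![A, B] = A + B + A * B * K := by
  obtain ⟨K, hK⟩ := fg_eq_add F
  refine ⟨K.subst ![A, B], ?_⟩
  rw [hK, subst_add (hs2 hA hB), subst_add (hs2 hA hB), subst_mul (hs2 hA hB),
    subst_mul (hs2 hA hB), sX0 hA hB, sX1 hA hB]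

end STD

/-- PLAN: `Γ̃ = H.map constantCoeff` over `W` lifts `Γ`; `h = flog (Γ̃.map iK)`; `p h = h ∘ [p]` (`flog_hom`), `[p] ≡ X^q mod p`, `h' = om` is
integral (`om_map`), so `logc` gives the hypothesis of `honda`: `h = l₀ ∘ ψ`, `ψ₁ = 1`.  Take the inverse series `ψ'` of `ψ` and
`F₀` from `exists_conj Γ̃ ψ'`; `conj_comm`, `hom_inv`; `IsStd` from `flog_add` (`l₀ = h ∘ ψ'`). -/
theorem exists_std (c : Ctx p n) : ∃ (F₀ : FormalGroup (WW p n)) (_ : F₀.IsComm) (ψ : PowerSeries (GaloisField p n)),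
    IsStd F₀ ∧ IsFGHom c.Γ (F₀.map WittVector.constantCoeff) ψ ∧ PowerSeries.coeff 1 ψ = 1 := by
  let G₀ : FormalGroup (WW p n) := c.H.map constantCoeff
  have hG₀ : G₀.map WittVector.constantCoeff = c.Γ := by
    rw [fg_map_map]; exact c.hH.1
  let G : FormalGroup (KK p n) := G₀.map (iK p n)
  have hq : p ^ n ≠ 0 := pow_ne_zero n (Fact.out : p.Prime).ne_zero
  have h1 : (flog G).subst (mulSeries G p) = (p : PowerSeries (KK p n)) * flog G := by
    rw [flog_hom (hom_mul G p), mul_coeff_one, map_natCast]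
  have h2 : PowerSeries.derivative (KK p n) (flog G) = (om G₀).map (iK p n) := by
    rw [flog, deriv_intg, om_map]
  have h3 : (p : PowerSeries (WW p n)) ∣ mulSeries G₀ p - PowerSeries.X ^ (p ^ n) := by
    refine (STD.dvd_iff_map (σ := Unit) _).2 ?_
    change PowerSeries.map _ _ = _
    rw [map_sub, mul_map, hG₀, c.hΓ, map_pow, PowerSeries.map_X, sub_self]
  have h4 := logc (σ := Unit) (flog G) _ h2 (A := mulSeries G₀ p) (B := PowerSeries.X ^ (p ^ n))
    (mul_const G₀ p) (STD.const_X_pow hq) h3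
  have h5 : MvPowerSeries.map (iK p n) (mulSeries G₀ p) = mulSeries G p := mul_map G₀ p _
  rw [h5, h1, STD.map_X_pow, ← PowerSeries.expand_apply _ hq] at h4
  obtain ⟨ψ, hψ0, hψ⟩ := honda (σ := Unit) c.hn (flog G) (flog_const G) h4
  have hψK : PowerSeries.constantCoeff (R := KK p n) (MvPowerSeries.map (iK p n) ψ) = 0 :=
    Honda.const_map _ hψ0
  have hψ1 : PowerSeries.coeff 1 (ψ : PowerSeries (WW p n)) = 1 := by
    have := coeff_one_comp (l0 p n) _ hψK
    rw [hψ, flog_one, l0_one c.hn, one_mul] at this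
    exact Honda.iK_inj (this.symm.trans (map_one _).symm)
  have hu : IsUnit (PowerSeries.coeff 1 (ψ : PowerSeries (WW p n))) := hψ1 ▸ isUnit_one
  obtain ⟨ψ', hψ'0, hψψ'⟩ : ∃ ψ' : PowerSeries (WW p n), PowerSeries.constantCoeff ψ' = 0 ∧
      PowerSeries.subst ψ' (ψ : PowerSeries (WW p n)) = PowerSeries.X :=
    ⟨_, PowerSeries.constantCoeff_substInvOfIsUnit _ hu,
      PowerSeries.subst_substInvOfIsUnit_right _ hψ0 hu⟩
  have hψ'1 : PowerSeries.coeff 1 ψ' = 1 := by
    have := coeff_one_comp ψ _ hψ'0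
    rw [hψψ', hψ1, one_mul, PowerSeries.coeff_one_X] at this
    exact this.symm
  have hu' : IsUnit (PowerSeries.coeff 1 ψ') := hψ'1 ▸ isUnit_one
  obtain ⟨F₀, hF₀⟩ := exists_conj G₀ hψ'0 hu'
  obtain ⟨η, hη, hη1, -, -⟩ := hom_inv hF₀ hu'
  have hK := hom_map hF₀ (iK p n)
  have hl : (flog G).subst (ψ'.map (iK p n)) = l0 p n := by
    have := PowerSeries.map_subst (h := iK p n) (hs0 hψ'0) ψ
    rw [hψψ'] at this
    rw [← hψ, comp (hs0 hK.1) (hs0 hψK)]
    change PowerSeries.subst (PowerSeries.subst (MvPowerSeries.map (iK p n) ψ')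
      (PowerSeries.map (iK p n) ψ)) _ = _
    rw [← this]
    change PowerSeries.subst (PowerSeries.map (iK p n) PowerSeries.X) _ = _
    rw [PowerSeries.map_X, PowerSeries.X_subst]
  refine ⟨F₀, conj_comm hu' hF₀, η.map WittVector.constantCoeff, ?_, ?_, ?_⟩
  · unfold IsStd
    rw [← hl, comp (hsX 0) (hs0 hK.1), comp (hsX 1) (hs0 hK.1),
      comp (STD.hsK F₀) (hs0 hK.1)]
    refine (congrArg (fun Y => (flog G).subst Y) hK.2).trans ?_
    exact flog_add G (constps (constantCoeff_X 0) hK.1) (constps (constantCoeff_X 1) hK.1)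
  · rw [← hG₀]; exact hom_map hη _
  · have := coeff_one_comp ψ' _ hη.1
    rw [hη1, hψ'1, one_mul, PowerSeries.coeff_one_X] at this
    rw [PowerSeries.coeff_map, ← this, map_one]

/-- digit series are endomorphisms mod `p`.  PLAN: `F₀` is fixed by the Frobenius of `W` (`WittVector.FractionRing.frobenius` fixes `l₀`,
`l0_inj`), so mod `p` its coefficients satisfy `c^p = c` and `F₀^(p^j) ≡ F₀(X^(p^j), Y^(p^j)) mod p` (`map_iterateFrobenius_expand`).
Then `l₀(A(F₀)) = ∑ w_j l₀(F₀^(p^j)) ≡ ∑ w_j (l₀(X^(p^j)) + l₀(Y^(p^j))) = l₀(F₀(A X, A Y)) mod p` (`logc`), and `l0_inj_mod`. -/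
theorem std_endo (hn : 1 ≤ n) {F₀ : FormalGroup (WW p n)} (hF : IsStd F₀) (w : ℕ →₀ WW p n)
    {A : PowerSeries (WW p n)} (hA : PowerSeries.constantCoeff A = 0)
    (h : (l0 p n).subst (A.map (iK p n)) = w.sum fun j b =>
      PowerSeries.C (iK p n b) * (l0 p n).subst (PowerSeries.X ^ (p ^ j) : PowerSeries (KK p n))) :
    IsFGHom (F₀.map WittVector.constantCoeff) (F₀.map WittVector.constantCoeff) (A.map WittVector.constantCoeff) := by
  have hp : p ≠ 0 := (Fact.out : p.Prime).ne_zero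
  have hAK : PowerSeries.HasSubst (A.map (iK p n)) := hs0 (Honda.const_map _ hA)
  have e1 : ∀ {Y : MvPowerSeries (Fin 2) (WW p n)}, constantCoeff Y = 0 →
      (l0 p n).subst ((A.subst Y).map (iK p n)) =
        ∑ j ∈ w.support, C (iK p n (w j)) * (l0 p n).subst ((Y ^ p ^ j).map (iK p n)) := by
    intro Y hY
    rw [PowerSeries.map_subst (.of_constantCoeff_zero hY),
      STD.subst_sum w hAK h (.of_constantCoeff_zero (Honda.const_map _ hY))]
    simp only [map_pow]
  obtain ⟨ω, hω⟩ := l0_deriv (p := p) hn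
  have hX : ∀ (i : Fin 2) (j : ℕ),
      constantCoeff ((X i : MvPowerSeries (Fin 2) (WW p n)) ^ p ^ j) = 0 := by
    intro i j; simp [hp]
  have h0 := constps (constantCoeff_X (R := WW p n) (0 : Fin 2)) hA
  have h1 := constps (constantCoeff_X (R := WW p n) (1 : Fin 2)) hA
  have hd := l0_inj_mod hn (constps F₀.zero_constantCoeff hA)
    (const2 h0 h1 F₀.zero_constantCoeff) (by
      rw [STD.std_add hF h0 h1, e1 F₀.zero_constantCoeff, e1 (constantCoeff_X 0),
        e1 (constantCoeff_X 1), ← Finset.sum_add_distrib, ← Finset.sum_sub_distrib]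
      refine STD.pint_sum _ _ fun j _ => ?_
      rw [← mul_add, ← mul_sub, ← STD.std_add hF (hX 0 j) (hX 1 j)]
      refine STD.pint_C_mul _ (logc _ ω hω ?_ (const2 (hX 0 j) (hX 1 j) F₀.zero_constantCoeff)
        (STD.pow_cong hn hF j))
      rw [map_pow, F₀.zero_constantCoeff, zero_pow (pow_ne_zero j hp)])
  rw [STD.dvd_iff_map, map_sub, sub_eq_zero, PowerSeries.map_subst (hsF0 F₀),
    map2 (.of_constantCoeff_zero h0) (.of_constantCoeff_zero h1), PowerSeries.map_subst (hsX 0),
    PowerSeries.map_subst (hsX 1), map_X, map_X] at hd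
  exact ⟨Honda.const_map _ hA, hd⟩

/-- (STD-p) PLAN: `ψ` from `exists_std`, `ψ'` its inverse, `χ = Γ(X₀, ψ'(X₁))`.  Given `a`, `honda` (σ = Unit, `l0_eq`) gives `d` with
`l₀(d) = ∑ [a_j] l₀(X^(p^(M+j)))`; `X^(p^M) ∣ d` as `d = l₀⁻¹(…)`; the `Lam` congruence from `l0_trunc` (and injectivity of `map iK`,
`X_pow_dvd_iff`); `χ(X, d̄ ∘ ψ) = Γ(X, ψ' ∘ d̄ ∘ ψ)` is a hom by `std_endo`, `hom_comp`, `hom_add`, and `≡ X mod X^(p^M)`
(`fg_eq_add`), `M < p^M`, `2 ≤ p^M`. -/
theorem stdp (c : Ctx p n) (M : ℕ) (hM : 1 ≤ M) :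
    ∃ (ψ : PowerSeries (GaloisField p n)) (χ : MvPowerSeries (Fin 2) (GaloisField p n)),
      PowerSeries.constantCoeff ψ = 0 ∧ PowerSeries.coeff 1 ψ = 1 ∧ constantCoeff χ = 0 ∧
      coeff (Finsupp.single 1 1) χ = 1 ∧
      ∀ a : ℕ →₀ GaloisField p n, ∃ d : PowerSeries (WW p n), PowerSeries.X ^ (p ^ M) ∣ d ∧
        (∀ L, PowerSeries.X ^ ((p ^ n) ^ (L + 1)) ∣ Lam p n L d - a.sum fun j b =>
          PowerSeries.C (WittVector.teichmuller p b) * Lam p n L (PowerSeries.X ^ (p ^ (M + j)))) ∧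
        IsFGAut c.Γ (χ.subst ![PowerSeries.X, (d.map WittVector.constantCoeff).subst ψ]) ∧
        ∀ i < M, PowerSeries.coeff i (χ.subst ![PowerSeries.X, (d.map WittVector.constantCoeff).subst ψ]) =
          PowerSeries.coeff i (PowerSeries.X : PowerSeries (GaloisField p n)) := by
  classical
  have hp : p ≠ 0 := (Fact.out : p.Prime).ne_zero
  have hq : p ^ n ≠ 0 := pow_ne_zero n hp
  obtain ⟨F₀, hc, ψ, hF, hψ, hψ1⟩ := exists_std c
  obtain ⟨ψ', hψ', h1, h2, -⟩ := hom_inv hψ (hψ1 ▸ isUnit_one)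
  have hψ'1 : PowerSeries.coeff 1 ψ' = 1 := by
    have := coeff_one_comp ψ _ hψ'.1
    rw [h1, hψ1, one_mul, PowerSeries.coeff_one_X] at this
    exact this.symm
  have hs1 : PowerSeries.HasSubst (ψ'.subst (X 1 : MvPowerSeries (Fin 2) (GaloisField p n))) :=
    hs_ps (hsX 1) (hs0 hψ'.1)
  refine ⟨ψ, c.Γ.toPowerSeries.subst ![X 0, ψ'.subst (X 1 : MvPowerSeries (Fin 2) _)], hψ.1, hψ1,
    const2 (constantCoeff_X 0) (constps (constantCoeff_X 1) hψ'.1) c.Γ.zero_constantCoeff, ?_,
    fun a => ?_⟩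
  · obtain ⟨K, hK⟩ := STD.fg_subst c.Γ (hsX 0) hs1
    rw [hK, map_add, map_add, mul_assoc, X_dvd_iff.1 (dvd_mul_right _ _) _ (by simp),
      X_dvd_iff.1 dvd_rfl _ (by simp), PowerSeries.coeff_subst_single]
    simp [hψ'1]
  · let h : PowerSeries (KK p n) := ∑ j ∈ a.support,
      PowerSeries.C (iK p n (WittVector.teichmuller p (a j))) *
        (l0 p n).subst (PowerSeries.X ^ (p ^ (M + j)) : PowerSeries (KK p n))
    have hXs : ∀ j, PowerSeries.HasSubst (PowerSeries.X ^ (p ^ j) : PowerSeries (KK p n)) :=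
      fun j => PowerSeries.HasSubst.X_pow (pow_ne_zero j hp)
    have hdv : (PowerSeries.X ^ p ^ M : PowerSeries (KK p n)) ∣ h := by
      refine Finset.dvd_sum fun j _ => Dvd.dvd.mul_left ?_ _
      exact (pow_dvd_pow _ (Nat.pow_le_pow_right (Nat.pos_of_ne_zero hp) (Nat.le_add_right M j))).trans
        (STD.dvd_subst (hXs _) (l0_const c.hn))
    have hh0 : PowerSeries.constantCoeff h = 0 :=
      PowerSeries.X_dvd_iff.1 ((dvd_pow_self _ (pow_ne_zero M hp)).trans hdv)
    obtain ⟨d, hd0, hd⟩ := honda (σ := Unit) c.hn h hh0 (by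
      change PInt p n ((p : PowerSeries (KK p n)) * h - PowerSeries.expand (p ^ n) hq h)
      simp only [h]
      rw [map_sum, Finset.mul_sum, ← Finset.sum_sub_distrib]
      refine STD.pint_sum (σ := Unit) _ _ fun j _ => ?_
      rw [map_mul, PowerSeries.expand_C, mul_left_comm, ← mul_sub]
      refine STD.pint_C_mul (σ := Unit) _ ⟨PowerSeries.X ^ (p ^ (M + j)), ?_⟩
      have e1 := congrArg (PowerSeries.subst (PowerSeries.X ^ (p ^ (M + j)) : PowerSeries (KK p n)))
        (l0_eq (p := p) c.hn)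
      rw [← PowerSeries.coe_substAlgHom (hXs _), map_mul, map_add, map_mul, map_natCast,
        PowerSeries.coe_substAlgHom, PowerSeries.subst_X (hXs _), comp (hXs _) (hXs _),
        PowerSeries.subst_pow (hXs _), PowerSeries.subst_X (hXs _)] at e1
      rw [PowerSeries.expand_apply, comp (hXs _) (hXs _), PowerSeries.subst_pow (hXs _),
        PowerSeries.subst_X (hXs _), map_mul, map_natCast, STD.map_X_pow, ← pow_mul, mul_comm (p ^ n),
        pow_mul, e1, add_sub_cancel_right])
    have hdK : PowerSeries.constantCoeff (R := KK p n) (MvPowerSeries.map (iK p n) d) = 0 :=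
      Honda.const_map _ hd0
    have hdd : (PowerSeries.X ^ p ^ M : PowerSeries (WW p n)) ∣ d := by
      refine STD.dvd_of_map (hdv.trans ?_)
      have hu : IsUnit (PowerSeries.coeff 1 (l0 p n)) := (l0_one (p := p) c.hn).symm ▸ isUnit_one
      have e1 := comp (hs0 hdK) (hs0 (l0_const c.hn)) ((l0 p n).substInvOfIsUnit hu)
      rw [PowerSeries.subst_substInvOfIsUnit_left _ (l0_const c.hn), PowerSeries.subst_X (hs0 hdK),
        hd] at e1
      change h ∣ MvPowerSeries.map (iK p n) d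
      rw [e1]
      exact STD.dvd_subst (hs0 hh0) (PowerSeries.constantCoeff_substInvOfIsUnit _ hu)
    have hend := std_endo c.hn hF ((a.mapRange (WittVector.teichmuller p)
      (WittVector.teichmuller_zero p)).mapDomain (M + ·)) (A := d) hd0 (by
        rw [Finsupp.sum_mapDomain_index_inj (add_right_injective M),
          Finsupp.sum_mapRange_index (by simp)]
        exact hd)
    have hD := hom_comp hψ hend
    have hE := hom_comp hD hψ'
    have hχ : (c.Γ.toPowerSeries.subst ![(X 0 : MvPowerSeries (Fin 2) (GaloisField p n)),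
        ψ'.subst (X 1 : MvPowerSeries (Fin 2) (GaloisField p n))] :
          MvPowerSeries (Fin 2) (GaloisField p n)).subst
        ![(PowerSeries.X : PowerSeries (GaloisField p n)),
          (PowerSeries.map WittVector.constantCoeff d).subst ψ] =
        c.Γ.toPowerSeries.subst ![(PowerSeries.X : PowerSeries (GaloisField p n)),
          ψ'.subst ((PowerSeries.map WittVector.constantCoeff d).subst ψ)] := by
      rw [mv_2 (hs2 PowerSeries.HasSubst.X' (hs0 hD.1)) (hsX 0) hs1,
        sX0 PowerSeries.HasSubst.X' (hs0 hD.1),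
        mv_ps (hs2 PowerSeries.HasSubst.X' (hs0 hD.1)) (hsX 1),
        sX1 PowerSeries.HasSubst.X' (hs0 hD.1)]
    have hco : ∀ i < p ^ M, PowerSeries.coeff i (c.Γ.toPowerSeries.subst
        ![(PowerSeries.X : PowerSeries (GaloisField p n)),
          ψ'.subst ((PowerSeries.map WittVector.constantCoeff d).subst ψ)]) =
        PowerSeries.coeff i (PowerSeries.X : PowerSeries (GaloisField p n)) := by
      intro i hi
      obtain ⟨K, hK⟩ := STD.fg_subst c.Γ PowerSeries.HasSubst.X' (hs0 hE.1)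
      have e1 : (PowerSeries.X ^ p ^ M : PowerSeries (GaloisField p n)) ∣
          PowerSeries.map WittVector.constantCoeff d := by
        simpa using map_dvd (PowerSeries.map WittVector.constantCoeff) hdd
      have e2 := ((pow_dvd_pow_of_dvd (PowerSeries.X_dvd_iff.2 hψ.1) _).trans
        (STD.pow_dvd_subst (hs0 hψ.1) e1)).trans (STD.dvd_subst (hs0 hD.1) hψ'.1)
      have e3 := PowerSeries.X_pow_dvd_iff.1 e2 i hi
      have e4 := PowerSeries.X_pow_dvd_iff.1
        ((e2.mul_left PowerSeries.X).mul_right (K : PowerSeries _)) i hi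
      rw [hK, map_add, map_add, e3, e4, add_zero, add_zero]
    refine ⟨d, hdd, fun L => ?_, ?_, fun i hi => ?_⟩
    · refine STD.dvd_of_map ?_
      rw [map_sub, STD.map_Lam, Finsupp.sum, map_sum]
      have e1 := STD.trunc_at c.hn L hdK
      rw [hd] at e1
      have e2 := Finset.dvd_sum (s := a.support) fun j _ =>
        (STD.trunc_at c.hn L (STD.const_X_pow (pow_ne_zero (M + j) hp))).mul_left
          (PowerSeries.C (iK p n (WittVector.teichmuller p (a j))))
      convert dvd_sub e2 e1 using 1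
      simp only [h, map_mul, PowerSeries.map_C, STD.map_Lam, map_pow, PowerSeries.map_X, mul_sub,
        Finset.sum_sub_distrib, Finset.mul_sum, mul_left_comm ((p : PowerSeries (KK p n)) ^ L)]
      change Lam p n L (MvPowerSeries.map (iK p n) d) - _ = _
      ring
    · rw [hχ]
      refine ⟨hom_add (hom_X _) hE, ?_⟩
      rw [hco 1 (Nat.one_lt_pow (by omega) (Fact.out : p.Prime).one_lt), PowerSeries.coeff_one_X]
      exact isUnit_one
    · rw [hχ]
      exact hco i (hi.trans (Nat.lt_pow_self (Fact.out : p.Prime).one_lt))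

namespace STD

theorem exists_prim (hn : 1 ≤ n) : ∃ ζ : GaloisField p n, IsPrimitiveRoot ζ (p ^ n - 1) := by
  obtain ⟨g, hg⟩ := IsCyclic.exists_ofOrder_eq_natCard (α := (GaloisField p n)ˣ)
  rw [Nat.card_units, GaloisField.card p n (by omega)] at hg
  exact ⟨g, IsPrimitiveRoot.coe_units_iff.2 (hg ▸ IsPrimitiveRoot.orderOf g)⟩

theorem teich_inj : Function.Injective (WittVector.teichmuller p : GaloisField p n →* WW p n) :=
  fun a b h => by simpa using congrArg (fun x : WW p n => x.coeff 0) h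

theorem l0_scale {t : WW p n} (ht : t ^ p ^ n = t) :
    (l0 p n).subst ((PowerSeries.C t * PowerSeries.X).map (iK p n)) =
      PowerSeries.C (iK p n t) * l0 p n := by
  have h1 : ∀ l, t ^ (p ^ n) ^ l = t := by
    intro l
    induction l with
    | zero => simp
    | succ l ih => rw [pow_succ, pow_mul, ih, ht]
  rw [map_mul, PowerSeries.map_C, PowerSeries.map_X, ← PowerSeries.smul_eq_C_mul,
    ← PowerSeries.rescale_eq_subst]
  ext d
  rw [PowerSeries.coeff_rescale, PowerSeries.coeff_C_mul]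
  by_cases h : ∃ l, d = (p ^ n) ^ l
  · obtain ⟨l, rfl⟩ := h
    rw [← map_pow, h1]
  · push Not at h
    rw [Honda.l0_ne h, mul_zero, mul_zero]

end STD

/-- (STD-0) PLAN: `ζ` a generator of `kˣ` (`IsPrimitiveRoot ζ (q-1)`), `eZ = ψ' ∘ (ζ X) ∘ ψ`, `eS = ψ' ∘ X^p ∘ ψ`
(`std_endo` with `w = single 0 [ζ]`, `A = [ζ] X` — note `l₀([ζ]X) = [ζ] l₀(X)` since `[ζ]^q = [ζ]` — and `w = single 1 1`, `A = X^p`).
`itr` of a conjugate is the conjugate of `itr`; `ψ(X)^q = ψ(X^q)`.  Last clause: over `W`, in `F₀.Point Unit`, both sums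
`∑ Φ^±_i • ([ζ]^i X)` have logarithm `Φ^±([ζ]) l₀` (`IsStd` makes `A ↦ l₀(A)` additive), `Φ([ζ]) = 0`
(`IsPrimitiveRoot.isRoot_cyclotomic`, teichmuller is an injective monoid hom), `l0_inj`; transport with
`exists_mapPt`, `exists_homPt`, `exists_compPt`. -/
theorem std0 (c : Ctx p n) : ∃ eZ eS : PowerSeries (GaloisField p n),
    IsFGHom c.Γ c.Γ eZ ∧ IsFGHom c.Γ c.Γ eS ∧ eS.subst eZ = ((itr eZ p).subst eS : PowerSeries (GaloisField p n)) ∧
    itr eS n = PowerSeries.X ^ (p ^ n) ∧
    ∃ P : ℕ → c.Γ.Point Unit, (∀ i, (P i).val = itr eZ i) ∧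
      ∑ i ∈ Finset.range (p ^ n), ((Polynomial.cyclotomic (p ^ n - 1) ℤ).coeff i).toNat • P i =
      ∑ i ∈ Finset.range (p ^ n), (-(Polynomial.cyclotomic (p ^ n - 1) ℤ).coeff i).toNat • P i := by
  classical
  have hp : p ≠ 0 := (Fact.out : p.Prime).ne_zero
  have hq : p ^ n ≠ 0 := pow_ne_zero n hp
  have hq1 : 1 < p ^ n := Honda.one_lt_q c.hn
  obtain ⟨F₀, hc, ψ, hF, hψ, hψ1⟩ := exists_std c
  obtain ⟨ψ', hψ', h1, h2, -⟩ := hom_inv hψ (hψ1 ▸ isUnit_one)
  obtain ⟨ζ, hζ⟩ := STD.exists_prim (p := p) c.hn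
  let t : WW p n := WittVector.teichmuller p ζ
  have ht : ∀ i, (t ^ i) ^ p ^ n = t ^ i := by
    intro i
    simp only [t, ← map_pow, Honda.pow_q c.hn]
  let cj : PowerSeries (GaloisField p n) → PowerSeries (GaloisField p n) :=
    fun e => ψ'.subst (e.subst ψ)
  have hcj : ∀ e f : PowerSeries (GaloisField p n), PowerSeries.constantCoeff e = 0 →
      PowerSeries.constantCoeff f = 0 → (cj e).subst (cj f) = cj (e.subst f) := by
    intro e f he hf
    have e1 := hs_ps (hs0 hψ.1) (hs0 hf)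
    have e2 := hs_ps e1 (hs0 hψ'.1)
    simp only [cj]
    rw [comp e2 (hs_ps (hs0 hψ.1) (hs0 he)), comp e2 (hs0 hψ.1), ← comp e1 (hs0 hψ'.1), h1,
      PowerSeries.subst_X e1, comp (hs0 hψ.1) (hs0 hf)]
  have hit : ∀ e : PowerSeries (GaloisField p n), PowerSeries.constantCoeff e = 0 →
      ∀ i, itr (cj e) i = cj (itr e i) := by
    intro e he i
    induction i with
    | zero => simp only [itr, cj]; rw [PowerSeries.subst_X (hs0 hψ.1), h2]
    | succ i ih => simp only [itr]; rw [ih, hcj _ _ (itr_const he i) he]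
  have hZ0 : ∀ x : GaloisField p n, PowerSeries.constantCoeff (PowerSeries.C x * PowerSeries.X) = 0 :=
    fun x => by simp
  have hS0 : PowerSeries.constantCoeff (PowerSeries.X ^ p : PowerSeries (GaloisField p n)) = 0 :=
    STD.const_X_pow hp
  have hiZ : ∀ i, itr (PowerSeries.C ζ * PowerSeries.X) i = PowerSeries.C (ζ ^ i) * PowerSeries.X := by
    intro i
    induction i with
    | zero => simp [itr]
    | succ i ih =>
      rw [itr, ih, PowerSeries.subst_mul (hs0 (hZ0 ζ)), PowerSeries.subst_X (hs0 (hZ0 ζ)),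
        PowerSeries.subst_C, pow_succ, map_mul, mul_assoc]
      rfl
  have hiS : ∀ i, itr (PowerSeries.X ^ p : PowerSeries (GaloisField p n)) i =
      PowerSeries.X ^ p ^ i := by
    intro i
    induction i with
    | zero => simp [itr]
    | succ i ih =>
      rw [itr, ih, PowerSeries.subst_pow (hs0 hS0), PowerSeries.subst_X (hs0 hS0), ← pow_mul,
        pow_succ']
  have hZ : IsFGHom (F₀.map WittVector.constantCoeff) (F₀.map WittVector.constantCoeff)
      (PowerSeries.C ζ * PowerSeries.X) := by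
    have := std_endo c.hn hF (Finsupp.single 0 t) (A := PowerSeries.C t * PowerSeries.X) (by simp) (by
      rw [Finsupp.sum_single_index (by simp), pow_zero, pow_one, PowerSeries.X_subst]
      exact STD.l0_scale (by simpa using ht 1))
    simpa [t] using this
  have hS : IsFGHom (F₀.map WittVector.constantCoeff) (F₀.map WittVector.constantCoeff)
      (PowerSeries.X ^ p) := by
    have := std_endo c.hn hF (Finsupp.single 1 1) (A := PowerSeries.X ^ p) (STD.const_X_pow hp) (by
      rw [Finsupp.sum_single_index (by simp)]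
      simp)
    simpa using this
  refine ⟨cj (PowerSeries.C ζ * PowerSeries.X), cj (PowerSeries.X ^ p),
    hom_comp (hom_comp hψ hZ) hψ', hom_comp (hom_comp hψ hS) hψ', ?_, ?_, ?_⟩
  · rw [hit _ (hZ0 ζ), hiZ, hcj _ _ hS0 (hZ0 ζ), hcj _ _ (hZ0 _) hS0,
      PowerSeries.subst_pow (hs0 (hZ0 ζ)), PowerSeries.subst_X (hs0 (hZ0 ζ)),
      PowerSeries.subst_mul (hs0 hS0), PowerSeries.subst_X (hs0 hS0), PowerSeries.subst_C, mul_pow,
      map_pow]
    rfl
  · rw [hit _ hS0, hiS]
    simp only [cj]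
    have e1 : ψ ^ p ^ n = ψ.subst (PowerSeries.X ^ p ^ n : PowerSeries (GaloisField p n)) := by
      rw [← PowerSeries.expand_apply _ hq]
      have e2 := map_iterateFrobenius_expand (σ := Unit) p hp ψ n
      refine e2.symm.trans ?_
      ext d
      change iterateFrobenius _ p n _ = _
      rw [iterateFrobenius_def, Honda.pow_q c.hn]
      rfl
    rw [PowerSeries.subst_pow (hs0 hψ.1), PowerSeries.subst_X (hs0 hψ.1), e1,
      ← comp (PowerSeries.HasSubst.X_pow hq) (hs0 hψ.1), h2,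
      PowerSeries.subst_X (PowerSeries.HasSubst.X_pow hq)]
  · obtain ⟨Φ₁, hΦ₁⟩ := exists_mapPt F₀ WittVector.constantCoeff Unit
    obtain ⟨Φ₂, hΦ₂⟩ := exists_compPt (F₀.map WittVector.constantCoeff) (hs0 hψ.1)
    obtain ⟨Φ₃, hΦ₃⟩ := exists_homPt hψ' Unit
    let Q : ℕ → F₀.Point Unit := fun i => ⟨PowerSeries.C (t ^ i) * PowerSeries.X, hs0 (by simp)⟩
    have h0 : ∀ A : F₀.Point Unit, constantCoeff A.val = 0 := fun A => A.2.eq_zero
    let Λ : F₀.Point Unit →+ PowerSeries (KK p n) :=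
      { toFun := fun A => (l0 p n).subst (A.val.map (iK p n))
        map_zero' := by
          rw [FormalGroup.zero_apply, map_zero]
          exact PowerSeries.subst_zero_of_constantCoeff_zero (l0_const c.hn)
        map_add' := fun A B => STD.std_add hF (h0 A) (h0 B) }
    have hΛ : Function.Injective Λ := fun A B h =>
      Subtype.ext (STD.map_inj (l0_inj c.hn (Honda.const_map _ (h0 A)) (Honda.const_map _ (h0 B)) h))
    have hQ : ∀ i, Λ (Q i) = PowerSeries.C (iK p n t ^ i) * l0 p n := fun i => by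
      rw [← map_pow]; exact STD.l0_scale (ht i)
    refine ⟨fun i => (Φ₃.comp (Φ₂.comp Φ₁)) (Q i), fun i => ?_, ?_⟩
    · change (Φ₃ (Φ₂ (Φ₁ (Q i)))).val = _
      rw [hΦ₃, hΦ₂, hΦ₁, hit _ (hZ0 ζ), hiZ]
      simp only [cj, Q]
      congr 2
      change PowerSeries.map _ _ = _
      simp [t]
    · simp only [← map_nsmul, ← map_sum]
      congr 1
      apply hΛ
      simp only [map_sum, map_nsmul, hQ, nsmul_eq_mul, ← mul_assoc, ← Finset.sum_mul]
      congr 1
      have hT : IsPrimitiveRoot (iK p n t) (p ^ n - 1) :=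
        (hζ.map_of_injective (STD.teich_inj (p := p))).map_of_injective Honda.iK_inj
      have hr := hT.isRoot_cyclotomic (by omega)
      rw [← Polynomial.map_cyclotomic_int, Polynomial.IsRoot, Polynomial.eval_map,
        Polynomial.eval₂_eq_sum_range' _ (n := p ^ n) (by
          rw [Polynomial.natDegree_cyclotomic]
          exact (Nat.totient_le _).trans_lt (by omega))] at hr
      rw [← sub_eq_zero, ← Finset.sum_sub_distrib, ← map_zero PowerSeries.C, ← hr, map_sum]
      refine Finset.sum_congr rfl fun i _ => ?_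
      have e1 := congrArg (Int.cast : ℤ → PowerSeries (KK p n))
        (Int.toNat_sub_toNat_neg ((Polynomial.cyclotomic (p ^ n - 1) ℤ).coeff i))
      rw [Int.cast_sub, Int.cast_natCast, Int.cast_natCast] at e1
      rw [← sub_mul, e1]
      simp

end
end Crest.Agent.R227
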