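import Crest.Agent.R227.Ev

/-!
# 227-WIT (+ DENS, TRANS, orthogonality bookkeeping).
-/
set_option autoImplicit false
open MvPowerSeries

namespace Crest.Agent.R227
noncomputable section
variable {C : Type} [NormedField C] [IsUltrametricDist C] [CompleteSpace C]

namespace WIT

theorem map_Lam (p n L : ℕ) {A B : Type*} [CommRing A] [CommRing B] (f : A →+* B) (Y : A) :
    f (Lam p n L Y) = Lam p n L (f Y) := by
  simp [Lam]

theorem sub_dvd_Lam (p n L : ℕ) {A : Type*} [CommRing A] (Y Y' : A) :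
    Y - Y' ∣ Lam p n L Y - Lam p n L Y' := by
  rw [Lam, Lam, ← Finset.sum_sub_distrib]
  refine Finset.dvd_sum fun l _ => ?_
  rw [← mul_sub]
  exact (sub_dvd_pow_sub_pow _ _ _).mul_left _

theorem p_dvd_Lam (p n L : ℕ) (hn : 1 ≤ n) {A : Type*} [CommRing A] {Y Y' : A}
    (h : (p : A) ∣ Y - Y') : (p : A) ^ (L + 1) ∣ Lam p n L Y - Lam p n L Y' := by
  rw [Lam, Lam, ← Finset.sum_sub_distrib]
  refine Finset.dvd_sum fun l hl => ?_
  rw [← mul_sub, ← pow_mul]
  have h1 := mul_dvd_mul_left ((p : A) ^ (L - l)) (dvd_sub_pow_of_dvd_sub h (n * l))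
  refine Dvd.dvd.trans ?_ h1
  rw [← pow_add]
  have := Finset.mem_range.1 hl
  exact pow_dvd_pow _ (by have := Nat.mul_le_mul_right l hn; omega)

/-- `y` has order `≥ a` and `x - y` has order `≥ a + 1`. -/
def Rel {A : Type*} [CommRing A] (I : Ideal A) (a : ℕ) (x y : A) : Prop :=
  y ∈ I ^ a ∧ x - y ∈ I ^ (a + 1)

theorem Rel.mul {A : Type*} [CommRing A] {I : Ideal A} {a b : ℕ} {x y x' y' : A}
    (h : Rel I a x y) (h' : Rel I b x' y') : Rel I (a + b) (x * x') (y * y') := by
  have hx' : x' ∈ I ^ b := by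
    have := Ideal.add_mem _ (Ideal.pow_le_pow_right (Nat.le_succ b) h'.2) h'.1
    simpa using this
  refine ⟨by rw [pow_add]; exact Ideal.mul_mem_mul h.1 h'.1, ?_⟩
  have e : x * x' - y * y' = (x - y) * x' + y * (x' - y') := by ring
  rw [e]
  refine Ideal.add_mem _ ?_ ?_
  · rw [show a + b + 1 = a + 1 + b by omega, pow_add]; exact Ideal.mul_mem_mul h.2 hx'
  · rw [add_assoc, pow_add]; exact Ideal.mul_mem_mul h.1 h'.2

theorem Rel.one {A : Type*} [CommRing A] (I : Ideal A) : Rel I 0 1 1 := by simp [Rel]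

theorem Rel.pow {A : Type*} [CommRing A] {I : Ideal A} {x y : A} (h : Rel I 1 x y) (m : ℕ) :
    Rel I m (x ^ m) (y ^ m) := by
  induction m with
  | zero => simpa using Rel.one I
  | succ m ih => rw [pow_succ, pow_succ]; exact ih.mul h

theorem Rel.prod {A ι : Type*} [CommRing A] {I : Ideal A} {x y : ι → A} (h : ∀ j, Rel I 1 (x j) (y j))
    (S : Finset ι) (m : ι → ℕ) : Rel I (∑ j ∈ S, m j) (∏ j ∈ S, x j ^ m j) (∏ j ∈ S, y j ^ m j) := by
  classical
  induction S using Finset.induction_on with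
  | empty => simpa using Rel.one I
  | insert j S hj ih =>
    rw [Finset.sum_insert hj, Finset.prod_insert hj, Finset.prod_insert hj]
    exact ((h j).pow _).mul ih

omit [CompleteSpace C] in
theorem norm_eq_of_sub_lt {x y : Ob C} (h : ‖x - y‖ < ‖y‖) : ‖x‖ = ‖y‖ := by
  have := IsUltrametricDist.norm_add_eq_max_of_norm_ne_norm h.ne
  rw [sub_add_cancel] at this
  rw [this, max_eq_right h.le]

omit [CompleteSpace C] in
theorem lip {k ι : Type*} [CommRing k] (f : k →+* Ob C) (P : MvPolynomial ι k) {u v : ι → Ob C}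
    {s : ℝ} (hs : 0 ≤ s) (h : ∀ j, ‖u j - v j‖ ≤ s) :
    ‖MvPolynomial.eval₂ f u P - MvPolynomial.eval₂ f v P‖ ≤ s := by
  rw [← Ob.mem_ball (hs := hs), ← Ideal.Quotient.eq, MvPolynomial.eval₂_comp_left,
    MvPolynomial.eval₂_comp_left]
  congr 1
  funext j
  exact Ideal.Quotient.eq.2 (h j)

end WIT

/-- (WIT) PLAN: `D = q^(L+1) ≥ L`, `d_D = trunc D d ∈ W[X]`.  The polynomial `Λ_L(d_D) - ∑ [a_j] Λ_L(X^(p^(M+j)))` is divisible by `X^D`
(as a power series, hence as a polynomial).  Evaluate by `eval₂ (WittVector.map ι) [x]`: `Y = d_D([x])`.  `Y.coeff 0 = lam + x^D b`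
(`norm_ev1_sub_sum`, `Ob.dvd_iff`), so `Y - [lam] - [x^D b] ∈ (p)` (`mem_span_p_iff_coeff_zero_eq_zero`).  In `W(O) ⧸ ([ϖ]^L)`, `Y ≡ [lam] mod p`, so
`Y^(q^l) ≡ [lam]^(q^l) mod p^(l+1)` (`dvd_sub_pow_of_dvd_sub`). -/
theorem wit [IsAlgClosed C] (p : ℕ) [Fact p.Prime] [CharP C p] (n : ℕ) (hn : 1 ≤ n) (ι : GaloisField p n →+* Ob C)
    (x ϖ : Ob C) (hx : ‖x‖ ≤ ‖ϖ‖) (hϖ : ‖ϖ‖ < 1) (M : ℕ) (a : ℕ →₀ GaloisField p n) (d : PowerSeries (WW p n))
    (hd : ∀ L, PowerSeries.X ^ ((p ^ n) ^ (L + 1)) ∣ Lam p n L d - a.sum fun j b =>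
      PowerSeries.C (WittVector.teichmuller p b) * Lam p n L (PowerSeries.X ^ (p ^ (M + j)))) (L : ℕ) :
    Lam p n L (WittVector.teichmuller p (ev1 x ((d.map WittVector.constantCoeff).map ι))) -
      a.sum (fun j b => WittVector.teichmuller p (ι b) *
        Lam p n L (WittVector.teichmuller p (x ^ p ^ M) ^ (p ^ j))) ∈
    Ideal.span {(p : WittVector p (Ob C)) ^ (L + 1), WittVector.teichmuller p ϖ ^ L} := by
  have hp := (Fact.out : p.Prime).one_lt
  set D := (p ^ n) ^ (L + 1) with hD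
  have hLD : L ≤ D := by
    have := Nat.lt_pow_self (n := L + 1) (Nat.one_lt_pow (by omega : n ≠ 0) hp)
    omega
  have hx1 : ‖x‖ < 1 := hx.trans_lt hϖ
  set Q : Polynomial (WW p n) := Lam p n L (PowerSeries.trunc D d) - a.sum fun j b =>
    Polynomial.C (WittVector.teichmuller p b) * Lam p n L (Polynomial.X ^ (p ^ (M + j))) with hQ
  have hQd : Polynomial.X ^ D ∣ Q := by
    have h1 : (Q : PowerSeries (WW p n)) = Lam p n L (PowerSeries.trunc D d : PowerSeries (WW p n)) -
        a.sum fun j b => PowerSeries.C (WittVector.teichmuller p b) *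
          Lam p n L (PowerSeries.X ^ (p ^ (M + j))) := by
      rw [← Polynomial.coeToPowerSeries.ringHom_apply, hQ, map_sub, map_finsuppSum]
      simp only [WIT.map_Lam, map_mul, map_pow, Polynomial.coeToPowerSeries.ringHom_apply,
        Polynomial.coe_C, Polynomial.coe_X]
    have h2 : PowerSeries.X ^ D ∣ (PowerSeries.trunc D d : PowerSeries (WW p n)) - d := by
      rw [PowerSeries.X_pow_dvd_iff]
      intro m hm
      rw [map_sub, Polynomial.coeff_coe, PowerSeries.coeff_trunc, if_pos hm, sub_self]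
    have h3 := dvd_add (h2.trans (WIT.sub_dvd_Lam p n L _ _)) (hd L)
    rw [sub_add_sub_cancel, ← h1, PowerSeries.X_pow_dvd_iff] at h3
    rw [Polynomial.X_pow_dvd_iff]
    intro m hm
    rw [← Polynomial.coeff_coe]; exact h3 m hm
  set E : Polynomial (WW p n) →+* WittVector p (Ob C) :=
    Polynomial.eval₂RingHom (WittVector.map ι) (WittVector.teichmuller p x) with hE
  set Y := E (PowerSeries.trunc D d) with hY
  have hEX : E Polynomial.X = WittVector.teichmuller p x := by simp [hE]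
  have h4 : WittVector.teichmuller p x ^ D ∣ Lam p n L Y -
      a.sum (fun j b => WittVector.teichmuller p (ι b) *
        Lam p n L (WittVector.teichmuller p (x ^ p ^ M) ^ (p ^ j))) := by
    have := map_dvd E hQd
    rw [map_pow, hEX, hQ, map_sub, map_finsuppSum] at this
    simp only [WIT.map_Lam, map_mul, map_pow, hEX] at this
    convert this using 3 with j b
    · funext j b
      rw [map_pow, ← pow_mul, ← pow_add]
      simp [hE]
  have hY0 : WittVector.constantCoeff Y = ∑ i ∈ Finset.range D,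
      PowerSeries.coeff i ((d.map WittVector.constantCoeff).map ι) * x ^ i := by
    rw [hY, hE, Polynomial.coe_eval₂RingHom, PowerSeries.eval₂_trunc_eq_sum_range, map_sum]
    refine Finset.sum_congr rfl fun i _ => ?_
    rw [map_mul, map_pow]
    simp [WittVector.map_coeff]
  obtain ⟨b, hb⟩ : x ^ D ∣ ev1 x ((d.map WittVector.constantCoeff).map ι) - WittVector.constantCoeff Y := by
    rw [Ob.dvd_iff, hY0, norm_pow]
    exact norm_ev1_sub_sum hx1 _ _
  set lam := ev1 x ((d.map WittVector.constantCoeff).map ι) with hlam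
  have h5 : (p : WittVector p (Ob C)) ∣ WittVector.teichmuller p lam -
      (Y + WittVector.teichmuller p x ^ D * WittVector.teichmuller p b) := by
    rw [← Ideal.mem_span_singleton, ← WittVector.ker_constantCoeff, RingHom.mem_ker, map_sub, map_add,
      map_mul, map_pow]
    simp only [WittVector.constantCoeff_apply, WittVector.teichmuller_coeff_zero] at hb ⊢
    linear_combination hb
  have h6 := WIT.p_dvd_Lam p n L hn h5
  have h7 := WIT.sub_dvd_Lam p n L (Y + WittVector.teichmuller p x ^ D * WittVector.teichmuller p b) Y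
  rw [add_sub_cancel_left] at h7
  have h8 : WittVector.teichmuller p ϖ ^ L ∣ WittVector.teichmuller p x ^ D :=
    (pow_dvd_pow_of_dvd (map_dvd _ (Ob.dvd_iff.2 hx)) L).trans (pow_dvd_pow _ hLD)
  obtain ⟨u, hu⟩ := h6
  obtain ⟨v, hv⟩ := h8.trans (dvd_add ((dvd_mul_right _ _).trans h7) h4)
  exact Ideal.mem_span_pair.2 ⟨u, v, by linear_combination -hu - hv⟩

/-- (DENS) PLAN: let `e` be the least degree of a `d` supported in `S` with `coeff d F ≠ 0`, `F_e` the sum of these monomials (a nonzero polynomial);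
`O` is an infinite domain, so `F_e · ∏_{i ∈ S} X_i` does not vanish at some `c` (`MvPolynomial.funext`); put `c i = 0` off `S`
(this does not change `F_e(c)`), `a = ϖ^N c`.  `ev a F = ϖ^(N e) F_e(c) + O(‖ϖ‖^(N(e+1)))` (`norm_ev_sub_trunc`). -/
theorem dens {σ : Type} [Finite σ] (ϖ : Ob C) (h0 : ϖ ≠ 0) (h1 : ‖ϖ‖ < 1) (S : Set σ) (F : MvPowerSeries σ (Ob C))
    (d : σ →₀ ℕ) (hd : ∀ i ∉ S, d i = 0) (hF : coeff d F ≠ 0) :
    ∃ a : σ → Ob C, (∀ i, ‖a i‖ < 1) ∧ (∀ i ∉ S, a i = 0) ∧ (∀ i ∈ S, a i ≠ 0) ∧ ev a F ≠ 0 := by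
  classical
  have := Fintype.ofFinite σ
  have hpos : 0 < ‖ϖ‖ := norm_pos_iff.2 h0
  have : Infinite (Ob C) := Infinite.of_injective (fun n : ℕ => ϖ ^ n) fun m n h => by
    have := congrArg norm h
    simp only [norm_pow] at this
    exact pow_right_injective₀ hpos h1.ne this
  have hex : ∃ e, ∃ d : σ →₀ ℕ, (∀ i ∉ S, d i = 0) ∧ coeff d F ≠ 0 ∧ d.degree = e := ⟨_, d, hd, hF, rfl⟩
  obtain ⟨d₀, hd₀, hF₀, he⟩ := Nat.find_spec hex
  have hmin : ∀ d : σ →₀ ℕ, (∀ i ∉ S, d i = 0) → coeff d F ≠ 0 → Nat.find hex ≤ d.degree :=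
    fun d h1 h2 => Nat.find_min' hex ⟨d, h1, h2, rfl⟩
  set e := Nat.find hex
  set T := truncTotal (e + 1) F with hT
  set A := T.support.filter fun d => ∀ i ∉ S, d i = 0 with hA
  have hAdeg : ∀ d ∈ A, d.degree = e := by
    intro d hd
    obtain ⟨h2, h3⟩ := Finset.mem_filter.1 hd
    rw [MvPolynomial.mem_support_iff, hT, coeff_truncTotal_eq_ite] at h2
    split_ifs at h2 with h4
    · have := hmin d h3 h2
      omega
    · exact absurd rfl h2
  set TS : MvPolynomial σ (Ob C) := ∑ d ∈ A, MvPolynomial.monomial d (T.coeff d) with hTS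
  have hT0 : T.coeff d₀ ≠ 0 := by rw [hT, coeff_truncTotal _ (by omega)]; exact hF₀
  have hTS0 : TS ≠ 0 := by
    intro h
    have h2 := congrArg (MvPolynomial.coeff d₀) h
    rw [hTS, MvPolynomial.coeff_sum, Finset.sum_eq_single d₀
      (fun d _ hne => by rw [MvPolynomial.coeff_monomial, if_neg hne])
      (fun h => absurd (Finset.mem_filter.2 ⟨MvPolynomial.mem_support_iff.2 hT0, hd₀⟩) h)] at h2
    simp only [MvPolynomial.coeff_monomial, if_true, MvPolynomial.coeff_zero] at h2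
    exact hT0 h2
  have hevS : ∀ b : σ → Ob C, MvPolynomial.eval b TS = ∑ d ∈ A, T.coeff d * ∏ i, b i ^ d i := by
    intro b
    rw [hTS, map_sum]
    refine Finset.sum_congr rfl fun d _ => ?_
    rw [MvPolynomial.eval_monomial, Finsupp.prod_fintype _ _ (fun _ => pow_zero _)]
  obtain ⟨c, hc⟩ : ∃ c, MvPolynomial.eval c (TS * ∏ i, MvPolynomial.X i) ≠ 0 := by
    by_contra hcon
    push Not at hcon
    exact mul_ne_zero hTS0 (Finset.prod_ne_zero_iff.2 fun i _ => MvPolynomial.X_ne_zero i)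
      (MvPolynomial.funext fun c => by rw [hcon c, map_zero])
  rw [map_mul, map_prod, mul_ne_zero_iff, Finset.prod_ne_zero_iff] at hc
  simp only [MvPolynomial.eval_X] at hc
  obtain ⟨N, hN⟩ := exists_pow_lt_of_lt_one (norm_pos_iff.2 hc.1) h1
  have hθ1 : ‖ϖ‖ ^ N < 1 := hN.trans_le (Ob.norm_le_one _)
  set a : σ → Ob C := fun i => if i ∈ S then ϖ ^ N * c i else 0 with ha
  have haθ : ∀ i, ‖a i‖ ≤ ‖ϖ‖ ^ N := by
    intro i
    simp only [ha]
    split_ifs
    · rw [norm_mul, norm_pow]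
      exact mul_le_of_le_one_right (by positivity) (Ob.norm_le_one _)
    · simp
  have ha1 : ∀ i, ‖a i‖ < 1 := fun i => (haθ i).trans_lt hθ1
  refine ⟨a, ha1, fun i hi => if_neg hi, fun i hi => ?_, fun hz => ?_⟩
  · simp only [ha, if_pos hi]
    exact mul_ne_zero (pow_ne_zero _ h0) (hc.2 i (Finset.mem_univ _))
  · have h2 := norm_ev_sub_trunc ha1 (by positivity) haθ F (e + 1)
    have h3 : MvPolynomial.eval a T = (ϖ ^ N) ^ e * MvPolynomial.eval c TS := by
      rw [MvPolynomial.eval_eq', hevS, Finset.mul_sum, hA, Finset.sum_filter]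
      refine Finset.sum_congr rfl fun d hd => ?_
      split_ifs with h4
      · rw [← hAdeg d (Finset.mem_filter.2 ⟨hd, h4⟩), Finsupp.degree_eq_sum,
          ← Finset.prod_pow_eq_pow_sum, mul_left_comm, ← Finset.prod_mul_distrib]
        congr 1
        refine Finset.prod_congr rfl fun i _ => ?_
        by_cases hi : i ∈ S
        · simp only [ha, if_pos hi, mul_pow]
        · simp [h4 i hi]
      · push Not at h4
        obtain ⟨i, hi, h5⟩ := h4
        rw [Finset.prod_eq_zero (Finset.mem_univ i), mul_zero]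
        simp only [ha, if_neg hi, zero_pow h5]
    rw [hz, zero_sub, norm_neg, ← hT, h3, norm_mul, norm_pow, norm_pow, pow_succ] at h2
    exact absurd (le_of_mul_le_mul_left h2 (by positivity)) (not_le.2 hN)

/-- (TRANS) translate of a polynomial by `χ`.  PLAN: `χ_D = truncTotal (D+2) χ` mapped by `ι`; `F = P(χ_D(η_j, T_j))`
(`MvPolynomial.aeval`/`eval₂`).  `β₀` of minimal degree in the support of `P`.  Mod `mO` (`η ≡ 0`), `χ_D(0,T_j) = T_j + T_j² _`, so the coefficient of
`T^β₀` in `F` reduces to `ι (coeff β₀ P) ≠ 0` (substitution `T_j ↦ T_j(1 + T_j _)` changes a monomial of degree `e` by terms in `idealOfVars^(e+1)`,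
`MvPolynomial.mem_pow_idealOfVars_iff'`).  The estimate: `norm_ev_sub_trunc` and polynomials over `O` are 1-Lipschitz. -/
theorem trans_poly {k : Type} [Field k] (ι : k →+* Ob C) {r : ℕ} (P : MvPolynomial (Fin r) k) (hP : P ≠ 0)
    (χ : MvPowerSeries (Fin 2) k) (h0 : constantCoeff χ = 0) (h1 : coeff (Finsupp.single 1 1) χ = 1)
    (η : Fin r → Ob C) {θ : ℝ} (hθ0 : 0 ≤ θ) (hθ : θ < 1) (hη : ∀ j, ‖η j‖ ≤ θ) (D : ℕ) :
    ∃ (F : MvPolynomial (Fin r) (Ob C)) (β₀ : Fin r →₀ ℕ), ‖F.coeff β₀‖ = 1 ∧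
      (∀ β ∈ P.support, β₀.degree ≤ β.degree) ∧
      ∀ lam : Fin r → Ob C, (∀ j, ‖lam j‖ ≤ θ) →
        ‖MvPolynomial.eval lam F - MvPolynomial.eval₂ ι (fun j => ev ![η j, lam j] (χ.map ι)) P‖ ≤ θ ^ D := by
  classical
  set χD := truncTotal (D + 2) (χ.map ι) with hχD
  set g : Fin r → MvPolynomial (Fin r) (Ob C) := fun j =>
    MvPolynomial.eval₂Hom MvPolynomial.C ![MvPolynomial.C (η j), MvPolynomial.X j] χD with hg
  obtain ⟨β₀, hβ₀, hmin⟩ := Finset.exists_min_image P.support (fun β => β.degree)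
    (MvPolynomial.support_nonempty.2 hP)
  refine ⟨MvPolynomial.eval₂ (MvPolynomial.C.comp ι) g P, β₀, ?_, hmin, fun lam hlam => ?_⟩
  · set π := Ideal.Quotient.mk (Ob.mO C) with hπ
    set I := MvPolynomial.idealOfVars (Fin r) (Ob C ⧸ Ob.mO C) with hI
    have hX : ∀ j, MvPolynomial.X j ∈ I := fun j => Ideal.subset_span ⟨j, rfl⟩
    have hrel : ∀ j, WIT.Rel I 1 (MvPolynomial.map π (g j)) (MvPolynomial.X j) := by
      intro j
      refine ⟨by simpa using hX j, ?_⟩
      set Θ : MvPolynomial (Fin 2) (Ob C) →+* MvPolynomial (Fin r) (Ob C ⧸ Ob.mO C) :=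
        MvPolynomial.eval₂Hom (MvPolynomial.C.comp π) ![0, MvPolynomial.X j] with hΘ
      have e1 : MvPolynomial.map π (g j) = Θ χD := by
        have hη0 : π (η j) = 0 := Ideal.Quotient.eq_zero_iff_mem.2 ((hη j).trans_lt hθ)
        have : (MvPolynomial.map π).comp (MvPolynomial.eval₂Hom MvPolynomial.C
            ![MvPolynomial.C (η j), MvPolynomial.X j]) = Θ := by
          refine MvPolynomial.ringHom_ext (fun c => by simp [hΘ]) fun i => ?_
          fin_cases i <;> simp [hΘ, hη0]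
        rw [← this]; rfl
      have e2 : χD - (MvPolynomial.C (χD.coeff (Finsupp.single 0 1)) * MvPolynomial.X 0 +
          MvPolynomial.X 1) ∈ MvPolynomial.idealOfVars (Fin 2) (Ob C) ^ 2 := by
        rw [MvPolynomial.mem_pow_idealOfVars_iff']
        intro x hx
        rw [Finsupp.degree_eq_sum, Fin.sum_univ_two] at hx
        have hcase : x = 0 ∨ x = Finsupp.single 0 1 ∨ x = Finsupp.single 1 1 := by
          have : (x 0 = 0 ∧ x 1 = 0) ∨ (x 0 = 1 ∧ x 1 = 0) ∨ (x 0 = 0 ∧ x 1 = 1) := by omega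
          rcases this with h | h | h
          · left; ext i; fin_cases i <;> simp [h.1, h.2]
          · right; left; ext i; fin_cases i <;> simp [h.1, h.2]
          · right; right; ext i; fin_cases i <;> simp [h.1, h.2]
        have hne : (Finsupp.single 0 1 : Fin 2 →₀ ℕ) ≠ Finsupp.single 1 1 := by
          intro h; simpa using congrArg (fun f => f 0) h
        rcases hcase with rfl | rfl | rfl
        · have : χD.coeff 0 = 0 := by
            rw [hχD, coeff_truncTotal _ (by simp), coeff_map, coeff_zero_eq_constantCoeff_apply, h0,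
              map_zero]
          simp [this]
        · simp [MvPolynomial.coeff_X, hne.symm]
        · have : χD.coeff (Finsupp.single 1 1) = 1 := by
            rw [hχD, coeff_truncTotal _ (by simp), coeff_map, h1, map_one]
          simp [this, MvPolynomial.coeff_X, hne]
      have e3 : Ideal.map Θ (MvPolynomial.idealOfVars (Fin 2) (Ob C)) ≤ I := by
        rw [Ideal.map_le_iff_le_comap, Ideal.span_le]
        rintro _ ⟨i, rfl⟩
        fin_cases i
        · simp [hΘ]
        · simpa [hΘ] using hX j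
      have e4 := Ideal.mem_map_of_mem Θ e2
      rw [Ideal.map_pow] at e4
      have e5 := Ideal.pow_right_mono e3 2 e4
      rw [map_sub, map_add, map_mul] at e5
      rw [e1]
      simpa [hΘ] using e5
    have key : MvPolynomial.map π (MvPolynomial.eval₂ (MvPolynomial.C.comp ι) g P) -
        MvPolynomial.map (π.comp ι) P ∈ I ^ (β₀.degree + 1) := by
      rw [MvPolynomial.eval₂_eq, map_sum, MvPolynomial.map_eq_eval₂Hom_C_comp (π.comp ι),
        MvPolynomial.coe_eval₂Hom, MvPolynomial.eval₂_eq, ← Finset.sum_sub_distrib]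
      refine Ideal.sum_mem _ fun β hβ => ?_
      rw [map_mul, map_prod]
      simp only [RingHom.comp_apply, MvPolynomial.map_C, map_pow]
      rw [← mul_sub]
      refine Ideal.mul_mem_left _ _ (Ideal.pow_le_pow_right ?_ (WIT.Rel.prod hrel β.support β).2)
      have := hmin β hβ
      rw [Finsupp.degree_apply β] at this
      omega
    have h2 := (MvPolynomial.mem_pow_idealOfVars_iff' _ _).1 key β₀ (Nat.lt_succ_self _)
    rw [MvPolynomial.coeff_sub, MvPolynomial.coeff_map, MvPolynomial.coeff_map, sub_eq_zero] at h2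
    refine le_antisymm (Ob.norm_le_one _) (not_lt.1 fun hlt => ?_)
    rw [Ideal.Quotient.eq_zero_iff_mem.2 hlt] at h2
    have : Nontrivial (Ob C ⧸ Ob.mO C) := Ideal.Quotient.nontrivial_iff.2 (Ideal.IsMaximal.ne_top inferInstance)
    exact MvPolynomial.mem_support_iff.1 hβ₀ ((_root_.map_eq_zero _).1 h2.symm)
  · have e1 : (MvPolynomial.eval lam).comp (MvPolynomial.C.comp ι) = ι := by
      ext c; simp
    rw [MvPolynomial.eval₂_comp_left, e1]
    refine WIT.lip ι P (by positivity) fun j => ?_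
    have e2 : MvPolynomial.eval lam (g j) = MvPolynomial.eval ![η j, lam j] χD := by
      have : (MvPolynomial.eval lam).comp (MvPolynomial.eval₂Hom MvPolynomial.C
          ![MvPolynomial.C (η j), MvPolynomial.X j]) = MvPolynomial.eval ![η j, lam j] := by
        refine MvPolynomial.ringHom_ext (fun c => by simp) fun i => ?_
        fin_cases i <;> simp
      rw [← this]; rfl
    have hle : ∀ i, ‖(![η j, lam j] : Fin 2 → Ob C) i‖ ≤ θ := fun i => by
      fin_cases i
      · exact hη j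
      · exact hlam j
    rw [Function.comp_apply, e2, norm_sub_rev]
    exact (norm_ev_sub_trunc (fun i => (hle i).trans_lt hθ) hθ0 hle _ (D + 2)).trans
      (pow_le_pow_of_le_one hθ0 hθ.le (by omega))

omit [CompleteSpace C] in
theorem norm_eval₂_le {k : Type} [CommRing k] (ι : k →+* Ob C) {r : ℕ} (P : MvPolynomial (Fin r) k) (e : ℕ)
    (he : ∀ β ∈ P.support, e ≤ β.degree) (η : Fin r → Ob C) {θ : ℝ} (hθ0 : 0 ≤ θ) (hθ : θ ≤ 1)
    (hη : ∀ j, ‖η j‖ ≤ θ) : ‖MvPolynomial.eval₂ ι η P‖ ≤ θ ^ e := by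
  rw [MvPolynomial.eval₂_eq]
  refine IsUltrametricDist.norm_sum_le_of_forall_le_of_nonneg (by positivity) fun β hβ => ?_
  rw [norm_mul]
  refine (mul_le_of_le_one_left (norm_nonneg _) (Ob.norm_le_one _)).trans ?_
  exact (EV.norm_prod_le hη β).trans (pow_le_pow_of_le_one hθ0 hθ (he β hβ))

omit [CompleteSpace C] in
/-- PLAN: terms with `p ∣ c` vanish; `‖∑ c x' - ∑ c x‖ < max_{p ∤ c_j} ‖x j‖ ≤ ‖∑ c x‖`. -/
theorem orth_perturb (p q : ℕ) [Fact p.Prime] [CharP C p] {r : ℕ} {x x' : Fin r → Ob C} (h : OrthFam p q x)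
    (hx : ∀ j, ‖x' j - x j‖ < ‖x j‖) : OrthFam p q x' := by
  obtain ⟨h1, h2, h3, h4, h5⟩ := h
  have hn : ∀ j, ‖x' j‖ = ‖x j‖ := fun j => WIT.norm_eq_of_sub_lt (hx j)
  refine ⟨fun j => norm_pos_iff.1 (by rw [hn]; exact norm_pos_iff.2 (h1 j)), fun j => by rw [hn]; exact h2 j,
    by simpa only [hn] using h3, fun i j => by rw [hn, hn]; exact h4 i j, fun c j hc => ?_⟩
  have hpos : 0 < ‖∑ i, (c i : Ob C) * x i‖ := (norm_pos_iff.2 (h1 j)).trans_le (h5 c j hc)
  rw [hn, WIT.norm_eq_of_sub_lt (x := ∑ i, (c i : Ob C) * x' i) (y := ∑ i, (c i : Ob C) * x i)]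
  · exact h5 c j hc
  rw [← Finset.sum_sub_distrib]
  refine Finset.sum_induction _ (fun y : Ob C => ‖y‖ < ‖∑ i, (c i : Ob C) * x i‖)
    (fun a b ha hb => (IsUltrametricDist.norm_add_le_max a b).trans_lt (max_lt ha hb))
    (by simpa using hpos) fun i _ => ?_
  by_cases hi : (p : ℤ) ∣ c i
  · rw [(CharP.intCast_eq_zero_iff (Ob C) p _).2 hi]
    simpa using hpos
  · rw [← mul_sub, norm_mul]
    exact ((mul_le_of_le_one_left (norm_nonneg _) (Ob.norm_le_one _)).trans_lt (hx i)).trans_le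
      (h5 c i hi)

omit [CompleteSpace C] in
/-- PLAN: `(∑ c x)^(p^e) = ∑ c x^(p^e)` (`sum_pow_char_pow`, `(c : O)^p = c` for integers). -/
theorem orth_pow (p q : ℕ) [Fact p.Prime] [CharP C p] {r : ℕ} (x : Fin r → Ob C) (e : ℕ) :
    OrthFam p q (fun j => x j ^ p ^ e) ↔ OrthFam p q x := by
  have hne : p ^ e ≠ 0 := pow_ne_zero _ (Fact.out : p.Prime).ne_zero
  have hsum : ∀ c : Fin r → ℤ, ∑ i, (c i : Ob C) * x i ^ p ^ e = (∑ i, (c i : Ob C) * x i) ^ p ^ e := by
    intro c
    rw [← iterateFrobenius_def, map_sum]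
    refine Finset.sum_congr rfl fun i _ => ?_
    rw [map_mul, map_intCast, iterateFrobenius_def]
  unfold OrthFam
  simp only [hsum, norm_pow, Antitone, pow_le_pow_iff_left₀ (norm_nonneg _) (norm_nonneg _) hne,
    pow_lt_one_iff_of_nonneg (norm_nonneg _) hne, ne_eq, pow_eq_zero_iff hne]
  refine and_congr Iff.rfl (and_congr Iff.rfl (and_congr Iff.rfl (and_congr ?_ Iff.rfl)))
  refine forall₂_congr fun i j => ?_
  rw [← pow_mul, mul_comm, pow_mul, pow_lt_pow_iff_left₀ (by positivity) (norm_nonneg _) hne]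

end
end Crest.Agent.R227
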