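import Crest.Agent.R227.Rep
import Crest.Agent.R227.Cap
import Crest.Agent.R227.Wit
import Crest.Agent.R227.Std

/-!
# 227-CP: assembly of the characteristic `p` case.
-/
set_option autoImplicit false
open Crest.LubinTate

namespace Crest.Agent.R227
noncomputable section
variable {C : Type} [NormedField C] [IsUltrametricDist C] [CompleteSpace C] [IsAlgClosed C]
variable {p : ℕ} [Fact p.Prime] [CharP C p] {n : ℕ} {c : Ctx p n} {h : ℕ} {ι : GaloisField p n →+* Ob C}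

omit [IsAlgClosed C] [CharP C p] in
theorem dens2 (hh1 : 1 ≤ h) (hh : h < n) (ϖ : Ob C) (h0 : ϖ ≠ 0) (h1 : ‖ϖ‖ < 1) (f : LTRing p n)
    (hf : ∀ ξ : ZPt c h ι, ξ.z (aa c h) ≠ 0 → ξ.z f = 0) : f ∈ heightIdeal p n c.H h := by
  obtain ⟨Ψ, hΨ, hΨa⟩ := exists_Psi c
  have back : ∀ i, 1 ≤ i → i ≤ n → ∀ g ∈ heightIdeal p n c.H i, Ψ.symm g ∈ Qh p n i := by
    intro i hi1 hi2 g hg
    rw [hΨ i hi1 hi2, Ideal.mem_map_iff_of_surjective Ψ Ψ.surjective] at hg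
    obtain ⟨x, hx, rfl⟩ := hg
    simpa using hx
  by_contra hf'
  have h1' : Ψ.symm f ∉ Qh p n h := by
    intro hm
    apply hf'
    rw [hΨ h hh1 hh.le]
    simpa using Ideal.mem_map_of_mem Ψ hm
  rw [mem_Qh_iff] at h1'
  push Not at h1'
  obtain ⟨d, hd, hd0⟩ := h1'
  let ι' : WW p n →+* Ob C := ι.comp WittVector.constantCoeff
  obtain ⟨a, ha1, ha0, haS, hev⟩ := dens ϖ h0 h1 {i : Fin (n - 1) | h ≤ (i : ℕ) + 1}
    (MvPowerSeries.map ι' (Ψ.symm f)) d (fun i hi => hd i (by simpa using hi))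
    (by
      rw [MvPowerSeries.coeff_map]
      exact fun h' => hd0 (ι.injective (h'.trans (map_zero ι).symm)))
  let z0 : LTRing p n →+* Ob C := (ev a).comp (MvPowerSeries.map ι')
  have z0C : ∀ w : WW p n, z0 (MvPowerSeries.C w) = ι (WittVector.constantCoeff w) := by
    intro w
    simp only [z0, RingHom.comp_apply, MvPowerSeries.map_C, ev_C]
    rfl
  have z0p : z0 (p : LTRing p n) = 0 := by
    rw [← map_natCast (MvPowerSeries.C : WW p n →+* LTRing p n), z0C, map_natCast, CharP.cast_eq_zero,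
      map_zero]
  have z0X : ∀ i, z0 (MvPowerSeries.X i) = a i := by
    intro i
    simp only [z0, RingHom.comp_apply, MvPowerSeries.map_X, ev_X ha1]
  have hz0Q : ∀ g ∈ Qh p n h, z0 g = 0 := by
    intro g hg
    have : Qh p n h ≤ RingHom.ker z0 := by
      rw [Qh, Ideal.span_le]
      rintro x (rfl | ⟨i, hi, rfl⟩)
      · exact z0p
      · change z0 _ = 0
        rw [z0X]
        exact ha0 i (by simpa using hi)
    exact this hg
  have hz0m : ∀ g ∈ mm p n, ‖z0 g‖ < 1 := by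
    intro g hg
    refine norm_ev_lt_one ha1 ?_
    rw [MvPowerSeries.constantCoeff_map]
    have : ι' (MvPowerSeries.constantCoeff g) = ι (LTRing.residue p n g) := rfl
    rw [this, (RingHom.mem_ker).1 hg]
    simp
  let z : LTRing p n →+* Ob C := z0.comp Ψ.symm.toRingEquiv.toRingHom
  have hz : ∀ g, z g = z0 (Ψ.symm g) := fun g => rfl
  let ξ : ZPt c h ι :=
    { z := z
      zW := fun w => by rw [hz, AlgEquiv.commutes]; exact z0C w
      zm := fun g hg => by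
        rw [hz]
        apply hz0m
        rw [← Qh_top]
        exact back n c.hn le_rfl g (by rw [hI_top]; exact hg)
      zI := fun g hg => by rw [hz]; exact hz0Q _ (back h hh1 hh.le g hg) }
  refine hev (hf ξ ?_)
  let i : Fin (n - 1) := ⟨h - 1, by omega⟩
  have hi : (i : ℕ) + 1 = h := by simp only [i]; omega
  obtain ⟨b, hb⟩ := Ideal.mem_span_singleton'.1 (hΨa i)
  rw [hi] at hb
  have e1 : aa c h = Ψ (MvPowerSeries.X i) - b * p := by rw [hb]; ring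
  change z _ ≠ 0
  rw [e1, map_sub, map_mul, hz, hz, hz, map_natCast, z0p, mul_zero, sub_zero, AlgEquiv.symm_apply_apply, z0X]
  exact haS i (by simp [hi])

omit [IsAlgClosed C] [CompleteSpace C] in
theorem iota_frob (hn : 1 ≤ n) (g : PowerSeries (GaloisField p n)) :
    (g.map ι).map (iterateFrobenius (Ob C) p n) = g.map ι := by
  ext d
  have := Fintype.ofFinite (GaloisField p n)
  have hc : Fintype.card (GaloisField p n) = p ^ n := by
    rw [← Nat.card_eq_fintype_card, GaloisField.card p n (by omega)]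
  simp only [PowerSeries.coeff_map, iterateFrobenius_def]
  rw [← map_pow, ← hc, FiniteField.pow_card]

omit [IsAlgClosed C] in
theorem orbit_pt (ξ : XPt c h ι) {M : ℕ} {J : Ideal (LTRing p n)} (hJ : IsStableIdeal p n c.Γ c.H M J)
    (zJ : ∀ f ∈ J, ξ.z f = 0) {g : PowerSeries (GaloisField p n)} (hg : IsFGAut c.Γ g)
    (hgM : ∀ i < M, PowerSeries.coeff i g = PowerSeries.coeff i PowerSeries.X) :
    ∃ ξ' : XPt c h ι, (∀ f ∈ J, ξ'.z f = 0) ∧ ξ'.ρ = ξ.ρ ∧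
      ∀ j i, yy (p ^ n) (ξ'.τ j) i = ev1 (yy (p ^ n) (ξ.τ j) i) (g.map ι) := by
  obtain ⟨ψ, θ, hres, hψJ, hψI, hθ, hθg, hθu⟩ := orb c hJ hg hgM
  obtain ⟨δ, hδ0, hδ, hδm⟩ := exists_delta ξ.z ξ.zm
  have hθ' : IsFGHom (c.H.map ξ.z) (c.H.map (ξ.z.comp ψ.toRingHom)) (θ.map ξ.z) := by
    rw [← fg_map_map]
    exact hom_map hθ ξ.z
  obtain ⟨Φ, hΦ, hΦn⟩ := exists_homG hθ'
  have hΦn' := hΦn (by rw [PowerSeries.coeff_map]; exact hθu.map _)
  have hmm : ∀ f ∈ mm p n, ψ f ∈ mm p n := by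
    intro f hf
    have : LTRing.residue p n (ψ f) = LTRing.residue p n f := DFunLike.congr_fun hres f
    change LTRing.residue p n (ψ f) = 0
    rw [this]
    exact hf
  let ξ' : XPt c h ι :=
    { z := ξ.z.comp ψ.toRingHom
      zW := fun w => by
        change ξ.z (ψ _) = _
        rw [AlgHom.commutes, ξ.zW]
      zm := fun f hf => ξ.zm _ (hmm f hf)
      zI := fun f hf => ξ.zI _ (hψI h f hf)
      τ := fun j l => Φ (ξ.τ j l)
      sys := fun j => ⟨by simp only [(ξ.sys j).1, map_zero], fun i => by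
        simp only [← map_nsmul, (ξ.sys j).2]⟩
      ind := fun e he => ξ.ind e (by
        simp only [← map_nsmul, ← map_sum] at he
        have := hΦn' (∑ j, e j • ξ.τ j 1)
        rw [he, GPt.zero_val, norm_zero] at this
        exact Subtype.ext (norm_eq_zero.1 this.symm))
      ρ := ξ.ρ
      ρlt := ξ.ρlt
      ρge := fun j => by rw [hΦn']; exact ξ.ρge j }
  refine ⟨ξ', fun f hf => zJ _ (hψJ f hf), rfl, fun j i => ?_⟩
  refine yy_hom c.hn hδ0 hδ (near_of_bound ξ.z hδm) Φ hΦ (fun d => ?_) (iota_frob c.hn g) (ξ.sys j) i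
  rw [map_sub, PowerSeries.coeff_map, PowerSeries.coeff_map, ← hθg, PowerSeries.coeff_map]
  exact ZPt.sub_mem ξ.toZPt hδm _

omit [IsAlgClosed C] [CharP C p] in
theorem ev_chi (ψ d : PowerSeries (GaloisField p n)) (χ : MvPowerSeries (Fin 2) (GaloisField p n))
    (hψ : PowerSeries.constantCoeff ψ = 0) (hd : PowerSeries.constantCoeff d = 0) {t : Ob C} (ht : ‖t‖ < 1) :
    ev1 t (PowerSeries.map ι (χ.subst ![PowerSeries.X, d.subst ψ])) =
      ev ![t, ev1 (ev1 t (ψ.map ι)) (d.map ι)] (χ.map ι) := by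
  have hs := PowerSeries.HasSubst.of_constantCoeff_zero' hψ
  have h1 : MvPowerSeries.constantCoeff (d.subst ψ) = 0 :=
    PowerSeries.constantCoeff_subst_eq_zero hψ d hd
  have h2 : ∀ i, MvPowerSeries.constantCoeff
      ((![PowerSeries.X, d.subst ψ] : Fin 2 → MvPowerSeries Unit (GaloisField p n)) i) = 0 := by
    intro i
    fin_cases i
    · exact PowerSeries.constantCoeff_X
    · exact h1
  have h3 := MvPowerSeries.map_subst (MvPowerSeries.hasSubst_of_constantCoeff_zero h2) (h := ι) χ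
  change ev (fun _ : Unit => t) (MvPowerSeries.map ι _) = _
  rw [h3, ev_subst (fun _ => ht) (fun i => by rw [MvPowerSeries.constantCoeff_map, h2, map_zero])]
  congr 2
  funext i
  fin_cases i
  · change ev1 t (PowerSeries.map ι PowerSeries.X) = t
    rw [PowerSeries.map_X, ev1_X ht]
  · change ev (fun _ : Unit => t) (MvPowerSeries.map ι (d.subst ψ)) = _
    rw [PowerSeries.map_subst hs, ev_subst1 (fun _ => ht)]
    · rfl
    · rw [MvPowerSeries.constantCoeff_map]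
      exact (congrArg ι hψ).trans (map_zero ι)

/-- the degree bound. -/
theorem deg_bound (hh1 : 1 ≤ h) (hh : h < n) {M : ℕ} (hM : 1 ≤ M) {J : Ideal (LTRing p n)}
    (hJ : IsStableIdeal p n c.Γ c.H M J) (ξ : XPt c h ι) (zJ : ∀ f ∈ J, ξ.z f = 0) (m : Fin (n - h) → ℕ)
    (ho : OrthFam p (p ^ n) fun j => yy (p ^ n) (ξ.τ j) 0 ^ (p ^ n) ^ m j) {f : LTRing p n} (hf : f ∈ J)
    (s₀ : ℕ) : ∃ T : ℝ, 0 < T ∧ ∀ (B I : ℕ) (P : MvPolynomial (Fin (n - h)) (GaloisField p n)), ξ.ρ ^ B < T →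
      (∀ ξ' : XPt c h ι, ‖ξ'.z f - MvPolynomial.eval₂ ι
        (fun j => yy (p ^ n) (ξ'.τ j) (I + (∑ i, m i - m j))) P‖ ≤ ξ'.ρ ^ B) →
      ∀ β ∈ P.support, s₀ * (p ^ n) ^ (I + ∑ i, m i) ≤ β.degree := by
  have hr : 0 < n - h := by omega
  have hrn : n - h < n := by omega
  obtain ⟨A, hA⟩ := cap (C := C) p n hr hrn
  obtain ⟨ψ, χ, hψ0, hψ1, hχ0, hχ1, hstd⟩ := stdp c M hM
  choose d hd1 hd2 hd3 hd4 using hstd
  obtain ⟨δ, hδ0, hδ, hδm⟩ := exists_delta ξ.z ξ.zm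
  have hG := near_of_bound (c := c) ξ.z hδm
  set xh : Fin (n - h) → Ob C := fun j => yy (p ^ n) (ξ.τ j) 0 ^ (p ^ n) ^ m j with hxh
  let μ : ℝ := ∏ j, ‖xh j‖
  have hμ0 : 0 < μ := Finset.prod_pos fun j _ => norm_pos_iff.2 (ho.1 j)
  have hμ : ∀ j, μ ≤ ‖xh j‖ := fun j => by
    classical
    simp only [μ]
    rw [← Finset.mul_prod_erase _ _ (Finset.mem_univ j)]
    exact mul_le_of_le_one_right (norm_nonneg _)
      (Finset.prod_le_one (fun _ _ => norm_nonneg _) fun _ _ => Ob.norm_le_one _)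
  have hμ1 : μ ≤ 1 := (hμ ⟨0, hr⟩).trans (Ob.norm_le_one _)
  refine ⟨μ ^ (p ^ M * A * s₀), pow_pos hμ0 _, fun B I P hB hP β hβ => ?_⟩
  have hP0 : P ≠ 0 := by rintro rfl; simp at hβ
  set I' := I + ∑ i, m i with hI'
  let η : Fin (n - h) → Ob C := fun j => yy (p ^ n) (ξ.τ j) (I + (∑ i, m i - m j))
  have hη : ∀ j, η j ^ (p ^ n) ^ I' = xh j := by
    intro j
    have h1 : m j ≤ ∑ i, m i := Finset.single_le_sum (f := m) (fun _ _ => Nat.zero_le _) (Finset.mem_univ j)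
    have h2 := yy_pow c.hn hδ0 hδ hG (ξ.sys j) 0 (I + (∑ i, m i - m j))
    rw [zero_add] at h2
    simp only [hxh, η]
    rw [← h2, ← pow_mul (yy _ _ _), ← pow_add]
    congr 2
    omega
  have hoη : OrthFam p (p ^ n) η := by
    rw [← orth_pow p (p ^ n) η (n * I')]
    convert ho using 2 with j
    rw [pow_mul, hη]
  have hη1 : ∀ j, ‖η j‖ < 1 := hoη.2.1
  let x' : Fin (n - h) → Ob C := fun j => ev1 (η j) (ψ.map ι)
  have hx'η : ∀ j, ‖x' j - η j‖ < ‖η j‖ := by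
    intro j
    have h1 := norm_ev1_sub_sum (hη1 j) (ψ.map ι) 2
    simp only [Finset.sum_range_succ, Finset.sum_range_zero, PowerSeries.coeff_map, hψ1,
      PowerSeries.coeff_zero_eq_constantCoeff_apply, hψ0, map_zero, map_one, zero_mul, zero_add,
      one_mul, pow_one] at h1
    refine h1.trans_lt ?_
    rw [sq]
    exact mul_lt_of_lt_one_right (norm_pos_iff.2 (hoη.1 j)) (hη1 j)
  have hx'n : ∀ j, ‖x' j‖ = ‖η j‖ := by
    intro j
    have := IsUltrametricDist.norm_add_eq_max_of_norm_ne_norm (hx'η j).ne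
    rw [sub_add_cancel] at this
    rw [this, max_eq_right (hx'η j).le]
  have hox' : OrthFam p (p ^ n) x' := orth_perturb p _ hoη hx'η
  let xC : Fin (n - h) → Ob C := fun j => x' j ^ p ^ M
  have hoC : OrthFam p (p ^ n) xC := (orth_pow p _ x' M).2 hox'
  let lam : (ℕ →₀ GaloisField p n) → Fin (n - h) → Ob C := fun a j =>
    ev1 (x' j) (((d a).map WittVector.constantCoeff).map ι)
  have hlam : ∀ a j, ‖lam a j‖ ≤ ‖xC j‖ := by
    intro a j
    have := norm_ev1_le_of_order (hox'.2.1 j) (s := 1) (D := p ^ M)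
      (f := ((d a).map WittVector.constantCoeff).map ι)
      (fun i hi => by
        rw [PowerSeries.coeff_map, PowerSeries.coeff_map, PowerSeries.X_pow_dvd_iff.1 (hd1 a) i hi,
          map_zero, map_zero])
      (fun _ => Ob.norm_le_one _)
    simpa [xC, norm_pow] using this
  have hle0 : ∀ j : Fin (n - h), (⟨0, hr⟩ : Fin (n - h)) ≤ j := fun j => Nat.zero_le _
  have hW : WCong p n ι xC (x' ⟨0, hr⟩) lam := fun a s L =>
    wit p n c.hn ι (x' s) (x' ⟨0, hr⟩) (hox'.2.2.1 (hle0 s)) (hox'.2.1 _) M a (d a) (hd2 a) L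
  set T := μ ^ (p ^ M * A * s₀) with hT
  have hT0 : 0 < T := pow_pos hμ0 _
  obtain ⟨D, hD⟩ := exists_pow_lt_of_lt_one hT0 (hη1 ⟨0, hr⟩)
  have hηθ : ∀ j, ‖η j‖ ≤ ‖η ⟨0, hr⟩‖ := fun j => hoη.2.2.1 (hle0 j)
  obtain ⟨F, β₀, hF1, hF2, hF3⟩ := trans_poly ι P hP0 χ hχ0 hχ1 η (norm_nonneg _) (hη1 ⟨0, hr⟩) hηθ D
  obtain ⟨a, ha⟩ := hA ι xC _ lam hoC (hox'.2.1 _) hlam hW F β₀ hF1
  obtain ⟨ξa, h1, h2, h3⟩ := orbit_pt ξ hJ zJ (hd3 a) (hd4 a)
  have h4 := hP ξa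
  have hd0 : PowerSeries.constantCoeff ((d a).map WittVector.constantCoeff) = 0 := by
    rw [← PowerSeries.coeff_zero_eq_constantCoeff_apply, PowerSeries.coeff_map,
      PowerSeries.X_pow_dvd_iff.1 (hd1 a) 0 (pow_pos (Fact.out : p.Prime).pos _), map_zero]
  have h5 : (fun j => yy (p ^ n) (ξa.τ j) (I + (∑ i, m i - m j))) =
      fun j => ev ![η j, lam a j] (χ.map ι) := by
    funext j
    rw [h3, ev_chi ψ _ χ hψ0 hd0 (hη1 j)]
  rw [h1 f hf, h5, zero_sub, norm_neg, h2] at h4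
  have h6 := hF3 (lam a) fun j => by
    refine (hlam a j).trans (le_trans ?_ (hηθ j))
    simp only [xC, norm_pow, hx'n]
    exact pow_le_of_le_one (norm_nonneg _) (Ob.norm_le_one _) (pow_pos (Fact.out : p.Prime).pos _).ne'
  have h7 : ‖MvPolynomial.eval (lam a) F‖ < T := by
    have := IsUltrametricDist.norm_add_le_max
      (MvPolynomial.eval (lam a) F - MvPolynomial.eval₂ ι (fun j => ev ![η j, lam a j] (χ.map ι)) P)
      (MvPolynomial.eval₂ ι (fun j => ev ![η j, lam a j] (χ.map ι)) P)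
    rw [sub_add_cancel] at this
    exact this.trans_lt (max_lt (h6.trans_lt hD) (h4.trans_lt hB))
  refine le_trans ?_ (hF2 β hβ)
  by_contra hlt
  have hle : β₀.degree ≤ s₀ * (p ^ n) ^ I' := (not_le.1 hlt).le
  have hQ : (p ^ n) ^ I' ≠ 0 := pow_ne_zero _ (pow_ne_zero _ (Fact.out : p.Prime).ne_zero)
  have h8 : T ^ (p ^ n) ^ I' ≤ (xp xC β₀ ^ A) ^ (p ^ n) ^ I' := by
    have e1 : (xp xC β₀ ^ A) ^ (p ^ n) ^ I' = ∏ j, ‖xh j‖ ^ (p ^ M * A * β₀ j) := by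
      simp only [xp, xC, norm_pow, hx'n, ← Finset.prod_pow, ← hη, ← pow_mul]
      refine Finset.prod_congr rfl fun j _ => ?_
      congr 1
      ring
    rw [e1, hT, ← pow_mul]
    calc μ ^ (p ^ M * A * s₀ * (p ^ n) ^ I') ≤ μ ^ (p ^ M * A * β₀.degree) := by
          refine pow_le_pow_of_le_one hμ0.le hμ1 ?_
          rw [mul_assoc (p ^ M * A)]
          exact Nat.mul_le_mul_left _ hle
      _ = ∏ j, μ ^ (p ^ M * A * β₀ j) := by
          rw [Finset.prod_pow_eq_pow_sum, ← Finset.mul_sum, Finsupp.degree_eq_sum]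
      _ ≤ _ := Finset.prod_le_prod (fun _ _ => pow_nonneg hμ0.le _) fun j _ =>
          pow_le_pow_left₀ hμ0.le (hμ j) _
  have h9 : T ≤ xp xC β₀ ^ A :=
    le_of_pow_le_pow_left₀ hQ (pow_nonneg (Finset.prod_nonneg fun _ _ => pow_nonneg (norm_nonneg _) _) _) h8
  exact absurd (h9.trans ha) (not_le.2 h7)

theorem charp (hh1 : 1 ≤ h) (hh : h < n) {M : ℕ} (hM : 1 ≤ M) {J : Ideal (LTRing p n)}
    (hJ : IsStableIdeal p n c.Γ c.H M J) (ξ₀ : ZPt c h ι) (ha : ξ₀.z (aa c h) ≠ 0) (zJ : ∀ f ∈ J, ξ₀.z f = 0) :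
    J ≤ heightIdeal p n c.H h := by
  intro f hf
  have hr : 0 < n - h := by omega
  obtain ⟨δ, hδ0, hδ, hδm⟩ := exists_delta ξ₀.z ξ₀.zm
  obtain ⟨τ₀, h0, h1⟩ := exists_systems hh1 hh ξ₀ ha
  obtain ⟨τ, m, hs, hi, ho⟩ := exists_orth c.hn hδ0 hδ (near_of_bound ξ₀.z hδm) (tors_finite hh1 hh ξ₀ ha) τ₀ h0 h1
  obtain ⟨ρ, hρ1, hρ2⟩ := exists_xpt ξ₀ τ hs hi
  let ξ : XPt c h ι := { ξ₀ with τ := τ, sys := hs, ind := hi, ρ := ρ, ρlt := hρ1, ρge := hρ2 }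
  refine dens2 (ι := ι) hh1 hh (ξ₀.z (aa c h)) ha (ξ₀.zm _ (aa_mem_mm c hh)) f fun ξ₁ ha₁ => ?_
  obtain ⟨δ₁, hδ₁0, hδ₁, hδ₁m⟩ := exists_delta ξ₁.z ξ₁.zm
  have hG := near_of_bound (c := c) ξ₁.z hδ₁m
  obtain ⟨τ₁, hs₁, hi₁⟩ := exists_systems hh1 hh ξ₁ ha₁
  obtain ⟨ρ₁, hρ₁1, hρ₁2⟩ := exists_xpt ξ₁ τ₁ hs₁ hi₁
  let ξ' : XPt c h ι := { ξ₁ with τ := τ₁, sys := hs₁, ind := hi₁, ρ := ρ₁, ρlt := hρ₁1, ρge := hρ₁2 }
  have : Nonempty (Fin (n - h)) := ⟨⟨0, hr⟩⟩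
  obtain ⟨j₀, hj₀⟩ := Finite.exists_max fun j => ‖yy (p ^ n) (τ₁ j) 0‖
  have hν := yy_lt_one c.hn hδ₁0 hδ₁ hG (hs₁ j₀) 0
  by_contra hne
  have hε : 0 < ‖ξ₁.z f‖ := norm_pos_iff.2 hne
  obtain ⟨s₀, hs₀⟩ := exists_pow_lt_of_lt_one hε hν
  obtain ⟨T, hT0, hT⟩ := deg_bound hh1 hh hM hJ ξ zJ m ho hf s₀
  have hρ0 : 0 ≤ ρ := (rho_bound hh1 hh ξ).1
  have hρ₁0 : 0 ≤ ρ₁ := (rho_bound hh1 hh ξ').1
  obtain ⟨B, hB⟩ := exists_pow_lt_of_lt_one (lt_min hT0 hε) (max_lt hρ1 hρ₁1)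
  obtain ⟨I, P, hP⟩ := rep (c := c) (ι := ι) hh1 hh f B fun j => ∑ i, m i - m j
  have hdeg := hT B I P ((pow_le_pow_left₀ hρ0 (le_max_left _ _) B).trans_lt (hB.trans_le (min_le_left _ _))) hP
  have h2 := hP ξ'
  let η : Fin (n - h) → Ob C := fun j => yy (p ^ n) (τ₁ j) (I + (∑ i, m i - m j))
  obtain ⟨j₁, hj₁⟩ := Finite.exists_max fun j => ‖η j‖
  have h3 := norm_eval₂_le ι P _ hdeg η (norm_nonneg _) (Ob.norm_le_one _) hj₁
  have h4 : ‖η j₁‖ ^ (p ^ n) ^ (I + ∑ i, m i) ≤ ‖yy (p ^ n) (τ₁ j₀) 0‖ := by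
    have e1 := yy_pow c.hn hδ₁0 hδ₁ hG (hs₁ j₁) 0 (I + (∑ i, m i - m j₁))
    rw [zero_add] at e1
    refine le_trans ?_ (hj₀ j₁)
    rw [← e1, norm_pow]
    refine pow_le_pow_of_le_one (norm_nonneg _) (Ob.norm_le_one _) ?_
    exact Nat.pow_le_pow_right (pow_pos (Fact.out : p.Prime).pos _) (by omega)
  have h5 : ‖MvPolynomial.eval₂ ι η P‖ < ‖ξ₁.z f‖ := by
    refine h3.trans_lt (lt_of_le_of_lt ?_ hs₀)
    rw [mul_comm, pow_mul]
    exact pow_le_pow_left₀ (pow_nonneg (norm_nonneg _) _) h4 _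
  have h6 : ‖ξ₁.z f - MvPolynomial.eval₂ ι η P‖ < ‖ξ₁.z f‖ :=
    h2.trans_lt ((pow_le_pow_left₀ hρ₁0 (le_max_right _ _) B).trans_lt (hB.trans_le (min_le_right _ _)))
  have := IsUltrametricDist.norm_add_le_max (ξ₁.z f - MvPolynomial.eval₂ ι η P) (MvPolynomial.eval₂ ι η P)
  rw [sub_add_cancel] at this
  exact absurd this (not_le.2 (max_lt h6 h5))

end
end Crest.Agent.R227
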