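import Mathlib
import Crest.Prelude.Def_LubinTate

/-!
# Row 227 (S0351): definitions (sorry-free, frozen)

Notation used in all files of `R227/`: `q = p^n`, `k = GaloisField p n`, `W = WW p n`, `E = LTRing p n`,
`mm` = maximal ideal of `E`, `aa c h` = coefficient of `X^(p^h)` in `[p]_H`, `I_h = heightIdeal p n c.H h`,
`C` a complete algebraically closed ultrametric field, `O = Ob C` its closed unit ball,
`f.subst g` = `f ∘ g` (PowerSeries.subst g f).
-/

set_option autoImplicit false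
open Crest.LubinTate

namespace Crest.Agent.R227
noncomputable section

/-! ## The unit ball of an ultrametric field -/
section Ob
variable (C : Type) [NormedField C] [IsUltrametricDist C]

/-- closed unit ball `O` of `C`. -/
def Ob : Subring C where
  carrier := {x | ‖x‖ ≤ 1}
  mul_mem' := fun {a b} ha hb => by
    simp only [Set.mem_ofPred_eq, norm_mul] at *
    exact mul_le_one₀ ha (norm_nonneg _) hb
  one_mem' := by simp
  add_mem' := fun {a b} ha hb =>
    (IsUltrametricDist.norm_add_le_max a b).trans (max_le ha hb)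
  zero_mem' := by simp
  neg_mem' := fun {a} ha => by simpa using ha

variable {C}

theorem Ob.mem_iff {x : C} : x ∈ Ob C ↔ ‖x‖ ≤ 1 := Iff.rfl

theorem Ob.norm_coe (x : Ob C) : ‖(x : C)‖ = ‖x‖ := rfl

theorem Ob.norm_le_one (x : Ob C) : ‖x‖ ≤ 1 := x.2

instance : NormMulClass (Ob C) := ⟨fun a b => norm_mul (a : C) (b : C)⟩

instance : NormOneClass (Ob C) := ⟨norm_one (α := C)⟩

instance [CompleteSpace C] : CompleteSpace (Ob C) :=
  (isClosed_le continuous_norm continuous_const : IsClosed {x : C | ‖x‖ ≤ 1}).completeSpace_coe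

theorem Ob.dvd_iff {x y : Ob C} : y ∣ x ↔ ‖x‖ ≤ ‖y‖ := by
  constructor
  · rintro ⟨z, rfl⟩
    rw [norm_mul]
    exact mul_le_of_le_one_right (norm_nonneg _) (Ob.norm_le_one z)
  · intro h
    by_cases hy : y = 0
    · subst hy
      have : x = 0 := by simpa using h
      simp [this]
    · have hy' : (y : C) ≠ 0 := fun h0 => hy (Subtype.ext h0)
      refine ⟨⟨(x : C) / y, ?_⟩, Subtype.ext ?_⟩
      · rw [Ob.mem_iff, norm_div]
        exact div_le_one_of_le₀ h (norm_nonneg _)
      · simp only [Subring.coe_mul]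
        field_simp

theorem Ob.isUnit_iff {x : Ob C} : IsUnit x ↔ ‖x‖ = 1 := by
  rw [isUnit_iff_dvd_one, Ob.dvd_iff, norm_one]
  exact ⟨fun h => le_antisymm (Ob.norm_le_one x) h, fun h => h.ge⟩

/-- the ideal `{‖x‖ ≤ s}` of `O`. -/
def Ob.ball (s : ℝ) (hs : 0 ≤ s) : Ideal (Ob C) where
  carrier := {x | ‖x‖ ≤ s}
  add_mem' := fun {a b} ha hb => (IsUltrametricDist.norm_add_le_max a b).trans (max_le ha hb)
  zero_mem' := by simpa using hs
  smul_mem' := fun c x hx => by
    simp only [Set.mem_ofPred_eq, smul_eq_mul, norm_mul] at *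
    exact (mul_le_of_le_one_left (norm_nonneg _) (Ob.norm_le_one c)).trans hx

@[simp] theorem Ob.mem_ball {s : ℝ} {hs : 0 ≤ s} {x : Ob C} : x ∈ Ob.ball s hs ↔ ‖x‖ ≤ s := Iff.rfl

variable (C) in
/-- the maximal ideal `{‖x‖ < 1}` of `O`. -/
def Ob.mO : Ideal (Ob C) where
  carrier := {x | ‖x‖ < 1}
  add_mem' := fun {a b} ha hb =>
    (IsUltrametricDist.norm_add_le_max a b).trans_lt (max_lt ha hb)
  zero_mem' := by simp
  smul_mem' := fun c x hx => by
    simp only [Set.mem_ofPred_eq, smul_eq_mul, norm_mul] at *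
    exact (mul_le_of_le_one_left (norm_nonneg _) (Ob.norm_le_one c)).trans_lt hx

@[simp] theorem Ob.mem_mO {x : Ob C} : x ∈ Ob.mO C ↔ ‖x‖ < 1 := Iff.rfl

instance : (Ob.mO C).IsMaximal := by
  refine Ideal.isMaximal_iff.2 ⟨by simp, fun J x hJ hx hxJ => ?_⟩
  have : IsUnit x := Ob.isUnit_iff.2 (le_antisymm (Ob.norm_le_one x) (by simpa using hx))
  exact (Ideal.eq_top_iff_one J).1 (J.eq_top_of_isUnit_mem hxJ this)

instance Ob.perfect (p : ℕ) [Fact p.Prime] [CharP C p] [IsAlgClosed C] : PerfectRing (Ob C) p := by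
  refine PerfectRing.ofSurjective _ p fun x => ?_
  obtain ⟨y, hy⟩ := IsAlgClosed.exists_pow_nat_eq (x : C) (Fact.out : p.Prime).pos
  have h1 : ‖y‖ ≤ 1 := by
    have := Ob.norm_le_one x
    rw [← Ob.norm_coe, ← hy, norm_pow] at this
    exact (pow_le_one_iff_of_nonneg (norm_nonneg _) (Fact.out : p.Prime).ne_zero).1 this
  exact ⟨⟨y, h1⟩, Subtype.ext hy⟩

end Ob

/-! ## Formal groups -/
section FG
variable {R : Type*} [CommRing R]

/-- height ideals of a formal group law over any ring. -/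
def hI (p : ℕ) (F : FormalGroup R) : ℕ → Ideal R
  | 0 => ⊥
  | h + 1 => hI p F h ⊔ Ideal.span {PowerSeries.coeff (p ^ h) (mulSeries F p)}

/-- `c_F(X) = ∂_Y F (X,0)`. -/
def cF (F : FormalGroup R) : PowerSeries R :=
  PowerSeries.mk fun i => MvPowerSeries.coeff (Finsupp.single 0 i + Finsupp.single 1 1) F.toPowerSeries

/-- the invariant differential `1 / c_F`. -/
def om (F : FormalGroup R) : PowerSeries R := PowerSeries.invOfUnit (cF F) 1

/-- formal integral with zero constant term. -/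
def intg {K : Type*} [Field K] (w : PowerSeries K) : PowerSeries K :=
  PowerSeries.mk fun d => if d = 0 then 0 else PowerSeries.coeff (d - 1) w / (d : K)

/-- the logarithm of a formal group law over a field (of characteristic zero). -/
def flog {K : Type*} [Field K] (F : FormalGroup K) : PowerSeries K := intg (om F)

/-- composition powers `e^{∘ i}`. -/
def itr (e : PowerSeries R) : ℕ → PowerSeries R
  | 0 => PowerSeries.X
  | i + 1 => (itr e i).subst e

/-- `Λ_L(Y) = ∑_{l ≤ L} p^(L-l) Y^(q^l)`, the truncation of `p^L · ∑ Y^(q^l)/p^l`. -/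
def Lam (p n L : ℕ) {A : Type*} [CommRing A] (Y : A) : A :=
  ∑ l ∈ Finset.range (L + 1), (p : A) ^ (L - l) * Y ^ ((p ^ n) ^ l)

instance map_comm {S : Type*} [CommRing S] (F : FormalGroup R) [F.IsComm] (f : R →+* S) :
    (F.map f).IsComm where
  comm := by
    have h := congrArg (MvPowerSeries.map f) (FormalGroup.IsComm.comm (F := F))
    rw [MvPowerSeries.map_subst MvPowerSeries.HasSubst.X_X] at h
    simp only [FormalGroup.map_toPowerSeries]
    refine h.trans ?_
    congr 1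
    funext i
    fin_cases i <;> simp

end FG

/-! ## The Lubin–Tate data -/
section LT
variable (p : ℕ) [Fact p.Prime] (n : ℕ)

abbrev WW : Type := WittVector p (GaloisField p n)

instance WW.charZero : CharZero (WW p n) := by
  have h := WittVector.p_nonzero p (GaloisField p n)
  refine charZero_of_inj_zero fun m hm => ?_
  by_contra h0
  obtain ⟨e, m', hm', rfl⟩ := Nat.exists_eq_pow_mul_and_not_dvd h0 p (Fact.out : p.Prime).ne_one
  rw [Nat.cast_mul, Nat.cast_pow, mul_eq_zero] at hm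
  rcases hm with hm | hm
  · exact h (pow_eq_zero_iff (by rintro rfl; simp at hm) |>.1 hm)
  · have := congrArg WittVector.constantCoeff hm
    rw [map_natCast, map_zero, CharP.cast_eq_zero_iff _ p] at this
    exact hm' this

/-- the maximal ideal of `E` (kernel of the residue map). -/
def mm : Ideal (LTRing p n) := RingHom.ker (LTRing.residue p n)

/-- the ideal `(p, u_1, …, u_{h-1})`. -/
def Qh (h : ℕ) : Ideal (LTRing p n) :=
  Ideal.span (insert (p : LTRing p n) (MvPowerSeries.X '' {i : Fin (n - 1) | (i : ℕ) + 1 < h}))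

/-- residue map of a quotient `E ⧸ 𝔞`, `𝔞 ≤ mm`. -/
def resQ (𝔞 : Ideal (LTRing p n)) (h : 𝔞 ≤ mm p n) : LTRing p n ⧸ 𝔞 →+* GaloisField p n :=
  Ideal.Quotient.lift 𝔞 (LTRing.residue p n) fun _ ha => h ha

/-- the hypotheses of the theorem. -/
structure Ctx where
  hn : 1 ≤ n
  Γ : FormalGroup (GaloisField p n)
  cΓ : Γ.IsComm
  hΓ : mulSeries Γ p = PowerSeries.X ^ (p ^ n)
  H : FormalGroup (LTRing p n)
  cH : H.IsComm
  hH : IsUniversalDeformation p n Γ H

variable {p n}

instance (c : Ctx p n) : c.Γ.IsComm := c.cΓ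
instance (c : Ctx p n) : c.H.IsComm := c.cH

/-- `a_h`: coefficient of `X^(p^h)` in `[p]_H`. -/
def aa (c : Ctx p n) (h : ℕ) : LTRing p n := PowerSeries.coeff (p ^ h) (mulSeries c.H p)

/-- `g̃(T) = ∑ (coeff of X^(i p^h) in [p]_H) T^i`; modulo `I_h`, `[p]_H = g̃(X^(p^h))`. -/
def gt (c : Ctx p n) (h : ℕ) : PowerSeries (LTRing p n) :=
  PowerSeries.mk fun i => PowerSeries.coeff (i * p ^ h) (mulSeries c.H p)

theorem heightIdeal_eq (H : FormalGroup (LTRing p n)) (h : ℕ) : heightIdeal p n H h = hI p H h := by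
  induction h with
  | zero => rfl
  | succ h ih => simp only [heightIdeal, hI, ih]

variable {C : Type} [NormedField C] [IsUltrametricDist C]

/-- a characteristic-`p` point of the stratum `V(I_h)` with values in `O`, over `ι : k → O`. -/
structure ZPt (c : Ctx p n) (h : ℕ) (ι : GaloisField p n →+* Ob C) where
  z : LTRing p n →+* Ob C
  zW : ∀ w : WW p n, z (algebraMap (WW p n) (LTRing p n) w) = ι (WittVector.constantCoeff w)
  zm : ∀ f ∈ mm p n, ‖z f‖ < 1
  zI : ∀ f ∈ heightIdeal p n c.H h, z f = 0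

end LT

/-! ## Orthogonal families, weights (for the capacity lemma) -/
section Cap
variable {C : Type} [NormedField C] [IsUltrametricDist C]

/-- nonzero, sorted, within one `q`-th power range, `𝔽_p`-orthogonal. -/
def OrthFam (p q : ℕ) {r : ℕ} (x : Fin r → Ob C) : Prop :=
  (∀ j, x j ≠ 0) ∧ (∀ j, ‖x j‖ < 1) ∧ Antitone (fun j => ‖x j‖) ∧ (∀ i j, ‖x i‖ ^ q < ‖x j‖) ∧
    ∀ c : Fin r → ℤ, ∀ j, ¬ (p : ℤ) ∣ c j → ‖x j‖ ≤ ‖∑ i, (c i : Ob C) * x i‖

/-- weight of a monomial: variable `s` has weight `r + s`. -/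
def wt {r : ℕ} (β : Fin r →₀ ℕ) : ℕ := ∑ s, β s * (r + (s : ℕ))

/-- `‖x^β‖`. -/
def xp {r : ℕ} (x : Fin r → Ob C) (β : Fin r →₀ ℕ) : ℝ := ∏ s, ‖x s‖ ^ β s

/-- `P = T^γ + (terms of smaller weight, Gauss norm ≤ ‖x^γ‖) + (Gauss norm ≤ θ ‖x^γ‖)`. -/
def LdT {r : ℕ} (x : Fin r → Ob C) (θ : ℝ) (γ : Fin r →₀ ℕ) (P : MvPolynomial (Fin r) (Ob C)) : Prop :=
  ∃ low err : MvPolynomial (Fin r) (Ob C), P = MvPolynomial.monomial γ 1 + low + err ∧
    (∀ β, low.coeff β ≠ 0 → wt β < wt γ) ∧ (∀ β, ‖low.coeff β‖ * xp x β ≤ xp x γ) ∧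
    ∀ β, ‖err.coeff β‖ * xp x β ≤ θ * xp x γ

/-- the points `lam a` satisfy `L([lam a s]) = ∑_j [a_j] L([x s]^(p^j))` in truncated form in `W(O)`. -/
def WCong (p n : ℕ) [Fact p.Prime] {r : ℕ} (ι : GaloisField p n →+* Ob C) (x : Fin r → Ob C)
    (ϖ : Ob C) (lam : (ℕ →₀ GaloisField p n) → Fin r → Ob C) : Prop :=
  ∀ a s L, Lam p n L (WittVector.teichmuller p (lam a s)) -
      a.sum (fun j b => WittVector.teichmuller p (ι b) *
        Lam p n L (WittVector.teichmuller p (x s) ^ (p ^ j))) ∈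
    Ideal.span {(p : WittVector p (Ob C)) ^ (L + 1), WittVector.teichmuller p ϖ ^ L}

end Cap

end
end Crest.Agent.R227
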