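import Crest.Agent.R227.Ext

/-!
# 227-RING: commutative algebra of `E = W⟦u⟧`.  (fill all `sorry`s, keep statements)
-/
set_option autoImplicit false
open Crest.LubinTate MvPowerSeries IsLocalRing

namespace Crest.Agent.R227
noncomputable section
variable (p : ℕ) [Fact p.Prime] (n : ℕ)

theorem residue_surj : Function.Surjective (LTRing.residue p n) := by
  intro x
  obtain ⟨w, hw⟩ := WittVector.constantCoeff_surjective p x
  exact ⟨C w, by simpa [LTRing.residue] using hw⟩

theorem residue_alg :
    (LTRing.residue p n).comp (algebraMap (WW p n) (LTRing p n)) = WittVector.constantCoeff := by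
  ext w
  simp [LTRing.residue, MvPowerSeries.algebraMap_apply]

theorem mm_eq_max : mm p n = maximalIdeal (LTRing p n) := by
  have h : (mm p n).IsMaximal := RingHom.ker_isMaximal_of_surjective _ (residue_surj p n)
  exact eq_maximalIdeal h

theorem p_mem_mm : (p : LTRing p n) ∈ mm p n := by
  simp [mm, RingHom.mem_ker]

theorem X_mem_mm (i : Fin (n - 1)) : (X i : LTRing p n) ∈ mm p n := by
  simp [mm, RingHom.mem_ker, LTRing.residue]

namespace RING

theorem mem_span_of {R σ : Type*} [CommRing R] (a : R) (S : Finset σ) (f : MvPowerSeries σ R)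
    (hf : ∀ d : σ →₀ ℕ, (∀ i ∈ S, d i = 0) → a ∣ coeff d f) :
    f ∈ Ideal.span (insert (C a : MvPowerSeries σ R) (X '' (S : Set σ))) := by
  classical
  induction S using Finset.induction_on generalizing f with
  | empty =>
    choose g hg using fun d => hf d (by simp)
    have : f = C a * (show MvPowerSeries σ R from g) := by
      ext d; rw [coeff_C_mul, hg]; rfl
    rw [this]
    exact Ideal.mul_mem_right _ _ (Ideal.subset_span (by simp))
  | insert i S hi ih =>
    let f' : MvPowerSeries σ R := fun d => if d i = 0 then coeff d f else 0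
    have hf' : ∀ d, coeff d f' = if d i = 0 then coeff d f else 0 := fun _ => rfl
    have h1 : (X i : MvPowerSeries σ R) ∣ f - f' := by
      rw [X_dvd_iff]
      intro m hm
      rw [map_sub, hf', if_pos hm, sub_self]
    have h2 := ih f' (fun d hd => by
      rw [hf']
      split_ifs with h
      · exact hf d (by simpa [h] using hd)
      · exact dvd_zero _)
    have h3 : f = (f - f') + f' := by ring
    rw [h3]
    refine Ideal.add_mem _ (Ideal.mem_of_dvd _ h1 (Ideal.subset_span (by simp))) ?_
    refine Ideal.span_mono ?_ h2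
    exact Set.insert_subset_insert (Set.image_mono (by simp))

/-- reduction modulo `(p, u_1, …, u_{h-1})`. -/
def rho (h : ℕ) : LTRing p n →+* MvPowerSeries (Fin (n - 1)) (GaloisField p n) :=
  (rescale fun i : Fin (n - 1) => if (i : ℕ) + 1 < h then 0 else 1).comp
    (map WittVector.constantCoeff)

theorem mem_ker_rho (h : ℕ) (f : LTRing p n) :
    f ∈ RingHom.ker (rho p n h) ↔ ∀ d : Fin (n - 1) →₀ ℕ,
      (∀ i : Fin (n - 1), (i : ℕ) + 1 < h → d i = 0) → WittVector.constantCoeff (coeff d f) = 0 := by
  rw [RingHom.mem_ker, MvPowerSeries.ext_iff]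
  refine forall_congr' fun d => ?_
  simp only [rho, RingHom.comp_apply, coeff_rescale, coeff_map, map_zero, mul_eq_zero]
  by_cases hd : ∀ i : Fin (n - 1), (i : ℕ) + 1 < h → d i = 0
  · have : (d.prod fun s m => (if (s : ℕ) + 1 < h then (0 : GaloisField p n) else 1) ^ m) = 1 := by
      refine Finset.prod_eq_one fun i hi => ?_
      beta_reduce
      rw [if_neg fun h' => (Finsupp.mem_support_iff.1 hi) (hd i h'), one_pow]
    rw [this]
    exact ⟨fun h' _ => h'.resolve_left one_ne_zero, fun h' => Or.inr (h' hd)⟩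
  · refine ⟨fun _ h' => absurd h' hd, fun _ => Or.inl ?_⟩
    push Not at hd
    obtain ⟨i, hi, hdi⟩ := hd
    exact Finset.prod_eq_zero (Finsupp.mem_support_iff.2 hdi) (by simp [hi, hdi])

end RING

/-- membership in `(p, u_1, …, u_{h-1})`.  PLAN: (→) the condition says `f` is in the kernel of the ring hom
`E → k⟦u⟧`, `f ↦ subst (fun i => if i+1 < h then 0 else X i) (map constantCoeff f)` (or check closure directly);
(←) split `f` = (monomials containing some `u_i`, `i+1<h`: write as `∑ X i * g i` as in `mem_pow_span_X_iff`) + (rest `= p * g`,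
`WittVector.mem_span_p_iff_coeff_zero_eq_zero` / `ker_constantCoeff`). -/
theorem mem_Qh_iff (h : ℕ) (f : LTRing p n) :
    f ∈ Qh p n h ↔ ∀ d : Fin (n - 1) →₀ ℕ, (∀ i : Fin (n - 1), (i : ℕ) + 1 < h → d i = 0) →
      WittVector.constantCoeff (coeff d f) = 0 := by
  classical
  constructor
  · intro hf d hd
    have h1 : Qh p n h ≤ RingHom.ker (RING.rho p n h) := by
      rw [Qh, Ideal.span_le]
      rintro x (rfl | ⟨i, hi, rfl⟩)
      · rw [SetLike.mem_coe, RingHom.mem_ker, map_natCast,
          ← map_natCast (C : GaloisField p n →+* MvPowerSeries (Fin (n - 1)) (GaloisField p n)),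
          CharP.cast_eq_zero, map_zero]
      · rw [SetLike.mem_coe, RING.mem_ker_rho]
        intro e he
        rw [coeff_X, if_neg, map_zero]
        rintro rfl
        simpa using he i hi
    exact (RING.mem_ker_rho p n h f).1 (h1 hf) d hd
  · intro hf
    have := RING.mem_span_of (p : WW p n) (Finset.univ.filter fun i : Fin (n - 1) => (i : ℕ) + 1 < h)
      f (fun d hd => ?_)
    · rw [map_natCast] at this
      simpa [Qh] using this
    · rw [← Ideal.mem_span_singleton, ← WittVector.ker_constantCoeff, RingHom.mem_ker]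
      exact hf d fun i hi => hd i (by simpa using hi)

theorem Qh_prime (h : ℕ) : (Qh p n h).IsPrime := by
  have : Qh p n h = RingHom.ker (RING.rho p n h) := by
    ext f; rw [mem_Qh_iff, RING.mem_ker_rho]
  rw [this]
  have : IsDomain (MvPowerSeries (Fin (n - 1)) (GaloisField p n)) := NoZeroDivisors.to_isDomain _
  exact RingHom.ker_isPrime _

theorem Qh_top : Qh p n n = mm p n := by
  ext f
  rw [mem_Qh_iff, mm, RingHom.mem_ker]
  constructor
  · intro h
    simpa [LTRing.residue] using h 0 (by simp)
  · intro h d hd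
    have : d = 0 := Finsupp.ext fun i => hd i (by have := i.2; omega)
    subst this
    simpa [LTRing.residue] using h

namespace RING

theorem mem_mm_iff (f : LTRing p n) : f ∈ mm p n ↔ (p : WW p n) ∣ constantCoeff f := by
  rw [← Ideal.mem_span_singleton, ← WittVector.ker_constantCoeff]
  rfl

theorem spanX_le : Ideal.span (Set.range (X : Fin (n - 1) → LTRing p n)) ≤ mm p n := by
  rw [Ideal.span_le]
  rintro _ ⟨i, rfl⟩
  exact X_mem_mm p n i

theorem sub_C_mem (f : LTRing p n) : f - C (constantCoeff f) ∈ mm p n := by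
  rw [mem_mm_iff]; simp

theorem mem_mm_pow (N : ℕ) (f : LTRing p n) :
    f ∈ mm p n ^ N ↔ ∀ d : Fin (n - 1) →₀ ℕ, (p : WW p n) ^ (N - d.degree) ∣ coeff d f := by
  classical
  constructor
  · intro hf
    induction N generalizing f with
    | zero => simp
    | succ N ih =>
      rw [pow_succ] at hf
      refine Submodule.mul_induction_on hf (fun a ha b hb d => ?_) (fun a b ha hb d => ?_)
      · rw [coeff_mul]
        refine Finset.dvd_sum fun e he => ?_
        have he' : e.1 + e.2 = d := Finset.HasAntidiagonal.mem_antidiagonal.1 he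
        have hdeg : e.1.degree + e.2.degree = d.degree := by rw [← he', map_add]
        by_cases h2 : e.2 = 0
        · have h3 : (p : WW p n) ∣ coeff e.2 b := by
            rw [h2, coeff_zero_eq_constantCoeff_apply]; exact (mem_mm_iff p n b).1 hb
          refine (pow_dvd_pow _ (?_ : _ ≤ N - e.1.degree + 1)).trans ?_
          · omega
          · rw [pow_succ]; exact mul_dvd_mul (ih a ha e.1) h3
        · have h3 : e.2.degree ≠ 0 := by rwa [Ne, Finsupp.degree_eq_zero_iff]
          exact Dvd.dvd.mul_right ((pow_dvd_pow _ (by omega)).trans (ih a ha e.1)) _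
      · rw [map_add]; exact dvd_add (ha d) (hb d)
  · intro hf
    have h1 : f - (truncTotal N f : MvPolynomial _ _) ∈ mm p n ^ N := by
      refine Ideal.pow_right_mono (spanX_le p n) N ((mem_pow_span_X_iff _ N).2 fun d hd => ?_)
      rw [map_sub, MvPolynomial.coeff_coe, coeff_truncTotal _ hd, sub_self]
    have h2 : ((truncTotal N f : MvPolynomial _ _) : LTRing p n) ∈ mm p n ^ N := by
      rw [(truncTotal N f).as_sum, ← MvPolynomial.coeToMvPowerSeries.ringHom_apply, map_sum]
      refine Ideal.sum_mem _ fun d hd => ?_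
      have hdN : d.degree < N := by
        by_contra hc
        exact (MvPolynomial.mem_support_iff.1 hd) (coeff_truncTotal_eq_zero _ (not_lt.1 hc))
      rw [MvPolynomial.coeToMvPowerSeries.ringHom_apply, MvPolynomial.coe_monomial,
        coeff_truncTotal _ hdN]
      obtain ⟨c, hc⟩ := hf d
      have h3 : (monomial d (coeff d f) : LTRing p n) =
          (p : LTRing p n) ^ (N - d.degree) * monomial d c := by
        rw [hc, ← map_natCast (C : WW p n →+* LTRing p n), ← map_pow, ← monomial_zero_eq_C_apply,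
          monomial_mul_monomial, zero_add]
      have h4 : (monomial d c : LTRing p n) ∈ mm p n ^ d.degree := by
        refine Ideal.pow_right_mono (spanX_le p n) _ ((mem_pow_span_X_iff _ _).2 fun e he => ?_)
        rw [coeff_monomial, if_neg]
        rintro rfl
        exact lt_irrefl _ he
      have h5 := Ideal.mul_mem_mul (Ideal.pow_mem_pow (p_mem_mm p n) (N - d.degree)) h4
      rwa [← pow_add, Nat.sub_add_cancel hdN.le, ← h3] at h5
    simpa using Ideal.add_mem _ h1 h2

theorem inj_of_surj {A : Type*} [CommRing A] [IsNoetherianRing A] (φ : A →+* A)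
    (h : Function.Surjective φ) : Function.Injective φ := by
  have hmono : Monotone fun k : ℕ => RingHom.ker (φ ^ k) := by
    refine monotone_nat_of_le_succ fun k x hx => ?_
    rw [RingHom.mem_ker] at hx ⊢
    rw [pow_succ', RingHom.coe_mul, Function.comp_apply, hx, map_zero]
  obtain ⟨N, hN⟩ := (monotone_stabilizes_iff_noetherian (R := A) (M := A)).2 inferInstance
    ⟨_, hmono⟩
  rw [injective_iff_map_eq_zero]
  intro x hx
  obtain ⟨y, rfl⟩ : ∃ y, (φ ^ N) y = x := by
    rw [RingHom.coe_pow]; exact h.iterate N x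
  have h1 : y ∈ RingHom.ker (φ ^ (N + 1)) := by
    rw [RingHom.mem_ker, pow_succ', RingHom.coe_mul, Function.comp_apply, hx]
  have h2 : RingHom.ker (φ ^ N) = RingHom.ker (φ ^ (N + 1)) := hN (N + 1) (Nat.le_succ N)
  rw [← h2] at h1
  exact h1

end RING

/-- PLAN: `f ∈ mm^N ↔ ∀ d, p^(N - degree d) ∣ coeff d f` (→ induction/`coeff_mul`; ← truncate at degree `N`, tail in `(X)^N`).
Hausdorff and precomplete follow coefficientwise from `WittVector.isAdicCompleteIdealSpanP`. -/
theorem E_complete : IsAdicComplete (maximalIdeal (LTRing p n)) (LTRing p n) := by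
  refine { toIsHausdorff := inferInstance, prec' := fun x hx => ?_ }
  simp only [← mm_eq_max, smul_eq_mul, Ideal.mul_top, SModEq.sub_mem, RING.mem_mm_pow] at hx ⊢
  have h1 : ∀ d : Fin (n - 1) →₀ ℕ, ∃ L : WW p n, ∀ k, (p : WW p n) ^ k ∣
      coeff d (x (k + d.degree)) - L := by
    intro d
    have := (inferInstance : IsPrecomplete (Ideal.span {(p : WW p n)}) (WW p n)).prec
      (f := fun k => coeff d (x (k + d.degree))) (fun {a b} hab => by
        simp only [smul_eq_mul, Ideal.mul_top, SModEq.sub_mem, Ideal.span_singleton_pow,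
          Ideal.mem_span_singleton]
        have := hx (Nat.add_le_add_right hab d.degree) d
        rwa [Nat.add_sub_cancel, map_sub] at this)
    simpa only [smul_eq_mul, Ideal.mul_top, SModEq.sub_mem, Ideal.span_singleton_pow,
      Ideal.mem_span_singleton] using this
  choose L hL using h1
  refine ⟨L, fun N d => ?_⟩
  rcases le_or_gt d.degree N with h | h
  · have := hL d (N - d.degree)
    rwa [Nat.sub_add_cancel h] at this
  · rw [Nat.sub_eq_zero_of_le h.le, pow_zero]
    exact one_dvd _

variable {p n}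

/-- PLAN: `surjective_of_mk_map_comp_surjective` with `I = maximalIdeal`; a surjective endomorphism of a Noetherian ring is
injective (chain of kernels of the iterates, `monotone_stabilizes_iff_noetherian`). -/
theorem bij_of_map_mm (φ : LTRing p n →ₐ[WW p n] LTRing p n)
    (h : (mm p n).map φ.toRingHom = mm p n) : Function.Bijective φ := by
  have hs : Function.Surjective φ.toRingHom := by
    have hc := E_complete p n
    rw [← mm_eq_max] at hc
    have : IsHausdorff ((mm p n).map φ.toRingHom) (LTRing p n) := by rw [h]; infer_instance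
    refine surjective_of_mk_map_comp_surjective (I := mm p n) φ.toRingHom fun y => ?_
    obtain ⟨y, rfl⟩ := Ideal.Quotient.mk_surjective y
    refine ⟨algebraMap (WW p n) _ (constantCoeff y), ?_⟩
    rw [RingHom.comp_apply, eq_comm, Ideal.Quotient.eq, h]
    have : φ.toRingHom (algebraMap (WW p n) _ (constantCoeff y)) = C (constantCoeff y) :=
      φ.commutes _
    rw [this]
    exact RING.sub_C_mem p n y
  exact ⟨RING.inj_of_surj φ.toRingHom hs, hs⟩

theorem exists_delta {C : Type} [NormedField C] [IsUltrametricDist C] (z : LTRing p n →+* Ob C)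
    (hz : ∀ f ∈ mm p n, ‖z f‖ < 1) : ∃ δ : ℝ, 0 ≤ δ ∧ δ < 1 ∧ ∀ f ∈ mm p n, ‖z f‖ ≤ δ := by
  obtain ⟨s, hs⟩ := (IsNoetherian.noetherian (mm p n) : (mm p n).FG)
  have h1 : ∃ δ : ℝ, 0 ≤ δ ∧ δ < 1 ∧ ∀ f ∈ s, ‖z f‖ ≤ δ := by
    have hs' : ∀ f ∈ s, ‖z f‖ < 1 := fun f hf => hz f (hs ▸ Ideal.subset_span hf)
    rcases s.eq_empty_or_nonempty with rfl | hne
    · exact ⟨0, le_rfl, one_pos, by simp⟩
    · obtain ⟨f, hf, hmax⟩ := s.exists_max_image (fun f => ‖z f‖) hne
      exact ⟨‖z f‖, norm_nonneg _, hs' f hf, hmax⟩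
  obtain ⟨δ, h0, h1, h2⟩ := h1
  refine ⟨δ, h0, h1, fun f hf => ?_⟩
  have : mm p n ≤ (Ob.ball δ h0).comap z := by
    rw [← hs, Ideal.span_le]
    exact fun g hg => h2 g hg
  exact this hf

/-- every element is a Witt constant plus an element of `mm`; `z` in characteristic `p`. -/
theorem exists_iota {C : Type} [NormedField C] [IsUltrametricDist C] (z : LTRing p n →+* Ob C)
    (hp : z (p : LTRing p n) = 0) : ∃ ι : GaloisField p n →+* Ob C,
      ∀ w : WW p n, z (algebraMap (WW p n) (LTRing p n) w) = ι (WittVector.constantCoeff w) := by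
  refine ⟨RingHom.liftOfSurjective _ (WittVector.constantCoeff_surjective p)
    ⟨z.comp (algebraMap (WW p n) (LTRing p n)), ?_⟩, fun w => ?_⟩
  · rw [WittVector.ker_constantCoeff, Ideal.span_le, Set.singleton_subset_iff, SetLike.mem_coe,
      RingHom.mem_ker, RingHom.comp_apply, map_natCast, hp]
  · rw [RingHom.liftOfSurjective, RingHom.liftOfRightInverse_comp_apply]
    rfl

theorem charP_of_point {C : Type} [NormedField C] [IsUltrametricDist C] (z : LTRing p n →+* Ob C)
    (hp : z (p : LTRing p n) = 0) : CharP C p := by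
  rw [CharP.charP_iff_prime_eq_zero (Fact.out : p.Prime)]
  rw [map_natCast] at hp
  simpa using congrArg (Ob C).subtype hp

/-- PLAN: a prime `ℓ ≠ p` is a unit of `E`. -/
theorem charZero_of_point {C : Type} [NormedField C] [IsUltrametricDist C] (z : LTRing p n →+* Ob C)
    (hp : z (p : LTRing p n) ≠ 0) : CharZero C := by
  have hp' : (p : C) ≠ 0 := by
    intro h
    apply hp
    rw [map_natCast]
    exact Subtype.ext (by simpa using h)
  obtain ⟨l, hl⟩ := CharP.exists C
  rcases CharP.char_is_prime_or_zero C l with h | rfl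
  · exfalso
    have h1 : ¬ p ∣ l := fun hd => by
      rw [(Nat.prime_dvd_prime_iff_eq Fact.out h).1 hd] at hp'
      exact hp' (CharP.cast_eq_zero C l)
    have h2 : IsUnit (l : LTRing p n) := by
      rw [← notMem_maximalIdeal, ← mm_eq_max, mm, RingHom.mem_ker, map_natCast,
        CharP.cast_eq_zero_iff _ p]
      exact h1
    have h3 := (h2.map ((Ob C).subtype.comp z)).ne_zero
    rw [map_natCast] at h3
    exact h3 (CharP.cast_eq_zero C l)
  · exact CharP.charP_to_charZero C

/-- `z f ≡ ι (residue f)`. -/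
theorem ZPt.sub_mem {C : Type} [NormedField C] [IsUltrametricDist C] {c : Ctx p n} {h : ℕ}
    {ι : GaloisField p n →+* Ob C} (ξ : ZPt c h ι) {δ : ℝ} (hδ : ∀ f ∈ mm p n, ‖ξ.z f‖ ≤ δ)
    (f : LTRing p n) : ‖ξ.z f - ι (LTRing.residue p n f)‖ ≤ δ := by
  have h1 := hδ _ (RING.sub_C_mem p n f)
  have h2 := ξ.zW (constantCoeff f)
  rw [← c_eq_algebraMap] at h2
  rwa [map_sub, h2] at h1

/-- series over `k` lift to `E`, keeping a zero constant term. -/
theorem exists_lift (g : PowerSeries (GaloisField p n)) (hg : PowerSeries.constantCoeff g = 0) :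
    ∃ η : PowerSeries (LTRing p n), PowerSeries.constantCoeff η = 0 ∧ η.map (LTRing.residue p n) = g := by
  refine ⟨PowerSeries.mk fun d => if d = 0 then 0 else
    Function.surjInv (residue_surj p n) (PowerSeries.coeff d g), by simp, ?_⟩
  ext d
  rw [PowerSeries.coeff_map, PowerSeries.coeff_mk]
  split_ifs with h
  · subst h; simpa using hg.symm
  · exact Function.surjInv_eq _ _

namespace RING

/-- `∏_{j=1}^N (m - j) / N!`. -/
def ec (N m : ℕ) : ℤ := if m = 0 then (-1) ^ N else ((m - 1).choose N : ℕ)

theorem ec_zero (m : ℕ) : ec 0 m = 1 := by simp [ec]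

theorem ec_succ (N m : ℕ) : ((N : ℤ) + 1) * ec (N + 1) m = ((m : ℤ) - (N + 1)) * ec N m := by
  rcases m with _ | k
  · simp only [ec, if_true]; push_cast; ring
  · simp only [ec, Nat.succ_ne_zero, if_false, Nat.add_sub_cancel]
    have h := Nat.choose_succ_right_eq k N
    rcases le_or_gt N k with hk | hk
    · zify [hk] at h
      push_cast
      linear_combination h
    · rw [Nat.choose_eq_zero_of_lt hk, Nat.choose_eq_zero_of_lt (by omega)]
      simp

theorem coeff_euler {R σ : Type*} [CommRing R] [Fintype σ] (g : MvPowerSeries σ R) (d : σ →₀ ℕ) :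
    coeff d (∑ l, X l * pderiv R l g) = (d.degree : R) * coeff d g := by
  classical
  rw [map_sum, Finsupp.degree_eq_sum, Nat.cast_sum, Finset.sum_mul]
  refine Finset.sum_congr rfl fun l _ => ?_
  rw [X_def, coeff_monomial_mul]
  split_ifs with h
  · rw [one_mul, coeff_pderiv, tsub_add_cancel_of_le h, mul_comm]
    have h1 : 1 ≤ d l := Finsupp.single_le_iff.1 h
    congr 1
    simp only [Finsupp.coe_tsub, Pi.sub_apply, Finsupp.single_eq_same]
    rw [Nat.cast_sub h1]; simp
  · have h1 : d l = 0 := by
      rw [Finsupp.single_le_iff] at h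
      omega
    simp [h1]

end RING

/-- (EULER) a nonzero ideal stable under all `∂_l` has no characteristic-zero point.
PLAN: take `f ≠ 0` in `Jt`; differentiate along a monomial `d` with `coeff d f ≠ 0` (induction on `degree d`, `coeff_pderiv`; `W` is a
domain of char 0) to get `f ∈ Jt` with `w = constantCoeff f ≠ 0`.  The Euler operator `𝓔 = ∑ X l * ∂_l` preserves `Jt` and multiplies
`coeff d` by `degree d`; `∏_{j=1}^N (𝓔 - j) f = N! · f_N` with `f_N = ± C w + (order > N)`
(`∏_{j=1}^N (m - j) = N! · choose (m-1) N` for `m ≥ 1`).  So `z f_N = 0`, `‖z (C w)‖ ≤ δ^(N+1)` (`exists_delta`, `mem_pow_span_X_iff`),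
hence `z (C w) = 0`; but `w = p^e · unit` (`WittVector.exists_eq_pow_p_mul'`). -/
theorem euler {C : Type} [NormedField C] [IsUltrametricDist C] [CharZero C] (z : LTRing p n →+* Ob C)
    (zm : ∀ f ∈ mm p n, ‖z f‖ < 1) (Jt : Ideal (LTRing p n))
    (hD : ∀ f ∈ Jt, ∀ l, pderiv (WW p n) l f ∈ Jt) (hz : ∀ f ∈ Jt, z f = 0) : Jt = ⊥ := by
  classical
  by_contra hne
  obtain ⟨f₀, hf₀, hf₀'⟩ := Submodule.exists_mem_ne_zero_of_ne_bot hne
  obtain ⟨d₀, hd₀⟩ : ∃ d, coeff d f₀ ≠ 0 := by
    by_contra hc
    push Not at hc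
    exact hf₀' (MvPowerSeries.ext hc)
  have h1 : ∀ (N : ℕ) (d : Fin (n - 1) →₀ ℕ), d.degree = N → ∀ f ∈ Jt, coeff d f ≠ 0 →
      ∃ g ∈ Jt, constantCoeff g ≠ 0 := by
    intro N
    induction N with
    | zero =>
      intro d hd f hf h
      rw [(Finsupp.degree_eq_zero_iff d).1 hd] at h
      exact ⟨f, hf, h⟩
    | succ N ih =>
      intro d hd f hf h
      have hd0 : d ≠ 0 := by rintro rfl; simp at hd
      obtain ⟨i, hi⟩ := Finsupp.ne_iff.1 hd0
      have hle : Finsupp.single i 1 ≤ d := Finsupp.single_le_iff.2 (Nat.pos_of_ne_zero hi)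
      have he : d - Finsupp.single i 1 + Finsupp.single i 1 = d := tsub_add_cancel_of_le hle
      refine ih (d - Finsupp.single i 1) ?_ _ (hD f hf i) ?_
      · have := congrArg Finsupp.degree he
        rw [map_add, Finsupp.degree_single] at this
        omega
      · rw [coeff_pderiv, he]
        exact mul_ne_zero h (Nat.cast_add_one_ne_zero _)
  obtain ⟨f, hf, hw⟩ := h1 _ d₀ rfl f₀ hf₀ hd₀
  obtain ⟨δ, hδ0, hδ1, hδ⟩ := exists_delta z zm
  have hpow : ∀ N, ∀ g ∈ mm p n ^ N, ‖z g‖ ≤ δ ^ N := by
    intro N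
    induction N with
    | zero => intro g _; simpa using Ob.norm_le_one _
    | succ N ih =>
      intro g hg
      rw [pow_succ] at hg
      refine Submodule.mul_induction_on hg (fun a ha b hb => ?_) (fun a b ha hb => ?_)
      · rw [map_mul, norm_mul, pow_succ]
        exact mul_le_mul (ih a ha) (hδ b hb) (norm_nonneg _) (pow_nonneg hδ0 _)
      · rw [map_add]
        exact (IsUltrametricDist.norm_add_le_max _ _).trans (max_le ha hb)
  let h : ℕ → LTRing p n := fun N d => (RING.ec N d.degree : WW p n) * coeff d f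
  have hh : ∀ N d, coeff d (h N) = (RING.ec N d.degree : WW p n) * coeff d f := fun _ _ => rfl
  have hJ : ∀ N : ℕ, (N.factorial : LTRing p n) * h N ∈ Jt := by
    intro N
    induction N with
    | zero =>
      have : h 0 = f := by ext1 d; rw [hh, RING.ec_zero]; simp
      simpa [this] using hf
    | succ N ih =>
      have : ((N + 1).factorial : LTRing p n) * h (N + 1) =
          ∑ l, X l * pderiv (WW p n) l ((N.factorial : LTRing p n) * h N) -
            ((N + 1 : ℕ) : LTRing p n) * ((N.factorial : LTRing p n) * h N) := by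
        ext1 d
        rw [map_sub, RING.coeff_euler]
        simp only [← map_natCast (MvPowerSeries.C : WW p n →+* LTRing p n), coeff_C_mul, hh]
        have := congrArg (Int.cast : ℤ → WW p n) (RING.ec_succ N d.degree)
        push_cast [Nat.factorial_succ] at this ⊢
        linear_combination (N.factorial : WW p n) * coeff d f * this
      rw [this]
      exact Ideal.sub_mem _ (Ideal.sum_mem _ fun l _ => Ideal.mul_mem_left _ _ (hD _ ih l))
        (Ideal.mul_mem_left _ _ ih)
  have hz0 : ∀ N, z (h N) = 0 := by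
    intro N
    have h2 := hz _ (hJ N)
    rw [map_mul, map_natCast] at h2
    exact (mul_eq_zero.1 h2).resolve_left (by exact_mod_cast N.factorial_ne_zero)
  have hb : ∀ N, ‖z (MvPowerSeries.C (constantCoeff f))‖ ≤ δ ^ (N + 1) := by
    intro N
    have h2 : (-1) ^ N * MvPowerSeries.C (constantCoeff f) - h N ∈ mm p n ^ (N + 1) := by
      refine Ideal.pow_right_mono (RING.spanX_le p n) _ ((mem_pow_span_X_iff _ _).2 fun d hd => ?_)
      have h3 : ((-1) ^ N : LTRing p n) = MvPowerSeries.C ((-1) ^ N) := by simp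
      rw [map_sub, hh, h3, coeff_C_mul, coeff_C]
      split_ifs with h0
      · subst h0; simp [RING.ec]
      · have h4 : d.degree ≠ 0 := by rwa [Ne, Finsupp.degree_eq_zero_iff]
        rw [RING.ec, if_neg h4, Nat.choose_eq_zero_of_lt (by omega)]
        simp
    have h3 := hpow _ _ h2
    rwa [map_sub, hz0, sub_zero, map_mul, map_pow, norm_mul, norm_pow, map_neg, map_one, norm_neg,
      norm_one, one_pow, one_mul] at h3
  have hz1 : z (MvPowerSeries.C (constantCoeff f)) = 0 := by
    rw [← norm_le_zero_iff]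
    exact ge_of_tendsto' ((tendsto_pow_atTop_nhds_zero_of_lt_one hδ0 hδ1).comp
      (Filter.tendsto_add_atTop_nat 1)) hb
  obtain ⟨e, u, hu⟩ := WittVector.exists_eq_pow_p_mul' (constantCoeff f) hw
  rw [hu, map_mul, map_mul, map_pow, map_pow, map_natCast, map_natCast] at hz1
  rcases mul_eq_zero.1 hz1 with h2 | h2
  · exact pow_ne_zero e (by exact_mod_cast (Fact.out : p.Prime).ne_zero) h2
  · exact ((u.isUnit.map MvPowerSeries.C).map z).ne_zero h2

end
end Crest.Agent.R227
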