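import Crest.Agent.R227.HD
import Crest.Agent.R227.Ring

/-!
# 227-UNIV: consequences of universality.  (fill all `sorry`s, keep statements)
-/
set_option autoImplicit false
open Crest.LubinTate MvPowerSeries IsLocalRing

namespace Crest.Agent.R227
noncomputable section
variable {p : ℕ} [Fact p.Prime] {n : ℕ}

theorem H_res (c : Ctx p n) : c.H.map (LTRing.residue p n) = c.Γ := c.hH.1

/-- `[p]_H ≡ X^q mod mm`.  (`mul_map`, `c.hΓ`) -/
theorem mul_sub_mem_mm (c : Ctx p n) (d : ℕ) :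
    PowerSeries.coeff d (mulSeries c.H p - PowerSeries.X ^ (p ^ n)) ∈ mm p n := by
  rw [mm, RingHom.mem_ker, ← PowerSeries.coeff_map, map_sub, mul_map, H_res, c.hΓ]
  simp

theorem aa_mem_mm (c : Ctx p n) {h : ℕ} (hh : h < n) : aa c h ∈ mm p n := by
  have h1 := mul_sub_mem_mm c (p ^ h)
  rwa [map_sub, PowerSeries.coeff_X_pow, if_neg, sub_zero] at h1
  exact (Nat.pow_lt_pow_right (Fact.out : p.Prime).one_lt hh).ne

theorem aa_zero (c : Ctx p n) : aa c 0 = (p : LTRing p n) := by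
  rw [aa, pow_zero, mul_coeff_one]

/-- (U) PLAN: `B = E ⧸ 𝔞` is local (`IsLocalRing.of_surjective'`), Noetherian, its maximal ideal is `ker resQ` and is nilpotent,
so `B` is adically complete; apply the uniqueness clause of `c.hH` to `G = H.map φ₂` (`φ₂` works with `θ = X`). -/
theorem uniqQ (c : Ctx p n) (𝔞 : Ideal (LTRing p n)) (h1 : 𝔞 ≤ mm p n) (N : ℕ) (h2 : mm p n ^ N ≤ 𝔞)
    (φ₁ φ₂ : LTRing p n →ₐ[WW p n] LTRing p n ⧸ 𝔞)
    (r1 : (resQ p n 𝔞 h1).comp φ₁.toRingHom = LTRing.residue p n)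
    (r2 : (resQ p n 𝔞 h1).comp φ₂.toRingHom = LTRing.residue p n)
    (θ : PowerSeries (LTRing p n ⧸ 𝔞)) (hθ : IsFGHom (c.H.map φ₁.toRingHom) (c.H.map φ₂.toRingHom) θ)
    (hX : θ.map (resQ p n 𝔞 h1) = PowerSeries.X) : φ₁ = φ₂ := by
  have hne : 𝔞 ≠ ⊤ := fun h => (maximalIdeal.isMaximal (LTRing p n)).ne_top
    (top_le_iff.1 (by rw [← mm_eq_max, ← h]; exact h1))
  have : Nontrivial (LTRing p n ⧸ 𝔞) := Ideal.Quotient.nontrivial_iff.2 hne
  have : IsLocalRing (LTRing p n ⧸ 𝔞) :=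
    IsLocalRing.of_surjective' (Ideal.Quotient.mk 𝔞) Ideal.Quotient.mk_surjective
  have hs : Function.Surjective (resQ p n 𝔞 h1) := fun x => by
    obtain ⟨f, hf⟩ := residue_surj p n x
    exact ⟨Ideal.Quotient.mk 𝔞 f, hf⟩
  have hk : RingHom.ker (resQ p n 𝔞 h1) = maximalIdeal _ :=
    eq_maximalIdeal (RingHom.ker_isMaximal_of_surjective _ hs)
  have hnil : maximalIdeal (LTRing p n ⧸ 𝔞) ^ N = ⊥ := by
    have h3 : maximalIdeal (LTRing p n ⧸ 𝔞) ≤ (mm p n).map (Ideal.Quotient.mk 𝔞) := by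
      rw [← hk]
      intro x hx
      obtain ⟨f, rfl⟩ := Ideal.Quotient.mk_surjective x
      exact Ideal.mem_map_of_mem _ hx
    refine le_bot_iff.1 ((Ideal.pow_right_mono h3 N).trans ?_)
    rw [← Ideal.map_pow, Ideal.map_le_iff_le_comap]
    intro x hx
    exact Ideal.Quotient.eq_zero_iff_mem.2 (h2 hx)
  have hcomp : IsAdicComplete (maximalIdeal (LTRing p n ⧸ 𝔞)) (LTRing p n ⧸ 𝔞) := by
    refine { toIsHausdorff := inferInstance, prec' := fun x hx => ⟨x N, fun k => ?_⟩ }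
    rcases le_total k N with h | h
    · exact hx h
    · have h3 := hx h
      rw [hnil, Submodule.bot_smul, SModEq.bot] at h3
      rw [h3]
      exact SModEq.rfl
  have halg : (resQ p n 𝔞 h1).comp (algebraMap (WW p n) (LTRing p n ⧸ 𝔞)) =
      WittVector.constantCoeff := by
    rw [← residue_alg]; rfl
  have hG : (c.H.map φ₂.toRingHom).map (resQ p n 𝔞 h1) = c.Γ := by
    rw [fg_map_map, r2, H_res]
  exact (c.hH.2 (LTRing p n ⧸ 𝔞) hcomp (resQ p n 𝔞 h1) hs hk halg _ hG).unique ⟨r1, θ, hθ, hX⟩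
    ⟨r2, PowerSeries.X, hom_X _, PowerSeries.map_X _⟩

namespace UNIV

theorem pow_q (hn : 1 ≤ n) (x : GaloisField p n) : x ^ p ^ n = x := by
  have := Fintype.ofFinite (GaloisField p n)
  rw [← GaloisField.card p n (by omega), Nat.card_eq_fintype_card, FiniteField.pow_card]

theorem hI_le (c : Ctx p n) {h : ℕ} (hh : h ≤ n) : heightIdeal p n c.H h ≤ mm p n := by
  induction h with
  | zero => exact bot_le
  | succ h ih =>
    refine sup_le (ih (by omega)) ?_
    rw [Ideal.span_le, Set.singleton_subset_iff]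
    exact aa_mem_mm c (by omega)

theorem aa_mem (c : Ctx p n) {h h' : ℕ} (hh : h < h') : aa c h ∈ heightIdeal p n c.H h' := by
  have h1 : aa c h ∈ heightIdeal p n c.H (h + 1) :=
    Ideal.mem_sup_right (Ideal.subset_span rfl)
  rw [heightIdeal_eq] at h1 ⊢
  exact hI_mono p c.H hh h1

theorem isUnit_of_res {f : LTRing p n} (h : IsUnit (LTRing.residue p n f)) : IsUnit f := by
  rw [← notMem_maximalIdeal, ← mm_eq_max, mm, RingHom.mem_ker]
  exact h.ne_zero

end UNIV

/-- `I_n = mm`.  PLAN: `≤`: `aa_mem_mm`.  `≥`: `𝔞 = I_n + mm²`, `B = E ⧸ 𝔞` has char `p`, `π = mkₐ`, `φ₁ = algebraMap ∘ constantCoeff`.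
`iterateFrobenius B p n ∘ π = φ₁` (`f = C w + f₁`, `π(f₁)² = 0`, `w^q - w ∈ (p)` as `k` has `q` elements: `FiniteField.pow_card`, `GaloisField.card`).
`mul_fact` for `H.map π` (its `hI n` is `⊥`, `hI_map`) gives `V : H.map φ₁ → H.map π` with `[p] = V(X^q)`; reducing, `X^q = V̄(X^q)`, so `V̄ = X`.
`uniqQ` ⇒ `π = φ₁` ⇒ `X i ∈ 𝔞` ⇒ `mm ≤ I_n + mm²` (`Qh_top`) ⇒ Nakayama (`Submodule.le_of_le_smul_of_le_jacobson_bot`). -/
theorem hI_top (c : Ctx p n) : heightIdeal p n c.H n = mm p n := by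
  have hle : heightIdeal p n c.H n ≤ mm p n := UNIV.hI_le c le_rfl
  refine le_antisymm hle ?_
  obtain ⟨𝔞, h𝔞⟩ : ∃ 𝔞, 𝔞 = heightIdeal p n c.H n ⊔ mm p n ^ 2 := ⟨_, rfl⟩
  have h1 : 𝔞 ≤ mm p n := h𝔞 ▸ sup_le hle (Ideal.pow_le_self two_ne_zero)
  have h2 : mm p n ^ 2 ≤ 𝔞 := h𝔞 ▸ le_sup_right
  have h3 : heightIdeal p n c.H n ≤ 𝔞 := h𝔞 ▸ le_sup_left
  have hp : (p : LTRing p n) ∈ 𝔞 := h3 (by rw [heightIdeal_eq]; exact p_mem_hI p c.H c.hn)
  have hne : 𝔞 ≠ ⊤ := fun h => (maximalIdeal.isMaximal (LTRing p n)).ne_top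
    (top_le_iff.1 (by rw [← mm_eq_max, ← h]; exact h1))
  have : Nontrivial (LTRing p n ⧸ 𝔞) := Ideal.Quotient.nontrivial_iff.2 hne
  have : CharP (LTRing p n ⧸ 𝔞) p := by
    rw [CharP.charP_iff_prime_eq_zero (Fact.out : p.Prime),
      ← map_natCast (Ideal.Quotient.mk 𝔞)]
    exact Ideal.Quotient.eq_zero_iff_mem.2 hp
  let π : LTRing p n →ₐ[WW p n] LTRing p n ⧸ 𝔞 := Ideal.Quotient.mkₐ _ 𝔞
  let φ₁ : LTRing p n →ₐ[WW p n] LTRing p n ⧸ 𝔞 :=
    { (algebraMap (WW p n) (LTRing p n ⧸ 𝔞)).comp constantCoeff with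
      commutes' := fun w => by simp [MvPowerSeries.algebraMap_apply] }
  have hφ₁ : ∀ f, φ₁ f = Ideal.Quotient.mk 𝔞 (C (constantCoeff f)) := fun _ => rfl
  have hq : 2 ≤ p ^ n := Nat.one_lt_pow (by have := c.hn; omega) (Fact.out : p.Prime).one_lt
  have hfr : (iterateFrobenius (LTRing p n ⧸ 𝔞) p n).comp π.toRingHom = φ₁.toRingHom := by
    ext1 f
    have e1 : π f = Ideal.Quotient.mk 𝔞 (C (constantCoeff f)) +
        Ideal.Quotient.mk 𝔞 (f - C (constantCoeff f)) := by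
      rw [← map_add, add_sub_cancel]; rfl
    change iterateFrobenius _ p n (π f) = φ₁ f
    rw [e1, map_add, hφ₁, iterateFrobenius_def, iterateFrobenius_def,
      ← map_pow (Ideal.Quotient.mk 𝔞), ← map_pow (Ideal.Quotient.mk 𝔞), ← map_add,
      Ideal.Quotient.eq]
    have e2 : (f - C (constantCoeff f)) ^ p ^ n ∈ 𝔞 :=
      h2 (Ideal.pow_le_pow_right hq (Ideal.pow_mem_pow (RING.sub_C_mem p n f) _))
    have e3 : (p : WW p n) ∣ constantCoeff f ^ p ^ n - constantCoeff f := by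
      rw [← Ideal.mem_span_singleton, ← WittVector.ker_constantCoeff, RingHom.mem_ker, map_sub,
        map_pow, UNIV.pow_q c.hn, sub_self]
    have e4 := map_dvd (C : WW p n →+* LTRing p n) e3
    rw [map_natCast, map_sub, map_pow] at e4
    have e5 := Ideal.add_mem _ e2 (Ideal.mem_of_dvd _ e4 hp)
    convert e5 using 1
    ring
  have hb : hI p (c.H.map π.toRingHom) n = ⊥ := by
    rw [hI_map, ← heightIdeal_eq, eq_bot_iff, Ideal.map_le_iff_le_comap]
    intro x hx
    exact Ideal.Quotient.eq_zero_iff_mem.2 (h3 hx)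
  obtain ⟨g, hg, hg'⟩ := mul_fact p (c.H.map π.toRingHom) n hb
  rw [fg_map_map, hfr] at hg
  have r2 : (resQ p n 𝔞 h1).comp π.toRingHom = LTRing.residue p n := rfl
  have r1 : (resQ p n 𝔞 h1).comp φ₁.toRingHom = LTRing.residue p n := by
    ext1 f
    change LTRing.residue p n (C (constantCoeff f)) = _
    simp [LTRing.residue]
  have hX : g.map (resQ p n 𝔞 h1) = PowerSeries.X := by
    ext d
    have e1 := congrArg (PowerSeries.coeff (p ^ n * d)) hg'
    rw [PowerSeries.coeff_subst_X_pow (by omega), if_pos (dvd_mul_right _ _),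
      Nat.mul_div_cancel_left _ (by omega), Algebra.algebraMap_self, RingHom.id_apply] at e1
    rw [PowerSeries.coeff_map, ← e1, ← PowerSeries.coeff_map, mul_map, fg_map_map, r2, H_res, c.hΓ,
      PowerSeries.coeff_X_pow, PowerSeries.coeff_X]
    congr 1
    rw [eq_iff_iff]
    constructor
    · intro h; exact Nat.eq_of_mul_eq_mul_left (by omega : 0 < p ^ n) (by rw [h, mul_one])
    · rintro rfl; rw [mul_one]
  have he := uniqQ c 𝔞 h1 2 h2 φ₁ π r1 r2 g hg hX
  have h4 : mm p n ≤ 𝔞 := by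
    rw [← Qh_top, Qh, Ideal.span_le]
    rintro x (rfl | ⟨i, -, rfl⟩)
    · exact hp
    · have e1 : π (X i) = 0 := by rw [← he, hφ₁]; simp
      exact Ideal.Quotient.eq_zero_iff_mem.1 e1
  refine Submodule.le_of_le_smul_of_le_jacobson_bot (I := mm p n) (IsNoetherian.noetherian _) ?_ ?_
  · rw [mm_eq_max]; exact maximalIdeal_le_jacobson _
  · rwa [smul_eq_mul, ← pow_two, ← h𝔞]

/-- coordinates adapted to the height filtration.  PLAN: `Ψ = substAlgHom (u_i ↦ b_i := a_{i+1} - C (constantCoeff a_{i+1}))`;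
`constantCoeff a_{i+1} ∈ (p)` since `a_{i+1} ∈ mm`.  By induction `I_h = (Qh h).map Ψ` for `1 ≤ h ≤ n`; for `h = n`, `hI_top`, `Qh_top`
and `bij_of_map_mm` give bijectivity. -/
theorem exists_Psi (c : Ctx p n) : ∃ Ψ : LTRing p n ≃ₐ[WW p n] LTRing p n,
    (∀ h, 1 ≤ h → h ≤ n → heightIdeal p n c.H h = (Qh p n h).map Ψ) ∧
    (∀ i : Fin (n - 1), Ψ (X i) - aa c (i + 1) ∈ Ideal.span {(p : LTRing p n)}) := by
  let b : Fin (n - 1) → LTRing p n := fun i => aa c (i + 1) - C (constantCoeff (aa c (i + 1)))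
  have hb : HasSubst b := hasSubst_of_constantCoeff_zero fun i => by simp [b]
  let Ψ : LTRing p n →ₐ[WW p n] LTRing p n := substAlgHom hb
  have hΨ : ∀ i, Ψ (X i) = b i := fun i => substAlgHom_X hb i
  have hd : ∀ i : Fin (n - 1), (p : LTRing p n) ∣ C (constantCoeff (aa c (i + 1))) := by
    intro i
    have h1 := (RING.mem_mm_iff p n _).1 (aa_mem_mm c (h := i + 1) (by have := i.2; omega))
    simpa using map_dvd (C : WW p n →+* LTRing p n) h1
  have hpQ : ∀ h, (p : LTRing p n) ∈ (Qh p n h).map Ψ.toRingHom := by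
    intro h
    have := Ideal.mem_map_of_mem Ψ.toRingHom
      (Ideal.subset_span (Set.mem_insert _ _) : (p : LTRing p n) ∈ Qh p n h)
    rwa [map_natCast] at this
  have h1 : ∀ h, h ≤ n → heightIdeal p n c.H h ≤ (Qh p n h).map Ψ.toRingHom := by
    intro h
    induction h with
    | zero => exact fun _ => bot_le
    | succ h ih =>
      intro hh
      refine sup_le ((ih (by omega)).trans (Ideal.map_mono (Ideal.span_mono ?_))) ?_
      · exact Set.insert_subset_insert (Set.image_mono fun i hi => Nat.lt_succ_of_lt hi)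
      · rw [Ideal.span_le, Set.singleton_subset_iff]
        change aa c h ∈ _
        rcases h with _ | h
        · rw [aa_zero]; exact hpQ _
        · let i : Fin (n - 1) := ⟨h, by omega⟩
          have e1 : aa c (h + 1) = Ψ.toRingHom (X i) + C (constantCoeff (aa c (i + 1))) := by
            change _ = Ψ (X i) + _
            rw [hΨ]; simp [b, i]
          rw [e1]
          refine Ideal.add_mem _ (Ideal.mem_map_of_mem _ (Ideal.subset_span (Or.inr ⟨i, ?_, rfl⟩)))
            (Ideal.mem_of_dvd _ (hd i) (hpQ _))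
          exact Nat.lt_succ_self _
  have h2 : ∀ h, 1 ≤ h → (Qh p n h).map Ψ.toRingHom ≤ heightIdeal p n c.H h := by
    intro h hh
    have hp : (p : LTRing p n) ∈ heightIdeal p n c.H h := by
      rw [heightIdeal_eq]; exact p_mem_hI p c.H hh
    rw [Ideal.map_le_iff_le_comap, Qh, Ideal.span_le]
    rintro x (rfl | ⟨i, hi, rfl⟩)
    · rw [SetLike.mem_coe, Ideal.mem_comap, map_natCast]; exact hp
    · change Ψ (X i) ∈ heightIdeal p n c.H h
      rw [hΨ]
      exact Ideal.sub_mem _ (UNIV.aa_mem c hi) (Ideal.mem_of_dvd _ (hd i) hp)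
  have hbij : Function.Bijective Ψ := by
    refine bij_of_map_mm Ψ ?_
    have := le_antisymm (h1 n le_rfl) (h2 n c.hn)
    rw [hI_top, Qh_top] at this
    exact this.symm
  refine ⟨AlgEquiv.ofBijective Ψ hbij, fun h hh hh' => le_antisymm (h1 h hh') (h2 h hh), fun i => ?_⟩
  rw [AlgEquiv.ofBijective_apply, hΨ, Ideal.mem_span_singleton]
  simpa [b] using hd i

theorem hI_prime (c : Ctx p n) {h : ℕ} (hh : h ≤ n) : (heightIdeal p n c.H h).IsPrime := by
  rcases Nat.eq_zero_or_pos h with rfl | h0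
  · have : IsDomain (LTRing p n) := NoZeroDivisors.to_isDomain _
    exact Ideal.isPrime_bot
  · obtain ⟨Ψ, hΨ, -⟩ := exists_Psi c
    rw [hΨ h h0 hh]
    have := Qh_prime p n h
    infer_instance

/-- PLAN: `θ₁` is a unit (its residue is `g₁`); `hI_hom`, `hI_map` give `(I_h).map φ = I_h`; `h = n` and `bij_of_map_mm`. -/
theorem stab_bij (c : Ctx p n) {g : PowerSeries (GaloisField p n)} (hg : IsFGAut c.Γ g)
    {φ : LTRing p n →ₐ[WW p n] LTRing p n} (hφ : IsStabilizerMap p n c.H g φ) :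
    Function.Bijective φ ∧ ∀ h, (heightIdeal p n c.H h).map φ.toRingHom = heightIdeal p n c.H h := by
  obtain ⟨-, θ, hθ, hθg⟩ := hφ
  have hu : IsUnit (PowerSeries.coeff 1 θ) :=
    UNIV.isUnit_of_res (by rw [← PowerSeries.coeff_map, hθg]; exact hg.2)
  have h1 : ∀ h, (heightIdeal p n c.H h).map φ.toRingHom = heightIdeal p n c.H h := by
    intro h
    rw [heightIdeal_eq, ← hI_map]
    exact hI_hom p hθ hu h
  refine ⟨bij_of_map_mm φ ?_, h1⟩
  rw [← hI_top c]
  exact h1 n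

theorem hI_stable (c : Ctx p n) (M h : ℕ) : IsStableIdeal p n c.Γ c.H M (heightIdeal p n c.H h) := by
  intro g φ hg _ hφ
  obtain ⟨h1, h2⟩ := stab_bij c hg hφ
  conv_lhs => rw [← h2 h]
  exact Ideal.comap_map_of_bijective φ.toRingHom h1

/-- PLAN: lift `g` to `g̃` (`exists_lift`), `exists_conj` gives `G` with `g̃ : G → H`; `G` reduces to `Γ` (`conj_unique`, `hom_map`);
existence clause of `c.hH` with `B = E` (`E_complete`, `mm_eq_max`) gives `φ, θ₀ : H.map φ → G` reducing to `X`; `θ = g̃ ∘ θ₀`. -/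
theorem exists_stab (c : Ctx p n) {g : PowerSeries (GaloisField p n)} (hg : IsFGAut c.Γ g) :
    ∃ φ : LTRing p n →ₐ[WW p n] LTRing p n, IsStabilizerMap p n c.H g φ := by
  obtain ⟨η, hη0, hη⟩ := exists_lift g hg.1.1
  have hu : IsUnit (PowerSeries.coeff 1 η) :=
    UNIV.isUnit_of_res (by rw [← PowerSeries.coeff_map, hη]; exact hg.2)
  obtain ⟨G, hG⟩ := exists_conj c.H hη0 hu
  have hG' : G.map (LTRing.residue p n) = c.Γ := by
    have := hom_map hG (LTRing.residue p n)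
    rw [H_res, hη] at this
    exact conj_unique hg.2 this hg.1
  obtain ⟨φ, ⟨h1, θ, hθ, hθX⟩, -⟩ := c.hH.2 (LTRing p n) (E_complete p n) (LTRing.residue p n)
    (residue_surj p n) (mm_eq_max p n) (residue_alg p n) G hG'
  refine ⟨φ, h1, η.subst θ, hom_comp hθ hG, ?_⟩
  have := PowerSeries.map_subst (h := LTRing.residue p n)
    (PowerSeries.HasSubst.of_constantCoeff_zero' hθ.1) η
  refine this.trans ?_
  change PowerSeries.subst (PowerSeries.map (LTRing.residue p n) θ) _ = _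
  rw [hθX, hη, PowerSeries.X_subst]

/-- (ORB) PLAN: `φ` from `exists_stab`, bijective; `ψ = φ⁻¹`, apply `hom_map _ ψ` to `θ : H.map φ → H`. -/
theorem orb (c : Ctx p n) {M : ℕ} {J : Ideal (LTRing p n)} (hJ : IsStableIdeal p n c.Γ c.H M J)
    {g : PowerSeries (GaloisField p n)} (hg : IsFGAut c.Γ g)
    (hgM : ∀ i < M, PowerSeries.coeff i g = PowerSeries.coeff i PowerSeries.X) :
    ∃ (ψ : LTRing p n →ₐ[WW p n] LTRing p n) (θ : PowerSeries (LTRing p n)),
      (LTRing.residue p n).comp ψ.toRingHom = LTRing.residue p n ∧ (∀ f ∈ J, ψ f ∈ J) ∧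
      (∀ h, ∀ f ∈ heightIdeal p n c.H h, ψ f ∈ heightIdeal p n c.H h) ∧
      IsFGHom c.H (c.H.map ψ.toRingHom) θ ∧ θ.map (LTRing.residue p n) = g ∧
      IsUnit (PowerSeries.coeff 1 θ) := by
  obtain ⟨φ, hφ⟩ := exists_stab c hg
  obtain ⟨hb, -⟩ := stab_bij c hg hφ
  let e := AlgEquiv.ofBijective φ hb
  let ψ : LTRing p n →ₐ[WW p n] LTRing p n := e.symm.toAlgHom
  have h1 : ∀ f, φ (ψ f) = f := fun f => e.apply_symm_apply f
  have h2 : ψ.toRingHom.comp φ.toRingHom = RingHom.id _ :=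
    RingHom.ext fun f => e.symm_apply_apply f
  have hst : ∀ I : Ideal (LTRing p n), IsStableIdeal p n c.Γ c.H M I → ∀ f ∈ I, ψ f ∈ I := by
    intro I hI f hf
    rw [← hI g φ hg hgM hφ]
    change φ (ψ f) ∈ I
    rwa [h1]
  obtain ⟨hr, θ, hθ, hθg⟩ := hφ
  have hr' : (LTRing.residue p n).comp ψ.toRingHom = LTRing.residue p n := by
    ext1 f
    conv_lhs => rw [← hr]
    exact congrArg (LTRing.residue p n) (h1 f)
  have hm : (θ.map ψ.toRingHom).map (LTRing.residue p n) = g := by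
    rw [← hθg]
    ext d
    simp only [PowerSeries.coeff_map]
    exact congrArg (fun F : LTRing p n →+* GaloisField p n => F (PowerSeries.coeff d θ)) hr'
  refine ⟨ψ, θ.map ψ.toRingHom, hr', hst J hJ, fun h => hst _ (hI_stable c M h), ?_, hm, ?_⟩
  · have := hom_map hθ ψ.toRingHom
    rwa [fg_map_map, h2, fg_map_id] at this
  · exact UNIV.isUnit_of_res (by rw [← PowerSeries.coeff_map, hm]; exact hg.2)

/-- universal Weierstrass factorisation of `g̃`.  PLAN: mod `mm`, `g̃ ≡ T^(p^(n-h))` (`mul_sub_mem_mm`);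
`PowerSeries.exists_isWeierstrassFactorization` with `E_complete`, `mm_eq_max`; read off the degree
(`IsWeierstrassFactorization.natDegree_eq_toNat_order_map` or so). -/
theorem weier_gt (c : Ctx p n) {h : ℕ} (hh : h ≤ n) :
    ∃ (P : Polynomial (LTRing p n)) (U : PowerSeries (LTRing p n)), P.Monic ∧ P.natDegree = p ^ (n - h) ∧
      (∀ i < p ^ (n - h), P.coeff i ∈ mm p n) ∧ IsUnit U ∧ gt c h = (P : PowerSeries (LTRing p n)) * U := by
  have := E_complete p n
  have hp : 0 < p ^ h := pow_pos (Fact.out : p.Prime).pos h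
  have h1 : (gt c h).map (IsLocalRing.residue (LTRing p n)) = PowerSeries.X ^ p ^ (n - h) := by
    ext i
    have h2 := mul_sub_mem_mm c (i * p ^ h)
    rw [mm_eq_max, ← IsLocalRing.residue_eq_zero_iff, map_sub, map_sub, sub_eq_zero] at h2
    rw [PowerSeries.coeff_map, gt, PowerSeries.coeff_mk, h2, PowerSeries.coeff_X_pow,
      PowerSeries.coeff_X_pow]
    have h3 : i * p ^ h = p ^ n ↔ i = p ^ (n - h) := by
      conv_lhs => rw [← Nat.sub_add_cancel hh, pow_add]
      exact Nat.mul_left_inj hp.ne'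
    simp only [h3]
    split_ifs <;> simp
  obtain ⟨P, U, hP⟩ := (gt c h).exists_isWeierstrassFactorization
    (by rw [h1]; exact pow_ne_zero _ PowerSeries.X_ne_zero)
  have hd : P.natDegree = p ^ (n - h) := by
    rw [hP.natDegree_eq_toNat_order_map, h1, PowerSeries.order_X_pow]; rfl
  refine ⟨P, U, hP.isDistinguishedAt.monic, hd, fun i hi => ?_, hP.isUnit, hP.eq_mul⟩
  rw [mm_eq_max]
  exact hP.isDistinguishedAt.mem (by rwa [hd])

/-- on `V(I_h)`, `[p] = g̃(X^(p^h))`.  (`coeff_mem_hI`, `PowerSeries.coeff_subst_X_pow`) -/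
theorem mul_eq_gt (c : Ctx p n) (h : ℕ) {S : Type*} [CommRing S] (z : LTRing p n →+* S)
    (hz : ∀ f ∈ heightIdeal p n c.H h, z f = 0) :
    mulSeries (c.H.map z) p = ((gt c h).map z).subst (PowerSeries.X ^ (p ^ h) : PowerSeries S) := by
  have hp : 0 < p ^ h := pow_pos (Fact.out : p.Prime).pos h
  ext d
  rw [PowerSeries.coeff_subst_X_pow hp.ne', ← mul_map, PowerSeries.coeff_map]
  split_ifs with hd
  · rw [Algebra.algebraMap_self, RingHom.id_apply, PowerSeries.coeff_map, gt, PowerSeries.coeff_mk,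
      Nat.div_mul_cancel hd]
  · exact hz _ (by rw [heightIdeal_eq]; exact coeff_mem_hI p c.H h d hd)

end
end Crest.Agent.R227
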