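import Crest.Agent.R227.Ev
import Crest.Agent.R227.Univ

/-!
# Row 227: definitions for the characteristic `p` part (no `sorry` in this file, frozen)
-/
set_option autoImplicit false
open Crest.LubinTate Filter

namespace Crest.Agent.R227
noncomputable section
variable {C : Type} [NormedField C] [IsUltrametricDist C] [CompleteSpace C]

/-- `[p]_G ≡ X^q` up to `δ`. -/
def Near (G : FormalGroup (Ob C)) (p q : ℕ) (δ : ℝ) : Prop :=
  ∀ d, ‖PowerSeries.coeff d (mulSeries G p - PowerSeries.X ^ q)‖ ≤ δ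

/-- an element of the Tate module: `τ 0 = 0`, `p τ (i+1) = τ i`. -/
def IsSys (p : ℕ) {G : FormalGroup (Ob C)} [G.IsComm] (τ : ℕ → GPt G) : Prop :=
  τ 0 = 0 ∧ ∀ i, p • τ (i + 1) = τ i

/-- `y_i(τ) = lim_l τ_{i+l}^(q^l)`. -/
def yy (q : ℕ) {G : FormalGroup (Ob C)} (τ : ℕ → GPt G) (i : ℕ) : Ob C :=
  limUnder atTop fun l => (τ (i + l)).1 ^ q ^ l

/-- `𝔽_p`-independence of `p`-torsion points. -/
def Indep (p : ℕ) {G : FormalGroup (Ob C)} [G.IsComm] {r : ℕ} (t : Fin r → GPt G) : Prop :=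
  ∀ c : Fin r → ℕ, ∑ j, c j • t j = 0 → ∀ j, p ∣ c j

variable {p : ℕ} [Fact p.Prime] {n : ℕ}

/-- a point of the Igusa tower over the height-`h` stratum, with a radius `ρ`. -/
structure XPt (c : Ctx p n) (h : ℕ) (ι : GaloisField p n →+* Ob C) extends ZPt c h ι where
  τ : Fin (n - h) → ℕ → GPt (c.H.map z)
  sys : ∀ j, IsSys p (τ j)
  ind : Indep p fun j => τ j 1
  ρ : ℝ
  ρlt : ρ < 1
  ρge : ∀ j, ‖(τ j 1).1‖ ≤ ρ

end
end Crest.Agent.R227
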