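import Crest.Agent.R227.Defs

/-!
# 227-ELIM: Moore-determinant elimination in `W(O)`.
`[y] = teichmuller p y`, `φ = WittVector.frobenius`.
-/
set_option autoImplicit false
open WittVector Finset

namespace Crest.Agent.R227
noncomputable section

/-- PLAN: induction on `i` generalizing `a x`; `x = [x₀] + V (shift x 1)` (`coeff_add_of_disjoint`), `verschiebung_mul_frobenius`,
`frobenius_eq_map_frobenius`, `map_teichmuller`. -/
theorem teich_mul_coeff {R : Type*} [CommRing R] (p : ℕ) [Fact p.Prime] [CharP R p] (a : R) (x : WittVector p R) (i : ℕ) :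
    (teichmuller p a * x).coeff i = a ^ p ^ i * x.coeff i := by
  induction i generalizing a x with
  | zero => simp [mul_coeff_zero]
  | succ i ih =>
    have hdis : ∀ (b : R) (z : WittVector p R) (n : ℕ),
        (teichmuller p b).coeff n = 0 ∨ (verschiebung z).coeff n = 0 := by
      intro b z n
      cases n with
      | zero => exact Or.inr (verschiebung_coeff_zero _)
      | succ n => exact Or.inl (teichmuller_coeff_pos p b _ (Nat.succ_pos _))
    have hx : x = teichmuller p (x.coeff 0) + verschiebung (x.shift 1) := by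
      ext n
      rw [coeff_add_of_disjoint _ _ _ (hdis _ _)]
      cases n with
      | zero => simp
      | succ n =>
        rw [teichmuller_coeff_pos p _ _ (Nat.succ_pos _), verschiebung_coeff_add_one, shift_coeff,
          zero_add, add_comm 1 n]
    have h1 : teichmuller p a * x =
        teichmuller p (a * x.coeff 0) + verschiebung (teichmuller p (a ^ p) * x.shift 1) := by
      conv_lhs => rw [hx]
      rw [mul_add, ← map_mul, mul_comm _ (verschiebung _), ← verschiebung_mul_frobenius,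
        frobenius_eq_map_frobenius, map_teichmuller, frobenius_def, mul_comm (x.shift 1)]
    rw [h1, coeff_add_of_disjoint _ _ _ (hdis _ _), teichmuller_coeff_pos p _ _ (Nat.succ_pos _),
      verschiebung_coeff_add_one, ih, shift_coeff, zero_add, add_comm 1 i, ← pow_mul, pow_succ']

/-- PLAN: `x = init L x + V^L (shift x L)` (`init_add_tail`, `eq_iterate_verschiebung`), `coeff_add_of_disjoint`. -/
theorem add_V_coeff {R : Type*} [CommRing R] (p : ℕ) [Fact p.Prime] (x y : WittVector p R) (L : ℕ) :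
    (x + verschiebung^[L] y).coeff L = x.coeff L + y.coeff 0 := by
  have ht : WittVector.tail L x = verschiebung^[L] ((WittVector.tail L x).shift L) :=
    eq_iterate_verschiebung fun i hi => by
      rw [WittVector.tail, WittVector.select, coeff_mk, if_neg (by omega)]
  have h1 : x + verschiebung^[L] y =
      WittVector.init L x + verschiebung^[L] ((WittVector.tail L x).shift L + y) := by
    rw [iterate_map_add, ← ht, ← add_assoc, init_add_tail]
  have h2 := iterate_verschiebung_coeff ((WittVector.tail L x).shift L + y) L 0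
  rw [zero_add] at h2
  rw [h1, coeff_add_of_disjoint, h2, add_coeff_zero, shift_coeff, WittVector.init, WittVector.select,
    coeff_mk, if_neg (lt_irrefl _), zero_add, WittVector.tail, WittVector.select, coeff_mk,
    if_pos (by omega), add_zero]
  intro n
  by_cases hn : n < L
  · exact Or.inr (iterate_verschiebung_coeff_eq_zero _ hn)
  · left; rw [WittVector.init, WittVector.select, coeff_mk, if_neg hn]

namespace ELIM

theorem frob_teich {R : Type*} [CommRing R] (p : ℕ) [Fact p.Prime] [CharP R p] (a : R) (j : ℕ) :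
    frobenius^[j] (teichmuller p a) = teichmuller p (a ^ p ^ j) := by
  induction j with
  | zero => simp
  | succ j ih =>
    rw [Function.iterate_succ_apply', ih, frobenius_eq_map_frobenius, map_teichmuller,
      frobenius_def, ← pow_mul, ← pow_succ]

theorem unit_of_coeff {R : Type*} [CommRing R] (p : ℕ) [Fact p.Prime] [CharP R p]
    {U : WittVector p R} (h : IsUnit (U.coeff 0)) : IsUnit U := by
  obtain ⟨a, ha⟩ := h
  exact (mkUnit ha.symm).isUnit

theorem pow_sub_eq_prod {R : Type*} [CommRing R] (p : ℕ) [Fact p.Prime] [CharP R p] (t : R) :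
    t ^ p - t = ∏ c : ZMod p, (t - (c.val : R)) := by
  classical
  have hp := (Fact.out : p.Prime).one_lt
  have hm : (Polynomial.X ^ p - Polynomial.X : Polynomial (ZMod p)).Monic :=
    Polynomial.monic_X_pow_sub (by rw [Polynomial.degree_X]; exact_mod_cast hp)
  have hr := FiniteField.roots_X_pow_card_sub_X (ZMod p)
  rw [ZMod.card] at hr
  have h1 := Polynomial.prod_multiset_X_sub_C_of_monic_of_roots_card_eq hm (by
    rw [hr, FiniteField.X_pow_card_sub_X_natDegree_eq _ hp, ← Finset.card_def, Finset.card_univ,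
      ZMod.card])
  rw [hr] at h1
  have h2 := congrArg (Polynomial.eval₂RingHom (ZMod.castHom (dvd_refl p) R) t) h1
  rw [← Finset.prod_eq_multiset_prod, map_prod] at h2
  simp only [Polynomial.coe_eval₂RingHom, Polynomial.eval₂_sub, Polynomial.eval₂_X,
    Polynomial.eval₂_C, Polynomial.eval₂_pow, ZMod.castHom_apply] at h2
  rw [← h2]
  exact Finset.prod_congr rfl fun c _ => by rw [ZMod.natCast_val]

variable {C : Type} [NormedField C] [IsUltrametricDist C] (p : ℕ) [Fact p.Prime] [CharP C p]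

theorem unit_pow_sub (t : Ob C) (h : ∀ c : ℕ, ¬ p ∣ c → 1 ≤ ‖t - c‖) : IsUnit (t ^ (p - 1) - 1) := by
  classical
  have hp := (Fact.out : p.Prime).one_lt
  by_cases ht : t = 0
  · rw [ht, zero_pow (by omega), zero_sub]; exact isUnit_one.neg
  have h1 := pow_sub_eq_prod p t
  rw [← Finset.mul_prod_erase _ _ (Finset.mem_univ (0 : ZMod p))] at h1
  have h2 : t ^ p - t = t * (t ^ (p - 1) - 1) := by
    rw [mul_sub, ← pow_succ', Nat.sub_add_cancel hp.le, mul_one]
  rw [h2, ZMod.val_zero, Nat.cast_zero, sub_zero] at h1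
  rw [mul_left_cancel₀ ht h1]
  refine IsUnit.prod_iff.2 fun c hc => Ob.isUnit_iff.2 (le_antisymm (Ob.norm_le_one _) (h _ ?_))
  intro hd
  have h3 := Nat.eq_zero_of_dvd_of_lt hd (ZMod.val_lt c)
  exact (Finset.mem_erase.1 hc).1 ((ZMod.val_eq_zero c).1 h3)

/-- `P(y) = y^p - y₀^(p-1) y = y y₀^(p-1) u`. -/
theorem moore (y₀ y : Ob C) (h0 : y₀ ≠ 0) (hle : ‖y‖ ≤ ‖y₀‖)
    (h : ∀ c : ℕ, ¬ p ∣ c → ‖y₀‖ ≤ ‖y - c * y₀‖) :
    ∃ t : Ob C, y = y₀ * t ∧ IsUnit (t ^ (p - 1) - 1) ∧
      y ^ p - y₀ ^ (p - 1) * y = y * y₀ ^ (p - 1) * (t ^ (p - 1) - 1) := by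
  have hp := (Fact.out : p.Prime).one_lt
  obtain ⟨t, rfl⟩ := Ob.dvd_iff.2 hle
  refine ⟨t, rfl, unit_pow_sub p t fun c hc => ?_, ?_⟩
  · have h1 := h c hc
    rw [mul_comm (c : Ob C), ← mul_sub, norm_mul] at h1
    exact (le_mul_iff_one_le_right (norm_pos_iff.2 h0)).1 h1
  · obtain ⟨q, rfl⟩ : ∃ q, p = q + 1 := ⟨p - 1, by omega⟩
    simp only [Nat.add_sub_cancel]
    ring

theorem geom (N : ℕ) : ∑ s ∈ range (N + 1), (p - 1) * p ^ (N - s) ≤ p ^ (N + 1) := by
  have hp := (Fact.out : p.Prime).one_lt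
  have h1 := Finset.sum_range_reflect (fun s => (p - 1) * p ^ s) (N + 1)
  simp only [Nat.add_sub_cancel] at h1
  rw [h1, ← Finset.mul_sum]
  obtain ⟨q, rfl⟩ : ∃ q, p = q + 1 := ⟨p - 1, by omega⟩
  have := geom_sum_mul_add q (N + 1)
  simp only [Nat.add_sub_cancel]
  rw [← this, mul_comm]
  omega

end ELIM

variable {C : Type} [NormedField C] [IsUltrametricDist C] (p : ℕ) [Fact p.Prime] [CharP C p]

/-- PLAN: induction on `N` generalizing `y Y`.  `N = 0`: `κ = 1`, `ω = y 0`.  Step: `𝐝 = [y₀^(p-1)] φ(U₀) U₀⁻¹` (`mkUnit`), so `φ Y₀ = 𝐝 Y₀`;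
`Y'_i = φ Y_{i+1} - 𝐝 Y_{i+1}`, `y'_i = y_{i+1}^p - y₀^(p-1) y_{i+1}`.  The map `P(y) = y^p - y₀^(p-1) y = ∏_{c ∈ 𝔽_p} (y - c y₀)` is additive and
`ℤ`-linear; for `y = ∑_{i ≥ 1} c_i y_i` orthogonality gives `‖y - c y₀‖ = ‖y₀‖` (`p ∤ c`), so `‖P y‖ = ‖y‖ ‖y₀‖^(p-1)`: `y'` satisfies all hypotheses.
`Y'_i = [y_{i+1} y₀^(p-1)] · w` with `w.coeff 0 = y'_i / (y_{i+1} y₀^(p-1))` a unit `u`, so `Y'_i = [y'_i] · ([u⁻¹] w)`.
With `κ'` from the induction put `κ_{i+1} = κ'_i`, `κ₀ Y₀ = - ∑_{i ≥ 1} κ_i Y_i` (possible: `[y₀] ∣ [y_N] ∣ κ_i Y_i`, cancel `[y₀^(p-1)]` in the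
domain `W(O)`).  Then `R 0 = 0` and `R (j+1) = R' j + φ^j(𝐝) R j`, with `[θ] ∣ φ^j 𝐝`; `ω = ω'`.
Norm: `∏_{s=1}^{N+1} (‖y_s‖ ‖y₀‖^(p-1))^(p^(N+1-s)) = ∏ ‖y_s‖^(..) · ‖y₀‖^(p^(N+1) - 1)`. -/
theorem elim (N : ℕ) (θ : Ob C) (y : ℕ → Ob C) (Y : ℕ → WittVector p (Ob C))
    (hy0 : ∀ j ≤ N, y j ≠ 0) (hθ : ∀ j ≤ N, ‖y j‖ ≤ ‖θ‖) (hs : ∀ j < N, ‖y (j + 1)‖ ≤ ‖y j‖)
    (ho : ∀ c : ℕ → ℤ, ∀ j ≤ N, ¬ (p : ℤ) ∣ c j → ‖y j‖ ≤ ‖∑ i ∈ range (N + 1), (c i : Ob C) * y i‖)
    (hY : ∀ j ≤ N, ∃ U : WittVector p (Ob C), U.coeff 0 = 1 ∧ Y j = teichmuller p (y j) * U) :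
    ∃ (κ : ℕ → WittVector p (Ob C)) (ω : Ob C) (U : WittVector p (Ob C)),
      κ N = 1 ∧ (∀ j ≤ N, teichmuller p (y N) ∣ κ j * Y j) ∧ U.coeff 0 = 1 ∧
      ∏ s ∈ range (N + 1), ‖y s‖ ^ (p ^ (N - s)) ≤ ‖ω‖ ∧
      (∀ j < N, ∑ i ∈ range (N + 1), κ i * frobenius^[j] (Y i) = 0) ∧
      ∑ i ∈ range (N + 1), κ i * frobenius^[N] (Y i) = teichmuller p ω * U ∧
      ∀ j, N < j → teichmuller p (ω * θ) ∣ ∑ i ∈ range (N + 1), κ i * frobenius^[j] (Y i) := by
  have hp := (Fact.out : p.Prime).one_lt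
  have hT0 : ∀ a : Ob C, a ≠ 0 → teichmuller p a ≠ 0 := fun a ha h =>
    ha (by simpa using congrArg (fun w => w.coeff 0) h)
  induction N generalizing y Y with
  | zero =>
    obtain ⟨U, hU, hYU⟩ := hY 0 le_rfl
    refine ⟨fun _ => 1, y 0, U, rfl, fun j hj => ?_, hU, by simp, fun j hj => absurd hj (by omega),
      by simpa using hYU, fun j hj => ?_⟩
    · obtain rfl : j = 0 := by omega
      rw [one_mul, hYU]; exact dvd_mul_right _ _
    · simp only [zero_add, range_one, sum_singleton, one_mul]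
      rw [hYU, iterate_map_mul, ELIM.frob_teich]
      refine Dvd.dvd.mul_right (map_dvd _ ?_) _
      obtain ⟨e, he⟩ : ∃ e, p ^ j = e + 1 + 1 := ⟨p ^ j - 2, by
        have := Nat.one_lt_pow hj.ne' hp; omega⟩
      rw [he, pow_succ', pow_succ']
      exact mul_dvd_mul_left _ ((Ob.dvd_iff.2 (hθ 0 le_rfl)).mul_right _)
  | succ N ih =>
    have hanti : ∀ j ≤ N + 1, ∀ i ≤ j, ‖y j‖ ≤ ‖y i‖ := by
      intro j hj i hi
      induction j with
      | zero => obtain rfl : i = 0 := by omega
                exact le_rfl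
      | succ j ihj =>
        rcases Nat.eq_or_lt_of_le hi with rfl | hi
        · exact le_rfl
        · exact (hs j (by omega)).trans (ihj (by omega) (by omega))
    have h00 := hy0 0 (by omega)
    -- the additive map
    have hP : ∀ c : ℕ → ℤ, ∃ t : Ob C, ∑ i ∈ range (N + 1), (c i : Ob C) * y (i + 1) = y 0 * t ∧
        IsUnit (t ^ (p - 1) - 1) ∧
        (∑ i ∈ range (N + 1), (c i : Ob C) * y (i + 1)) ^ p -
          y 0 ^ (p - 1) * ∑ i ∈ range (N + 1), (c i : Ob C) * y (i + 1) =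
        (∑ i ∈ range (N + 1), (c i : Ob C) * y (i + 1)) * y 0 ^ (p - 1) * (t ^ (p - 1) - 1) := by
      intro c
      refine ELIM.moore p _ _ h00 ?_ fun a ha => ?_
      · refine IsUltrametricDist.norm_sum_le_of_forall_le_of_nonneg (norm_nonneg _) fun i hi => ?_
        rw [norm_mul]
        exact (mul_le_of_le_one_left (norm_nonneg _) (Ob.norm_le_one _)).trans
          (hanti _ (by have := mem_range.1 hi; omega) 0 (by omega))
      · have := ho (fun i => Nat.casesOn i (-(a : ℤ)) c) 0 (by omega) (by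
          simpa [Int.natCast_dvd_natCast] using ha)
        rw [Finset.sum_range_succ'] at this
        simpa [sub_eq_add_neg] using this
    have hP1 : ∀ i ≤ N, ∃ t : Ob C, y (i + 1) = y 0 * t ∧ IsUnit (t ^ (p - 1) - 1) ∧
        y (i + 1) ^ p - y 0 ^ (p - 1) * y (i + 1) = y (i + 1) * y 0 ^ (p - 1) * (t ^ (p - 1) - 1) := by
      intro i hi
      have e : ∑ k ∈ range (N + 1), (((if k = i then 1 else 0 : ℤ)) : Ob C) * y (k + 1) = y (i + 1) := by
        rw [Finset.sum_eq_single i (fun k _ hk => by simp [hk]) (fun h => absurd (mem_range.2 (by omega)) h)]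
        simp
      have := hP (fun k => if k = i then 1 else 0)
      rwa [e] at this
    obtain ⟨U₀, hU₀, hY₀⟩ := hY 0 (by omega)
    obtain ⟨V₀, hV₀⟩ := (ELIM.unit_of_coeff p (U := U₀) (by rw [hU₀]; exact isUnit_one)).exists_right_inv
    have hV₀c : V₀.coeff 0 = 1 := by
      have := congrArg (fun w => w.coeff 0) hV₀
      simpa [mul_coeff_zero, hU₀] using this
    set d : WittVector p (Ob C) := teichmuller p (y 0 ^ (p - 1)) * (frobenius U₀ * V₀) with hd
    have hd0 : frobenius (Y 0) = d * Y 0 := by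
      have := ELIM.frob_teich p (y 0) 1
      simp only [Function.iterate_one, pow_one] at this
      have e : y 0 ^ p = y 0 ^ (p - 1) * y 0 := by rw [← pow_succ, Nat.sub_add_cancel hp.le]
      rw [hY₀, map_mul, this, e, map_mul, hd]
      linear_combination (-(teichmuller p (y 0 ^ (p - 1)) * teichmuller p (y 0) * frobenius U₀)) * hV₀
    set y' : ℕ → Ob C := fun i => y (i + 1) ^ p - y 0 ^ (p - 1) * y (i + 1) with hy'
    set Y' : ℕ → WittVector p (Ob C) := fun i => frobenius (Y (i + 1)) - d * Y (i + 1) with hY'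
    have hn' : ∀ i ≤ N, ‖y' i‖ = ‖y (i + 1)‖ * ‖y 0‖ ^ (p - 1) := by
      intro i hi
      obtain ⟨t, -, h2, h3⟩ := hP1 i hi
      simp only [hy']
      rw [h3, norm_mul, norm_mul, Ob.isUnit_iff.1 h2, mul_one, norm_pow]
    have hpos : 0 < ‖y 0‖ ^ (p - 1) := pow_pos (norm_pos_iff.2 h00) _
    have hle1 : ‖y 0‖ ^ (p - 1) ≤ 1 := pow_le_one₀ (norm_nonneg _) (Ob.norm_le_one _)
    have hYY : ∀ j ≤ N, ∃ U : WittVector p (Ob C), U.coeff 0 = 1 ∧ Y' j = teichmuller p (y' j) * U := by
      intro j hj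
      obtain ⟨t, h1, h2, h3⟩ := hP1 j hj
      obtain ⟨U, hU, hYU⟩ := hY (j + 1) (by omega)
      obtain ⟨v, hv⟩ := h2.exists_right_inv
      refine ⟨teichmuller p v * (teichmuller p (t ^ (p - 1)) * frobenius U - frobenius U₀ * V₀ * U),
        ?_, ?_⟩
      · have e : ∀ w : WittVector p (Ob C), w.coeff 0 = constantCoeff w := fun _ => rfl
        rw [e, map_mul, map_sub, map_mul, map_mul, map_mul]
        simp only [← e, teichmuller_coeff_zero, coeff_frobenius_charP, hU, hU₀, hV₀c, one_pow, mul_one]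
        rw [mul_comm, hv]
      · have e1 := ELIM.frob_teich p (y (j + 1)) 1
        simp only [Function.iterate_one, pow_one] at e1
        have e2 : y (j + 1) ^ p = y (j + 1) * y 0 ^ (p - 1) * t ^ (p - 1) := by
          rw [mul_assoc, ← mul_pow, ← h1, ← pow_succ', Nat.sub_add_cancel hp.le]
        simp only [hY', hy']
        rw [h3, ← mul_assoc, ← map_mul, mul_assoc _ _ v, hv, mul_one, hYU, map_mul, e1, e2, hd,
          map_mul, map_mul]
        ring
    obtain ⟨κ', ω, U', hκN, hκd, hU', hω, hR0, hRN, hRj⟩ := ih y' Y'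
      (fun j hj => norm_pos_iff.1 (by
        rw [hn' j hj]; exact mul_pos (norm_pos_iff.2 (hy0 _ (by omega))) hpos))
      (fun j hj => by
        rw [hn' j hj]
        exact (mul_le_of_le_one_right (norm_nonneg _) hle1).trans (hθ _ (by omega)))
      (fun j hj => by
        rw [hn' _ (by omega), hn' _ (by omega)]
        exact mul_le_mul_of_nonneg_right (hs _ (by omega)) hpos.le)
      (fun c j hj hc => by
        obtain ⟨t, -, h2, h3⟩ := hP c
        have e : ∑ i ∈ range (N + 1), (c i : Ob C) * y' i =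
            (∑ i ∈ range (N + 1), (c i : Ob C) * y (i + 1)) ^ p -
              y 0 ^ (p - 1) * ∑ i ∈ range (N + 1), (c i : Ob C) * y (i + 1) := by
          rw [sum_pow_char, Finset.mul_sum, ← Finset.sum_sub_distrib]
          refine Finset.sum_congr rfl fun i _ => ?_
          have : (c i : Ob C) ^ p = c i := by
            rw [← frobenius_def, map_intCast]
          rw [mul_pow, this]
          simp only [hy']
          ring
        rw [e, h3, norm_mul, norm_mul, Ob.isUnit_iff.1 h2, mul_one, norm_pow, hn' j hj]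
        refine mul_le_mul_of_nonneg_right ?_ hpos.le
        have := ho (fun i => Nat.casesOn i 0 c) (j + 1) (by omega) hc
        rw [Finset.sum_range_succ'] at this
        simpa using this)
      hYY
    have hdv : ∀ i ≤ N, teichmuller p (y (N + 1)) ∣ κ' i * Y (i + 1) := by
      intro i hi
      have h1 := hκd i hi
      obtain ⟨U, hU, hYU⟩ := hYY i hi
      obtain ⟨t, -, h2, h3⟩ := hP1 i hi
      obtain ⟨tN, -, -, h3N⟩ := hP1 N le_rfl
      obtain ⟨U₁, -, hYU₁⟩ := hY (i + 1) (by omega)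
      have hu := ELIM.unit_of_coeff p (U := U) (by rw [hU]; exact isUnit_one)
      rw [hYU, ← mul_assoc, hu.dvd_mul_right] at h1
      simp only [hy'] at h1
      rw [h3, h3N, map_mul, map_mul, map_mul, map_mul, ← mul_assoc,
        (h2.map (teichmuller p)).dvd_mul_right] at h1
      have h4 := (dvd_mul_right _ _).trans h1
      rw [← mul_assoc, mul_dvd_mul_iff_right (hT0 _ (pow_ne_zero _ h00))] at h4
      rw [hYU₁, ← mul_assoc]
      exact h4.mul_right _
    have hS : teichmuller p (y (N + 1)) ∣ ∑ i ∈ range (N + 1), κ' i * Y (i + 1) :=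
      Finset.dvd_sum fun i hi => hdv i (by have := mem_range.1 hi; omega)
    obtain ⟨s, hs'⟩ : Y 0 ∣ ∑ i ∈ range (N + 1), κ' i * Y (i + 1) := by
      rw [hY₀, (ELIM.unit_of_coeff p (U := U₀) (by rw [hU₀]; exact isUnit_one)).mul_right_dvd]
      exact (map_dvd _ (Ob.dvd_iff.2 (hanti _ le_rfl 0 (by omega)))).trans hS
    obtain ⟨κ, hκ0, hκs⟩ : ∃ κ : ℕ → WittVector p (Ob C), κ 0 = -s ∧ ∀ i, κ (i + 1) = κ' i :=
      ⟨fun i => Nat.casesOn i (-s) κ', rfl, fun _ => rfl⟩
    set R : ℕ → WittVector p (Ob C) := fun j => ∑ i ∈ range (N + 1 + 1), κ i * frobenius^[j] (Y i)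
      with hR
    have hR00 : R 0 = 0 := by
      simp only [hR, Function.iterate_zero, id_eq]
      rw [Finset.sum_range_succ']
      simp only [hκ0, hκs]
      rw [hs']; ring
    have hRs : ∀ j, R (j + 1) = (∑ i ∈ range (N + 1), κ' i * frobenius^[j] (Y' i)) +
        frobenius^[j] d * R j := by
      intro j
      simp only [hR, hY']
      rw [Finset.sum_range_succ', Finset.sum_range_succ' _ (N + 1), mul_add, Finset.mul_sum,
        ← add_assoc, ← Finset.sum_add_distrib]
      simp only [hκs, Function.iterate_succ_apply, hd0, iterate_map_mul, iterate_map_sub]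
      refine congrArg₂ (· + ·) ?_ ?_
      · exact Finset.sum_congr rfl fun i _ => by ring
      · ring
    have hRz : ∀ j < N + 1, R j = 0 := by
      intro j hj
      induction j with
      | zero => exact hR00
      | succ j ihj => rw [hRs, hR0 j (by omega), ihj (by omega), mul_zero, add_zero]
    have hRN' : R (N + 1) = teichmuller p ω * U' := by
      rw [hRs, hRN, hRz N (by omega), mul_zero, add_zero]
    have hθd : ∀ j, teichmuller p θ ∣ frobenius^[j] d := by
      intro j
      rw [hd, iterate_map_mul, ELIM.frob_teich]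
      refine Dvd.dvd.mul_right (map_dvd _ ?_) _
      rw [← pow_mul]
      exact (Ob.dvd_iff.2 (hθ 0 (by omega))).trans (dvd_pow_self _
        (mul_pos (by omega) (pow_pos (by omega) _)).ne')
    have hstep : ∀ j, N + 1 ≤ j → teichmuller p ω ∣ R j → teichmuller p (ω * θ) ∣ R (j + 1) := by
      intro j hj h
      rw [hRs]
      refine dvd_add (hRj j (by omega)) ?_
      rw [map_mul, mul_comm]
      exact mul_dvd_mul (hθd j) h
    refine ⟨κ, ω, U', (hκs N).trans hκN, fun j hj => ?_, hU', le_trans ?_ hω, hRz, hRN', fun j hj => ?_⟩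
    · cases j with
      | zero =>
        rw [hκ0, neg_mul, dvd_neg, mul_comm, ← hs']; exact hS
      | succ j => rw [hκs]; exact hdv j (by omega)
    · rw [Finset.prod_range_succ']
      have e : ∏ s ∈ range (N + 1), ‖y' s‖ ^ p ^ (N - s) =
          (∏ s ∈ range (N + 1), ‖y (s + 1)‖ ^ p ^ (N + 1 - (s + 1))) *
            ‖y 0‖ ^ (∑ s ∈ range (N + 1), (p - 1) * p ^ (N - s)) := by
        rw [← Finset.prod_pow_eq_pow_sum, ← Finset.prod_mul_distrib]
        refine Finset.prod_congr rfl fun s hs => ?_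
        rw [hn' s (by have := mem_range.1 hs; omega), mul_pow, ← pow_mul, Nat.add_sub_add_right]
      rw [e]
      refine mul_le_mul_of_nonneg_left ?_ (Finset.prod_nonneg fun _ _ => by positivity)
      exact pow_le_pow_of_le_one (norm_nonneg _) (Ob.norm_le_one _) (ELIM.geom p N)
    · change teichmuller p (ω * θ) ∣ R j
      induction j with
      | zero => omega
      | succ j ihj =>
        refine hstep j (by omega) ?_
        rcases Nat.eq_or_lt_of_le (show N + 1 ≤ j by omega) with h | h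
        · rw [← h, hRN']; exact dvd_mul_right _ _
        · refine Dvd.dvd.trans ?_ (ihj h)
          rw [map_mul]; exact dvd_mul_right _ _

end
end Crest.Agent.R227
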