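import Crest.Agent.R227.Elim

/-!
# 227-ELL: the digit-reading polynomials.
-/
set_option autoImplicit false
open WittVector Finset

namespace Crest.Agent.R227
noncomputable section
variable {C : Type} [NormedField C] [IsUltrametricDist C] (p : ℕ) [Fact p.Prime] [CharP C p] (n : ℕ)

/-- the family `y_j = x_{j % r}^(p^(t + n (j / r)))`. -/
def yfam {r : ℕ} (hr : 0 < r) (x : Fin r → Ob C) (t j : ℕ) : Ob C :=
  x ⟨j % r, Nat.mod_lt _ hr⟩ ^ p ^ (t + n * (j / r))


namespace Ell

omit [CharP C p] [Fact p.Prime] in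
theorem norm_yfam {r : ℕ} (hr : 0 < r) (x : Fin r → Ob C) (t j : ℕ) :
    ‖yfam p n hr x t j‖ = ‖x ⟨j % r, Nat.mod_lt _ hr⟩‖ ^ p ^ (t + n * (j / r)) := by
  rw [yfam, norm_pow]

omit [CharP C p] in
theorem yfam_lt {r : ℕ} (hr : 0 < r) {x : Fin r → Ob C} (hx : OrthFam p (p ^ n) x) (t : ℕ)
    {i j : ℕ} (h : j / r < i / r) : ‖yfam p n hr x t i‖ < ‖yfam p n hr x t j‖ := by
  have hp := (Fact.out : p.Prime).pos
  obtain ⟨-, h1, -, h2, -⟩ := hx
  rw [norm_yfam, norm_yfam]
  calc ‖x ⟨i % r, Nat.mod_lt _ hr⟩‖ ^ p ^ (t + n * (i / r))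
      ≤ ‖x ⟨i % r, Nat.mod_lt _ hr⟩‖ ^ (p ^ n * p ^ (t + n * (j / r))) := by
        refine pow_le_pow_of_le_one (norm_nonneg _) (h1 _).le ?_
        rw [← pow_add]
        refine Nat.pow_le_pow_right hp ?_
        have := Nat.mul_le_mul_left n (show j / r + 1 ≤ i / r from h)
        nlinarith
    _ < _ := by
        rw [pow_mul]
        exact pow_lt_pow_left₀ (h2 _ _) (by positivity) (pow_pos hp _).ne'

omit [CharP C p] in
theorem yfam_le {r : ℕ} (hr : 0 < r) {x : Fin r → Ob C} (hx : OrthFam p (p ^ n) x) (t : ℕ)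
    {i j : ℕ} (h : j ≤ i) : ‖yfam p n hr x t i‖ ≤ ‖yfam p n hr x t j‖ := by
  rcases (Nat.div_le_div_right (c := r) h).lt_or_eq with h' | h'
  · exact (yfam_lt p n hr hx t h').le
  · rw [norm_yfam, norm_yfam, h']
    refine pow_le_pow_left₀ (norm_nonneg _) (hx.2.2.1 ?_) _
    show j % r ≤ i % r
    have h1 := Nat.div_add_mod i r
    have h2 := Nat.div_add_mod j r
    rw [h'] at h2
    omega

theorem yfam_orth {r : ℕ} (hr : 0 < r) {x : Fin r → Ob C} (hx : OrthFam p (p ^ n) x) (t N : ℕ)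
    (c : ℕ → ℤ) (j : ℕ) (hj : j ≤ N) (hc : ¬ (p : ℤ) ∣ c j) :
    ‖yfam p n hr x t j‖ ≤ ‖∑ i ∈ range (N + 1), (c i : Ob C) * yfam p n hr x t i‖ := by
  classical
  have hex : ∃ i, ¬ (p : ℤ) ∣ c i := ⟨j, hc⟩
  set i₀ := Nat.find hex with hi₀
  have hi₀j : i₀ ≤ j := Nat.find_min' hex hc
  have hci₀ : ¬ (p : ℤ) ∣ c i₀ := Nat.find_spec hex
  have hpos : 0 < ‖yfam p n hr x t i₀‖ := by
    rw [norm_yfam]
    exact pow_pos (norm_pos_iff.2 (hx.1 _)) _
  refine (yfam_le p n hr hx t hi₀j).trans ?_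
  rw [← sum_filter_add_sum_filter_not (range (N + 1)) fun i => i / r = i₀ / r]
  set S₁ := ∑ i ∈ range (N + 1) with i / r = i₀ / r, (c i : Ob C) * yfam p n hr x t i with hS₁
  set S₂ := ∑ i ∈ range (N + 1) with ¬ i / r = i₀ / r, (c i : Ob C) * yfam p n hr x t i with hS₂
  have h2 : ‖S₂‖ < ‖yfam p n hr x t i₀‖ := by
    have : S₂ ∈ {z : Ob C | ‖z‖ < ‖yfam p n hr x t i₀‖} := by
      refine sum_induction _ (fun z => ‖z‖ < ‖yfam p n hr x t i₀‖)
        (fun a b ha hb => (IsUltrametricDist.norm_add_le_max a b).trans_lt (max_lt ha hb))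
        (by simpa using hpos) fun i hi => ?_
      rcases lt_or_gt_of_ne (mem_filter.1 hi).2 with h | h
      · have hlt : i < i₀ := by
          by_contra hc'
          exact absurd (Nat.div_le_div_right (c := r) (not_lt.1 hc')) (not_le.2 h)
        have hd : (p : ℤ) ∣ c i := not_not.1 (Nat.find_min hex hlt)
        rw [(CharP.intCast_eq_zero_iff (Ob C) p (c i)).2 hd, zero_mul, norm_zero]
        exact hpos
      · rw [norm_mul]
        exact (mul_le_of_le_one_left (norm_nonneg _) (Ob.norm_le_one _)).trans_lt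
          (yfam_lt p n hr hx t h)
    exact this
  have h1 : ‖yfam p n hr x t i₀‖ ≤ ‖S₁‖ := by
    let c' : Fin r → ℤ := fun s => if r * (i₀ / r) + s ≤ N then c (r * (i₀ / r) + s) else 0
    have e : S₁ = (∑ s, (c' s : Ob C) * x s) ^ p ^ (t + n * (i₀ / r)) := by
      rw [← iterateFrobenius_def, map_sum, hS₁, sum_filter]
      symm
      refine sum_bij_ne_zero (fun s _ _ => r * (i₀ / r) + s) ?_ ?_ ?_ ?_
      · intro s _ hs
        rw [mem_range, Nat.lt_succ_iff]
        by_contra hc'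
        apply hs
        simp [c', hc']
      · intro a _ _ b _ _ hab
        exact Fin.ext (by omega)
      · intro i hi hi'
        have hb : i / r = i₀ / r := by
          by_contra hc'
          exact hi' (if_neg hc')
        rw [if_pos hb] at hi'
        have e1 : r * (i₀ / r) + i % r = i := by rw [← hb]; exact Nat.div_add_mod i r
        refine ⟨⟨i % r, Nat.mod_lt _ hr⟩, mem_univ _, ?_, e1⟩
        rw [map_mul, map_intCast, iterateFrobenius_def]
        simp only [c', e1]
        rw [if_pos (by rw [mem_range] at hi; omega), ← hb]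
        exact hi'
      · intro s _ hs
        have e1 : (r * (i₀ / r) + s) / r = i₀ / r := by
          rw [Nat.mul_add_div hr, Nat.div_eq_of_lt s.2, add_zero]
        have e2 : (r * (i₀ / r) + s) % r = s := by
          rw [Nat.mul_add_mod, Nat.mod_eq_of_lt s.2]
        have hle : r * (i₀ / r) + s ≤ N := by
          by_contra hc'
          apply hs
          simp [c', hc']
        rw [if_pos e1, map_mul, map_intCast, iterateFrobenius_def, yfam]
        simp only [c', e1, e2, if_pos hle]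
    rw [e, norm_pow, norm_yfam]
    refine pow_le_pow_left₀ (norm_nonneg _) (hx.2.2.2.2 c' _ ?_) _
    simp only [c', Nat.div_add_mod]
    rwa [if_pos (hi₀j.trans hj)]
  by_contra hcon
  have h3 := IsUltrametricDist.norm_add_le_max (S₁ + S₂) (-S₂)
  rw [add_neg_cancel_right, norm_neg] at h3
  exact absurd (h1.trans h3) (not_le.2 (max_lt (not_le.1 hcon) h2))

theorem sum_half {r : ℕ} (hr : 0 < r) (M : ℕ) : ∑ j ∈ range M, (1 / 2 : ℝ) ^ (j / r) ≤ 2 * r := by
  have key : ∀ K : ℕ, ∑ j ∈ range (r * K), (1 / 2 : ℝ) ^ (j / r) = r * (2 - 2 * (1 / 2) ^ K) := by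
    intro K
    induction K with
    | zero => simp
    | succ K ih =>
      rw [mul_add, mul_one, sum_range_add, ih, sum_congr rfl (g := fun _ => (1 / 2 : ℝ) ^ K)]
      · rw [sum_const, card_range, nsmul_eq_mul]
        ring
      · intro j hj
        rw [Nat.mul_add_div hr, Nat.div_eq_of_lt (mem_range.1 hj), add_zero]
  calc ∑ j ∈ range M, (1 / 2 : ℝ) ^ (j / r) ≤ ∑ j ∈ range (r * M), (1 / 2 : ℝ) ^ (j / r) :=
        sum_le_sum_of_subset_of_nonneg (range_subset_range.2 (Nat.le_mul_of_pos_left M hr))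
          fun _ _ _ => by positivity
    _ ≤ 2 * r := by
        rw [key]
        have : (0 : ℝ) ≤ r * (2 * (1 / 2) ^ M) := by positivity
        nlinarith

omit [CharP C p] in
theorem yfam_size {r : ℕ} (hr : 0 < r) (hrn : r < n) {x : Fin r → Ob C}
    (hx : OrthFam p (p ^ n) x) (t N : ℕ) :
    ‖yfam p n hr x t N‖ ^ (p ^ (r + n) * (2 * r)) ≤
      ∏ s ∈ range (N + 1), ‖yfam p n hr x t s‖ ^ (p ^ (N - s)) := by
  have hp := (Fact.out : p.Prime).two_le
  have hp' : (2 : ℝ) ≤ p := by exact_mod_cast hp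
  have hxpos : ∀ a, 0 < ‖x a‖ := fun a => norm_pos_iff.2 (hx.1 a)
  have hpos : ∀ j, 0 < ‖yfam p n hr x t j‖ := fun j => by
    rw [norm_yfam]
    exact pow_pos (hxpos _) _
  rw [← Real.log_le_log_iff (pow_pos (hpos _) _) (prod_pos fun s _ => pow_pos (hpos _) _),
    Real.log_prod fun s _ => (pow_pos (hpos _) _).ne', Real.log_pow]
  have hu0 : ∀ a, Real.log ‖x a‖ ≤ 0 := fun a => Real.log_nonpos (norm_nonneg _) (hx.2.1 a).le
  have hu : ∀ a b, (p : ℝ) ^ n * Real.log ‖x a‖ ≤ Real.log ‖x b‖ := by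
    intro a b
    have := Real.log_le_log (pow_pos (hxpos a) _) (hx.2.2.2.1 a b).le
    rw [Real.log_pow] at this
    exact_mod_cast this
  have hvN : Real.log ‖yfam p n hr x t N‖ ≤ 0 := Real.log_nonpos (norm_nonneg _) (Ob.norm_le_one _)
  have hterm : ∀ s ∈ range (N + 1), (p : ℝ) ^ (r + n) * (1 / 2) ^ ((N - s) / r) *
      Real.log ‖yfam p n hr x t N‖ ≤ Real.log (‖yfam p n hr x t s‖ ^ (p ^ (N - s))) := by
    intro s hs
    have hsN : s ≤ N := Nat.lt_succ_iff.1 (mem_range.1 hs)
    rw [Real.log_pow, norm_yfam, norm_yfam, Real.log_pow, Real.log_pow]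
    push_cast
    set a : Fin r := ⟨N % r, Nat.mod_lt _ hr⟩
    set b : Fin r := ⟨s % r, Nat.mod_lt _ hr⟩
    set δ := (N - s) / r with hδ
    have h1 : s / r + δ ≤ N / r := by
      have := Nat.div_add_div_le_add_div (x := s) (y := N - s) (z := r)
      rwa [Nat.add_sub_cancel' hsN] at this
    have h2 : N - s < r * (δ + 1) := by
      rw [hδ, mul_add, mul_one]
      have := Nat.div_add_mod (N - s) r
      have := Nat.mod_lt (N - s) hr
      omega
    have h3 : N - s + (t + n * (s / r)) + δ ≤ r + (t + n * (N / r)) := by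
      have h4 := Nat.mul_le_mul_left n h1
      have h5 := Nat.mul_le_mul_right δ (show r + 1 ≤ n from hrn)
      nlinarith
    have h6 : (p : ℝ) ^ (N - s) * (p : ℝ) ^ (t + n * (s / r)) ≤
        (p : ℝ) ^ r * (1 / 2) ^ δ * (p : ℝ) ^ (t + n * (N / r)) := by
      have h7 : (p : ℝ) ^ (N - s) * (p : ℝ) ^ (t + n * (s / r)) * 2 ^ δ ≤
          (p : ℝ) ^ r * (p : ℝ) ^ (t + n * (N / r)) := by
        calc (p : ℝ) ^ (N - s) * (p : ℝ) ^ (t + n * (s / r)) * 2 ^ δ
            ≤ (p : ℝ) ^ (N - s) * (p : ℝ) ^ (t + n * (s / r)) * p ^ δ := by gcongr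
          _ ≤ _ := by
            rw [← pow_add, ← pow_add, ← pow_add]
            exact pow_le_pow_right₀ (by linarith) h3
      rw [one_div, inv_pow, mul_right_comm, ← div_eq_mul_inv, le_div_iff₀ (by positivity)]
      exact h7
    have h8 := mul_le_mul_of_nonpos_right h6 (mul_nonpos_of_nonneg_of_nonpos
      (show (0 : ℝ) ≤ (p : ℝ) ^ n by positivity) (hu0 a))
    have h9 := mul_le_mul_of_nonneg_left (hu a b)
      (show (0 : ℝ) ≤ (p : ℝ) ^ (N - s) * (p : ℝ) ^ (t + n * (s / r)) by positivity)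
    calc _ = (p : ℝ) ^ r * (1 / 2) ^ δ * (p : ℝ) ^ (t + n * (N / r)) *
          ((p : ℝ) ^ n * Real.log ‖x a‖) := by rw [pow_add (p : ℝ) r n]; ring
      _ ≤ _ := h8
      _ ≤ _ := h9
      _ = _ := by ring
  refine le_trans ?_ (sum_le_sum hterm)
  rw [← sum_mul, ← mul_sum]
  refine mul_le_mul_of_nonpos_right ?_ hvN
  push_cast
  refine mul_le_mul_of_nonneg_left ?_ (by positivity)
  have := sum_range_reflect (fun j => (1 / 2 : ℝ) ^ (j / r)) (N + 1)
  simp only [Nat.add_sub_cancel] at this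
  rw [this]
  exact sum_half hr _

end Ell

/-- (ELL-a) the family `yfam` satisfies the hypotheses of `elim`, and the size bound.
PLAN: sorted inside a block by `Antitone`, across blocks by `‖x_i‖^q < ‖x_j‖`.  Orthogonality: let `i₀` be the first block containing an index with
`p ∤ c`; terms with `p ∣ c` vanish; the block sum is `(∑ c x)^(p^e')` (`c^p = c`, `add_pow_char_pow`), of norm `≥` each of its terms; every later
term is strictly smaller than every `y` of block `i₀`.  Size: with `v_s = -log ‖y_s‖`, `Δ = N/r - s/r ≥ (N-s)/r`: `q^Δ v_s ≤ q v_N`, and `N - s < r (Δ+1)`,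
so `p^(N-s) v_s ≤ p^(r+n) v_N / p^((N-s)/r)` (`r < n`); `∑_j 2^(-(j/r)) ≤ 2 r`. -/
theorem yfam_spec {r : ℕ} (hr : 0 < r) (hrn : r < n) : ∃ A : ℕ, ∀ x : Fin r → Ob C, OrthFam p (p ^ n) x → ∀ t N : ℕ,
    (∀ j, ‖yfam p n hr x t (j + 1)‖ ≤ ‖yfam p n hr x t j‖) ∧
    (∀ c : ℕ → ℤ, ∀ j ≤ N, ¬ (p : ℤ) ∣ c j →
      ‖yfam p n hr x t j‖ ≤ ‖∑ i ∈ range (N + 1), (c i : Ob C) * yfam p n hr x t i‖) ∧
    ‖yfam p n hr x t N‖ ^ A ≤ ∏ s ∈ range (N + 1), ‖yfam p n hr x t s‖ ^ (p ^ (N - s)) := by
  exact ⟨p ^ (r + n) * (2 * r), fun x hx t N => ⟨fun j => Ell.yfam_le p n hr hx t (Nat.le_succ j),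
    Ell.yfam_orth p n hr hx t N, Ell.yfam_size p n hr hrn hx t N⟩⟩


namespace Ell

section Gen
variable {R S T : Type*} [CommRing R] [CommRing S] [CommRing T]

theorem wmap_map (f : R →+* S) (g : S →+* T) (w : WittVector p R) :
    WittVector.map g (WittVector.map f w) = WittVector.map (g.comp f) w := by
  ext i
  rfl

theorem map_iterV (f : R →+* S) (k : ℕ) (w : WittVector p R) :
    WittVector.map f (verschiebung^[k] w) = verschiebung^[k] (WittVector.map f w) := by
  induction k with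
  | zero => rfl
  | succ k ih => rw [Function.iterate_succ_apply', Function.iterate_succ_apply', map_verschiebung, ih]

omit [Fact p.Prime] in
theorem map_Lam (f : R →+* S) (L : ℕ) (Y : R) : f (Lam p n L Y) = Lam p n L (f Y) := by
  simp only [Lam, map_sum, map_mul, map_pow, map_natCast]

theorem iterF_eq [CharP R p] (k : ℕ) (w : WittVector p R) :
    WittVector.frobenius^[k] w = WittVector.map (iterateFrobenius R p k) w := by
  induction k with
  | zero => ext i; simp
  | succ k ih =>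
    rw [Function.iterate_succ_apply', ih, frobenius_eq_map_frobenius]
    ext i
    simp only [map_coeff, iterateFrobenius_def, frobenius_def]
    rw [← pow_mul, pow_succ]

theorem iterF_teich [CharP R p] (k : ℕ) (a : R) :
    WittVector.frobenius^[k] (teichmuller p a) = teichmuller p (a ^ p ^ k) := by
  rw [iterF_eq, map_teichmuller, iterateFrobenius_def]

theorem iterV_teich_mul [CharP R p] (k : ℕ) (b : R) (w : WittVector p R) :
    verschiebung^[k] (teichmuller p (b ^ p ^ k) * w) = teichmuller p b * verschiebung^[k] w := by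
  rw [mul_comm (teichmuller p b), iterate_verschiebung_mul_left, iterF_teich, mul_comm]

variable [CharP R p] [PerfectRing R p]

variable (R) in
/-- the `p^l`-th root. -/
def rt (l : ℕ) : R →+* R := ((iterateFrobeniusEquiv R p l).symm : R ≃+* R).toRingHom

theorem rt_pow (l : ℕ) (a : R) : rt p R l a ^ p ^ l = a :=
  (iterateFrobeniusEquiv R p l).apply_symm_apply a

theorem rt_pow' (l : ℕ) (a : R) : rt p R l (a ^ p ^ l) = a :=
  (iterateFrobeniusEquiv R p l).symm_apply_apply a

theorem rt_add (k l : ℕ) (a : R) : rt p R (k + l) a = rt p R k (rt p R l a) :=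
  iterateFrobeniusEquiv_symm_add_apply R p k l a

theorem iterV_eq (k : ℕ) (w : WittVector p R) :
    verschiebung^[k] w = (p : WittVector p R) ^ k * WittVector.map (rt p R k) w := by
  rw [mul_comm, ← iterate_verschiebung_iterate_frobenius, iterF_eq]
  congr 1
  ext i
  simp only [map_coeff, iterateFrobenius_def, rt_pow]

/-- `τ w = (φ^(-L) w)_L`. -/
def tau (L : ℕ) (w : WittVector p R) : R := (WittVector.map (rt p R L) w).coeff L

theorem tau_add (L : ℕ) (w w' : WittVector p R) :
    tau p L (w + (p : WittVector p R) ^ L * w') = tau p L w + w'.coeff 0 := by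
  rw [tau, map_add, map_mul, map_pow, map_natCast, ← iterV_eq, add_V_coeff, tau]

theorem tau_add' (L : ℕ) (w w' : WittVector p R) :
    tau p L (w + (p : WittVector p R) ^ (L + 1) * w') = tau p L w := by
  rw [pow_succ, mul_assoc, tau_add, mul_comm (p : WittVector p R), mul_charP_coeff_zero, add_zero]

theorem tau_teich (L : ℕ) (a : R) (w : WittVector p R) :
    tau p L (teichmuller p a * w) = a * tau p L w := by
  rw [tau, map_mul, map_teichmuller, teich_mul_coeff, rt_pow, tau]

end Gen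

theorem tau_small [IsAlgClosed C] (L : ℕ) (θ : Ob C) (hθ : ‖θ‖ < 1) (w B : WittVector p (Ob C)) :
    ‖tau p L (w + teichmuller p θ * B) - tau p L w‖ < 1 := by
  rw [← Ob.mem_mO, ← Ideal.Quotient.eq]
  have h0 : Ideal.Quotient.mk (Ob.mO C) (rt p (Ob C) L θ) = 0 := by
    rw [Ideal.Quotient.eq_zero_iff_mem, Ob.mem_mO]
    have h1 := rt_pow p L θ
    rw [← h1, norm_pow] at hθ
    exact (pow_lt_one_iff_of_nonneg (norm_nonneg _)
      (pow_pos (Fact.out : p.Prime).pos _).ne').1 hθ
  unfold tau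
  rw [← map_coeff, ← map_coeff, map_add, map_add, map_mul, map_mul, map_teichmuller,
    map_teichmuller, h0, teichmuller_zero, zero_mul, add_zero]

/-- the scaling `T_s ↦ x_s T_s`. -/
def scl {r : ℕ} (x : Fin r → Ob C) : MvPolynomial (Fin r) (Ob C) →+* MvPolynomial (Fin r) (Ob C) :=
  MvPolynomial.eval₂Hom MvPolynomial.C fun s => MvPolynomial.C (x s) * MvPolynomial.X s

theorem scl_C {r : ℕ} (x : Fin r → Ob C) (a : Ob C) : scl x (MvPolynomial.C a) = MvPolynomial.C a :=
  MvPolynomial.eval₂Hom_C _ _ _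

theorem scl_X {r : ℕ} (x : Fin r → Ob C) (s : Fin r) :
    scl x (MvPolynomial.X s) = MvPolynomial.C (x s) * MvPolynomial.X s :=
  MvPolynomial.eval₂Hom_X' _ _ _

theorem coeff_scl {r : ℕ} (x : Fin r → Ob C) (P : MvPolynomial (Fin r) (Ob C)) (β : Fin r →₀ ℕ) :
    (scl x P).coeff β = P.coeff β * ∏ s, x s ^ β s := by
  classical
  induction P using MvPolynomial.induction_on' with
  | monomial γ a =>
    have : scl x (MvPolynomial.monomial γ a) = MvPolynomial.monomial γ (a * ∏ s, x s ^ γ s) := by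
      rw [scl, MvPolynomial.eval₂Hom_monomial, MvPolynomial.monomial_eq, Finsupp.prod_fintype _ _ (by simp),
        Finsupp.prod_fintype _ _ (by simp)]
      simp only [mul_pow, prod_mul_distrib, map_mul, map_prod, map_pow]
      ring
    rw [this, MvPolynomial.coeff_monomial, MvPolynomial.coeff_monomial]
    split_ifs with h
    · rw [h]
    · rw [zero_mul]
  | add P Q hP hQ => rw [map_add, MvPolynomial.coeff_add, MvPolynomial.coeff_add, hP, hQ, add_mul]

theorem gauss_of_dvd {r : ℕ} (x : Fin r → Ob C) (P : MvPolynomial (Fin r) (Ob C)) (c : Ob C)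
    (h : MvPolynomial.C c ∣ scl x P) (β : Fin r →₀ ℕ) : ‖P.coeff β‖ * xp x β ≤ ‖c‖ := by
  have h1 := (MvPolynomial.C_dvd_iff_dvd_coeff _ _).1 h β
  rw [coeff_scl, Ob.dvd_iff, norm_mul, norm_prod] at h1
  simpa only [xp, norm_pow] using h1

theorem xp_single {r : ℕ} (x : Fin r → Ob C) (s : Fin r) (m : ℕ) :
    xp x (Finsupp.single s m) = ‖x s‖ ^ m := by
  classical
  rw [xp, prod_eq_single s, Finsupp.single_eq_same]
  · intro b _ hb
    rw [Finsupp.single_eq_of_ne hb, pow_zero]
  · simp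

theorem wt_single {r : ℕ} (s : Fin r) (m : ℕ) : wt (Finsupp.single s m) = m * (r + s) := by
  classical
  rw [wt, sum_eq_single s, Finsupp.single_eq_same]
  · intro b _ hb
    rw [Finsupp.single_eq_of_ne hb, zero_mul]
  · simp

theorem pow_q_pow (hn : n ≠ 0) (c : GaloisField p n) (t k : ℕ) : c ^ p ^ (t + n * k) = c ^ p ^ t := by
  have := Fintype.ofFinite (GaloisField p n)
  have h := FiniteField.pow_card_pow k (c ^ p ^ t)
  rwa [← Nat.card_eq_fintype_card, GaloisField.card p n hn, ← pow_mul, ← pow_mul, ← pow_add] at h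

/-- the inner sums of `Z`. -/
def zin [IsAlgClosed C] {r : ℕ} (hr : 0 < r) (κ : ℕ → WittVector p (Ob C)) (t N l : ℕ) :
    WittVector p (MvPolynomial (Fin r) (Ob C)) :=
  ∑ i ∈ range (N + 1), WittVector.map MvPolynomial.C (WittVector.map (rt p (Ob C) l) (κ i)) *
    teichmuller p (MvPolynomial.X ⟨i % r, Nat.mod_lt _ hr⟩ ^ p ^ (t + n * (i / r) + (n - 1) * l))

theorem eval_zin [IsAlgClosed C] {r : ℕ} (hr : 0 < r) (hn : n ≠ 0) (κ : ℕ → WittVector p (Ob C))
    (t N L l : ℕ) (hl : l ≤ L) (v : Fin r → Ob C) :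
    WittVector.map (MvPolynomial.eval v) (verschiebung^[L - l] (zin p n hr κ t N l)) =
      WittVector.map (rt p (Ob C) L) (∑ i ∈ range (N + 1), κ i * ((p : WittVector p (Ob C)) ^ (L - l) *
        teichmuller p (v ⟨i % r, Nat.mod_lt _ hr⟩ ^ p ^ (t + n * (i / r))) ^ (p ^ n) ^ l)) := by
  obtain ⟨k, rfl⟩ := Nat.exists_eq_add_of_le' hl
  rw [map_iterV, iterV_eq, Nat.add_sub_cancel, zin, map_sum, map_sum, map_sum, mul_sum]
  refine sum_congr rfl fun i _ => ?_
  rw [map_mul, map_mul, map_mul, map_mul, map_pow (WittVector.map _) (p : WittVector p (Ob C)),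
    map_natCast, ← map_pow (teichmuller p), map_teichmuller, map_teichmuller, map_teichmuller,
    mul_left_comm]
  refine congrArg₂ _ ?_ (congrArg _ (congrArg _ ?_))
  · ext j : 1
    simp only [map_coeff, MvPolynomial.eval_C, rt_add]
  · rw [map_pow (MvPolynomial.eval v), MvPolynomial.eval_X, rt_add, ← pow_mul, ← pow_mul, ← pow_add,
      show t + n * (i / r) + n * l = t + n * (i / r) + (n - 1) * l + l by
        obtain ⟨m, rfl⟩ := Nat.exists_eq_succ_of_ne_zero hn
        simp only [Nat.succ_eq_add_one, Nat.add_sub_cancel]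
        ring,
      pow_add p _ l, pow_mul, rt_pow']

theorem scl_zin [IsAlgClosed C] {r : ℕ} (hr : 0 < r) (hn : n ≠ 0) (x : Fin r → Ob C)
    (κ : ℕ → WittVector p (Ob C)) (t N L l : ℕ) (hl0 : l ≠ 0) (hl : l ≤ L) (yN θ : Ob C)
    (h1 : ∀ i ≤ N, teichmuller p yN ∣ κ i * teichmuller p (yfam p n hr x t i))
    (h2 : ∀ i ≤ N, θ ∣ yfam p n hr x t i) :
    teichmuller p (MvPolynomial.C (rt p (Ob C) L (yN * θ))) ∣
      WittVector.map (scl x) (verschiebung^[L - l] (zin p n hr κ t N l)) := by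
  obtain ⟨k, rfl⟩ := Nat.exists_eq_add_of_le' hl
  have key : teichmuller p (MvPolynomial.C (rt p (Ob C) (k + l) (yN * θ)) ^ p ^ k) ∣
      WittVector.map (scl x) (zin p n hr κ t N l) := by
    rw [← map_pow MvPolynomial.C, rt_add, rt_pow, zin, map_sum]
    refine dvd_sum fun i hi => ?_
    have hi' : i ≤ N := Nat.lt_succ_iff.1 (mem_range.1 hi)
    have e1 : WittVector.map (scl x)
        (WittVector.map MvPolynomial.C (WittVector.map (rt p (Ob C) l) (κ i))) =
        WittVector.map MvPolynomial.C (WittVector.map (rt p (Ob C) l) (κ i)) := by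
      ext j : 1
      simp only [map_coeff, scl_C]
    rw [map_mul (WittVector.map (scl x)), e1, map_teichmuller, map_pow (scl x), scl_X, mul_pow, map_mul (teichmuller p),
      ← mul_assoc, ← map_pow MvPolynomial.C, ← map_teichmuller p MvPolynomial.C,
      ← map_teichmuller p MvPolynomial.C, ← map_mul]
    refine Dvd.dvd.mul_right (map_dvd _ ?_) _
    obtain ⟨m, hm⟩ : ∃ m, p ^ (n * l) = m + 2 := by
      have : 1 < p ^ (n * l) := Nat.one_lt_pow (mul_ne_zero hn hl0) (Fact.out : p.Prime).one_lt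
      exact ⟨p ^ (n * l) - 2, by omega⟩
    have e2 : x ⟨i % r, Nat.mod_lt _ hr⟩ ^ p ^ (t + n * (i / r) + (n - 1) * l) =
        rt p (Ob C) l (yfam p n hr x t i * yfam p n hr x t i * yfam p n hr x t i ^ m) := by
      rw [← sq, ← pow_add, add_comm 2 m, ← hm, yfam, ← pow_mul, ← pow_add,
        show t + n * (i / r) + n * l = t + n * (i / r) + (n - 1) * l + l by
          obtain ⟨m, rfl⟩ := Nat.exists_eq_succ_of_ne_zero hn
          simp only [Nat.succ_eq_add_one, Nat.add_sub_cancel]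
          ring,
        pow_add p _ l, pow_mul, rt_pow']
    rw [e2, ← map_teichmuller p (rt p (Ob C) l), ← map_teichmuller p (rt p (Ob C) l), ← map_mul]
    refine map_dvd _ ?_
    rw [map_mul, map_mul, map_mul, ← mul_assoc, ← mul_assoc]
    exact Dvd.dvd.mul_right (mul_dvd_mul (h1 i hi') (map_dvd _ (h2 i hi'))) _
  obtain ⟨w, hw⟩ := key
  rw [map_iterV, Nat.add_sub_cancel, hw, iterV_teich_mul]
  exact dvd_mul_right _ _

/-- reading off the digits from the relations `R`. -/
theorem sum_digits {A : Type*} [CommRing A] (a : ℕ →₀ GaloisField p n)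
    (f : GaloisField p n → A) (hf : f 0 = 0) (L N : ℕ) (c : A) :
    ∑ j ∈ a.support, f (a j) * ∑ l ∈ range (L + 1), (p : A) ^ (L - l) *
        (if j + n * l = N then c else 0) =
      c * ((∑ l ∈ range L, if n * (l + 1) ≤ N then (p : A) ^ (L - (l + 1)) * f (a (N - n * (l + 1)))
        else 0) + (p : A) ^ L * f (a N)) := by
  have key : ∀ l, ∑ j ∈ a.support, f (a j) * ((p : A) ^ (L - l) * (if j + n * l = N then c else 0)) =
      c * if n * l ≤ N then (p : A) ^ (L - l) * f (a (N - n * l)) else 0 := by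
    intro l
    split_ifs with h
    · rw [sum_eq_single (N - n * l), if_pos (by omega)]
      · ring
      · intro j _ hj
        rw [if_neg (by omega), mul_zero, mul_zero]
      · intro hj
        rw [Finsupp.notMem_support_iff.1 hj, hf, zero_mul]
    · rw [mul_zero]
      exact sum_eq_zero fun j _ => by rw [if_neg (by omega), mul_zero, mul_zero]
  simp only [mul_sum]
  rw [sum_comm]
  simp only [key]
  rw [sum_range_succ', mul_add, mul_sum]
  simp

end Ell

/-- (ELL-b) PLAN.  `t = e % n`, `N = (e / n) r + s`, `y = yfam t` (`y N = x s ^ p^e`), `θ₀ = x 0`, `θ = ‖θ₀‖`; `κ, ω, U` from `elim` with `Y j = [y j]`;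
`R j = ∑ κ_i [y_i^(p^j)]`.  Choose `L` with `‖ϖ‖^L ≤ ‖ω θ₀‖`.  With `s_i = i % r`, `e_i = t + n (i / r)`, `φ⁻¹ = (frobeniusEquiv).symm`, put in `W(O[T])`
`Z = ∑_{l ≤ L} V^(L-l) (∑_{i ≤ N} map C (φ^(-l) κ_i) · [T_{s_i}^(p^(e_i + (n-1) l))])`, `ℓ = Z.coeff L`.
* `LdT`: by `add_V_coeff` the `l = 0` term contributes `∑ (κ_i)₀ T_{s_i}^(p^(e_i))` (`κ_N = 1`; the others have smaller `wt`, and `‖(κ_i)₀ y_i‖ ≤ ‖y_N‖`);
`err = (∑_{l ≥ 1} …).coeff L`.  Apply the scaling hom `T_s ↦ C (x s) T_s`: the `l`-th inner sum becomes divisible by `[c^(1/p^l)]`, `c = y_N θ₀`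
(apply `φ^(-l)` to `[y_N] ∣ κ_i [y_i]`), `V^(L-l)([b^(p^(L-l))] w) = [b] V^(L-l) w` (`verschiebung_mul_frobenius`), `teich_mul_coeff`: the scaled `err` is divisible by `C c`.
* values: `map (eval (lam a)) Z = φ^(-L) (∑_i κ_i φ^(e_i) Λ_L [lam a s_i])` (`iterate_verschiebung_iterate_frobenius`); by `WCong` and `b^q = b` in `k` this is
`φ^(-L)` of `∑_j [ι a_j^(p^t)] ∑_l p^(L-l) R (j + n l)` mod `(p^(L+1), [ω θ₀])` `= [ω] (p^L U [ι a_N^(p^t)] + Ψ a + [θ₀] B) + p^(L+1) A`, where
`Ψ a = U ∑_{1 ≤ l ≤ L, n l ≤ N} p^(L-l) [ι a_{N - n l}^(p^t)]`.  Put `ψ a = (φ^(-L) Ψ a).coeff L`.  For `τ w = (φ^(-L) w).coeff L`: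
`τ(w + p^(L+1) A) = τ w`, `τ([ω] w) = ω τ w`, `τ(w + p^L w') = τ w + w'₀`, `τ(w + [θ₀] B) - τ w ∈ mO` (map to `W(O ⧸ mO)`). -/
theorem ell [IsAlgClosed C] {r : ℕ} (hr : 0 < r) (hrn : r < n) : ∃ A : ℕ,
    ∀ (ι : GaloisField p n →+* Ob C) (x : Fin r → Ob C) (ϖ : Ob C) (lam : (ℕ →₀ GaloisField p n) → Fin r → Ob C),
      OrthFam p (p ^ n) x → ‖ϖ‖ < 1 → WCong p n ι x ϖ lam →
      ∀ (s : Fin r) (e : ℕ), ∃ (ℓ : MvPolynomial (Fin r) (Ob C)) (ω : Ob C) (ψ : (ℕ →₀ GaloisField p n) → Ob C),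
        LdT x ‖x ⟨0, hr⟩‖ (Finsupp.single s (p ^ e)) ℓ ∧ (‖x s‖ ^ p ^ e) ^ A ≤ ‖ω‖ ∧
        (∀ a a' : ℕ →₀ GaloisField p n, (∀ j < e / n * r + s, a j = a' j) → ψ a = ψ a') ∧
        ∀ a, ‖MvPolynomial.eval (lam a) ℓ - ω * (ι (a (e / n * r + s)) ^ p ^ (e % n) + ψ a)‖ < ‖ω‖ := by
  classical
  obtain ⟨A, hA⟩ := yfam_spec (C := C) p n hr hrn
  refine ⟨A, fun ι x ϖ lam hx hϖ hW s e => ?_⟩
  have hn : n ≠ 0 := by omega
  have hp := (Fact.out : p.Prime).two_le
  set t := e % n with ht
  set N := e / n * r + s with hN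
  obtain ⟨hs, ho, hsz⟩ := hA x hx t N
  have hNd : N / r = e / n := by
    rw [hN, mul_comm, Nat.mul_add_div hr, Nat.div_eq_of_lt s.2, add_zero]
  have hNm : (⟨N % r, Nat.mod_lt _ hr⟩ : Fin r) = s := by
    apply Fin.ext
    show N % r = s
    rw [hN, mul_comm, Nat.mul_add_mod, Nat.mod_eq_of_lt s.2]
  have heN : t + n * (N / r) = e := by rw [hNd, ht]; exact Nat.mod_add_div e n
  have hyN : yfam p n hr x t N = x s ^ p ^ e := by rw [yfam, hNm, heN]
  set θ := x ⟨0, hr⟩ with hθ
  have hθ1 : ‖θ‖ < 1 := hx.2.1 _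
  have hθ0 : 0 < ‖θ‖ := norm_pos_iff.2 (hx.1 _)
  have hy0 : ∀ j, yfam p n hr x t j ≠ 0 := fun j => pow_ne_zero _ (hx.1 _)
  have hyθ : ∀ j, ‖yfam p n hr x t j‖ ≤ ‖θ‖ := by
    intro j
    rw [Ell.norm_yfam]
    exact (pow_le_of_le_one (norm_nonneg _) (Ob.norm_le_one _) (pow_pos (by omega) _).ne').trans
      (hx.2.2.1 (Fin.mk_le_mk.2 (Nat.zero_le _)))
  obtain ⟨κ, ω, U, hκN, hκd, hU, hω, hR0, hRN, hRg⟩ := elim p N θ (yfam p n hr x t)
    (fun j => teichmuller p (yfam p n hr x t j)) (fun j _ => hy0 j) (fun j _ => hyθ j)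
    (fun j _ => hs j) ho (fun j _ => ⟨1, by simp, by simp⟩)
  have hω0 : 0 < ‖ω‖ :=
    lt_of_lt_of_le (prod_pos fun j _ => pow_pos (norm_pos_iff.2 (hy0 j)) _) hω
  obtain ⟨L, hL⟩ : ∃ L : ℕ, ‖ϖ‖ ^ L < ‖ω * θ‖ :=
    exists_pow_lt_of_lt_one (by rw [norm_mul]; positivity) hϖ
  let Z' : WittVector p (MvPolynomial (Fin r) (Ob C)) :=
    ∑ l ∈ range L, verschiebung^[L - (l + 1)] (Ell.zin p n hr κ t N (l + 1))
  let Z : WittVector p (MvPolynomial (Fin r) (Ob C)) :=
    ∑ l ∈ range (L + 1), verschiebung^[L - l] (Ell.zin p n hr κ t N l)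
  have hZ : Z = Z' + verschiebung^[L] (Ell.zin p n hr κ t N 0) := sum_range_succ' _ _
  let f : GaloisField p n → WittVector p (Ob C) := fun b => teichmuller p (ι b ^ p ^ t)
  have hf0 : f 0 = 0 := by
    simp only [f]
    rw [map_zero, zero_pow (pow_pos (by omega) _).ne', teichmuller_zero]
  let Ψ : (ℕ →₀ GaloisField p n) → WittVector p (Ob C) := fun a => U * ∑ l ∈ range L,
    if n * (l + 1) ≤ N then (p : WittVector p (Ob C)) ^ (L - (l + 1)) * f (a (N - n * (l + 1))) else 0
  refine ⟨Z.coeff L, ω, fun a => Ell.tau p L (Ψ a), ?_, ?_, ?_, ?_⟩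
  · -- leading term
    refine ⟨∑ i ∈ range N, MvPolynomial.monomial (Finsupp.single ⟨i % r, Nat.mod_lt _ hr⟩
      (p ^ (t + n * (i / r)))) ((κ i).coeff 0), Z'.coeff L, ?_, ?_, ?_, ?_⟩
    · rw [hZ, add_V_coeff, add_comm, ← constantCoeff_apply, Ell.zin, map_sum, sum_range_succ,
        add_comm (∑ _i ∈ range N, _)]
      have e0 : ∀ i, constantCoeff (WittVector.map MvPolynomial.C
          (WittVector.map (Ell.rt p (Ob C) 0) (κ i)) *
          teichmuller p (MvPolynomial.X ⟨i % r, Nat.mod_lt _ hr⟩ ^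
            p ^ (t + n * (i / r) + (n - 1) * 0) : MvPolynomial (Fin r) (Ob C))) =
          MvPolynomial.monomial (Finsupp.single ⟨i % r, Nat.mod_lt _ hr⟩
            (p ^ (t + n * (i / r)))) ((κ i).coeff 0) := by
        intro i
        have h0 := Ell.rt_pow p 0 ((κ i).coeff 0)
        rw [pow_zero, pow_one] at h0
        rw [map_mul, constantCoeff_apply, constantCoeff_apply, map_coeff, map_coeff,
          teichmuller_coeff_zero, h0, mul_zero, add_zero, MvPolynomial.C_mul_X_pow_eq_monomial]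
      simp only [e0]
      rw [hNm, heN, hκN, one_coeff_zero]
    · intro β hβ
      rw [MvPolynomial.coeff_sum] at hβ
      obtain ⟨i, hi, hi'⟩ := exists_ne_zero_of_sum_ne_zero hβ
      rw [MvPolynomial.coeff_monomial] at hi'
      have hβ' : Finsupp.single (⟨i % r, Nat.mod_lt _ hr⟩ : Fin r) (p ^ (t + n * (i / r))) = β := by
        by_contra hc
        exact hi' (if_neg hc)
      have hiN : i < N := mem_range.1 hi
      rw [← hβ', Ell.wt_single, Ell.wt_single, ← heN]
      have hsN : (s : ℕ) = N % r := by rw [← hNm]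
      rw [hsN]
      show p ^ (t + n * (i / r)) * (r + i % r) < _
      rcases (Nat.div_le_div_right (c := r) hiN.le).lt_or_eq with h' | h'
      · have h1 : p ^ (t + n * (i / r)) * p ≤ p ^ (t + n * (N / r)) := by
          rw [← pow_succ]
          refine Nat.pow_le_pow_right (by omega) ?_
          have := Nat.mul_le_mul_left n (show i / r + 1 ≤ N / r from h')
          rw [mul_add, mul_one] at this
          omega
        have h2 : r + i % r < p * r := by
          have := Nat.mod_lt i hr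
          nlinarith
        calc p ^ (t + n * (i / r)) * (r + i % r) < p ^ (t + n * (i / r)) * (p * r) :=
              Nat.mul_lt_mul_of_pos_left h2 (pow_pos (by omega) _)
          _ ≤ _ := by
              rw [← mul_assoc]
              exact Nat.mul_le_mul h1 (Nat.le_add_right _ _)
      · rw [h']
        refine Nat.mul_lt_mul_of_pos_left ?_ (pow_pos (by omega) _)
        have h1 := Nat.div_add_mod i r
        have h2 := Nat.div_add_mod N r
        rw [h'] at h1
        omega
    · intro β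
      rw [Ell.xp_single, ← norm_pow, ← hyN]
      refine Ell.gauss_of_dvd x _ _ ?_ β
      rw [map_sum]
      refine dvd_sum fun i hi => ?_
      have h1 := map_dvd constantCoeff (hκd i (mem_range.1 hi).le)
      rw [map_mul, constantCoeff_apply, constantCoeff_apply, constantCoeff_apply,
        teichmuller_coeff_zero, teichmuller_coeff_zero] at h1
      rw [← MvPolynomial.C_mul_X_pow_eq_monomial, map_mul, map_pow, Ell.scl_C, Ell.scl_X, mul_pow,
        ← mul_assoc, ← map_pow MvPolynomial.C, ← map_mul]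
      exact Dvd.dvd.mul_right (map_dvd _ h1) _
    · intro β
      rw [Ell.xp_single, ← norm_pow, ← hyN, mul_comm ‖θ‖, ← norm_mul]
      refine Ell.gauss_of_dvd x _ _ ?_ β
      have h1 : teichmuller p (MvPolynomial.C (Ell.rt p (Ob C) L (yfam p n hr x t N * θ))) ∣
          WittVector.map (Ell.scl x) Z' := by
        simp only [Z', map_sum]
        exact dvd_sum fun l hl => Ell.scl_zin p n hr hn x κ t N L (l + 1) (by omega)
          (mem_range.1 hl) _ _ hκd fun i _ => Ob.dvd_iff.2 (hyθ i)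
      obtain ⟨w, hw⟩ := h1
      rw [← map_coeff, hw, teich_mul_coeff, ← map_pow MvPolynomial.C, Ell.rt_pow]
      exact dvd_mul_right _ _
  · rw [← norm_pow, ← hyN]
    exact hsz.trans hω
  · intro a a' h
    have : Ψ a = Ψ a' := by
      simp only [Ψ]
      congr 1
      refine sum_congr rfl fun l _ => ?_
      split_ifs with hl
      · rw [h _ (by have : 0 < n * (l + 1) := by positivity
                    omega)]
      · rfl
    simp only [this]
  · intro a
    let E : WittVector p (Ob C) := ∑ i ∈ range (N + 1), κ i *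
      Lam p n L (teichmuller p (lam a ⟨i % r, Nat.mod_lt _ hr⟩ ^ p ^ (t + n * (i / r))))
    have hE : MvPolynomial.eval (lam a) (Z.coeff L) = Ell.tau p L E := by
      rw [← map_coeff, Ell.tau]
      congr 1
      simp only [Z, E, Lam, mul_sum]
      rw [sum_comm, map_sum, map_sum]
      exact sum_congr rfl fun l hl =>
        Ell.eval_zin p n hr hn κ t N L l (Nat.lt_succ_iff.1 (mem_range.1 hl)) _
    let J : Ideal (WittVector p (Ob C)) :=
      Ideal.span {(p : WittVector p (Ob C)) ^ (L + 1), teichmuller p (ω * θ)}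
    have hJ2 : ∀ z, teichmuller p (ω * θ) ∣ z → z ∈ J := by
      rintro _ ⟨z, rfl⟩
      exact Ideal.mul_mem_right _ _ (Ideal.subset_span (by simp))
    have hJ1 : (p : WittVector p (Ob C)) ^ (L + 1) ∈ J := Ideal.subset_span (by simp)
    have hϖd : teichmuller p (ω * θ) ∣ teichmuller p ϖ ^ L := by
      rw [← map_pow]
      exact map_dvd _ (Ob.dvd_iff.2 (by rw [norm_pow]; exact hL.le))
    have hWi : ∀ i, Ideal.Quotient.mk J
        (Lam p n L (teichmuller p (lam a ⟨i % r, Nat.mod_lt _ hr⟩ ^ p ^ (t + n * (i / r))))) =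
        Ideal.Quotient.mk J (∑ j ∈ a.support, f (a j) * ∑ l ∈ range (L + 1),
          (p : WittVector p (Ob C)) ^ (L - l) *
            WittVector.frobenius^[j + n * l] (teichmuller p (yfam p n hr x t i))) := by
      intro i
      rw [Ideal.Quotient.eq]
      obtain ⟨u, v, huv⟩ := Ideal.mem_span_pair.1 (hW a ⟨i % r, Nat.mod_lt _ hr⟩ L)
      have h1 := congrArg (WittVector.map (iterateFrobenius (Ob C) p (t + n * (i / r)))) huv
      rw [map_sub, Ell.map_Lam, map_teichmuller, iterateFrobenius_def, Finsupp.sum, map_sum] at h1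
      have h2 : ∀ j, WittVector.map (iterateFrobenius (Ob C) p (t + n * (i / r)))
          (teichmuller p (ι (a j)) *
            Lam p n L (teichmuller p (x ⟨i % r, Nat.mod_lt _ hr⟩) ^ p ^ j)) =
          f (a j) * ∑ l ∈ range (L + 1), (p : WittVector p (Ob C)) ^ (L - l) *
            WittVector.frobenius^[j + n * l] (teichmuller p (yfam p n hr x t i)) := by
        intro j
        rw [map_mul, Ell.map_Lam, map_teichmuller, iterateFrobenius_def, ← map_pow ι,
          Ell.pow_q_pow p n hn, map_pow ι, ← map_pow (teichmuller p), map_teichmuller,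
          iterateFrobenius_def, Lam]
        refine congrArg _ (sum_congr rfl fun l _ => congrArg _ ?_)
        rw [Ell.iterF_teich, ← map_pow (teichmuller p), yfam]
        simp only [← pow_mul, ← pow_add]
        congr 3
        ring
      simp only [h2] at h1
      rw [← h1, map_add, map_mul, map_mul, map_pow, map_natCast, map_pow, map_teichmuller,
        iterateFrobenius_def, map_pow (teichmuller p), ← pow_mul, mul_comm _ L, pow_mul]
      exact J.add_mem (J.mul_mem_left _ hJ1) (J.mul_mem_left _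
        (hJ2 _ (hϖd.trans (dvd_pow_self _ (pow_pos (by omega) _).ne'))))
    have hR : ∀ m, Ideal.Quotient.mk J (∑ i ∈ range (N + 1), κ i *
        WittVector.frobenius^[m] (teichmuller p (yfam p n hr x t i))) =
        Ideal.Quotient.mk J (if m = N then teichmuller p ω * U else 0) := by
      intro m
      rcases lt_trichotomy m N with h | h | h
      · rw [hR0 m h, if_neg h.ne]
      · rw [h, hRN, if_pos rfl]
      · rw [if_neg h.ne', map_zero, Ideal.Quotient.eq_zero_iff_mem]
        exact hJ2 _ (hRg m h)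
    have hEJ : Ideal.Quotient.mk J E = Ideal.Quotient.mk J (∑ j ∈ a.support, f (a j) *
        ∑ l ∈ range (L + 1), (p : WittVector p (Ob C)) ^ (L - l) *
          (if j + n * l = N then teichmuller p ω * U else 0)) := by
      have e1 : Ideal.Quotient.mk J E = Ideal.Quotient.mk J (∑ i ∈ range (N + 1), κ i *
          ∑ j ∈ a.support, f (a j) * ∑ l ∈ range (L + 1), (p : WittVector p (Ob C)) ^ (L - l) *
            WittVector.frobenius^[j + n * l] (teichmuller p (yfam p n hr x t i))) := by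
        rw [map_sum, map_sum]
        exact sum_congr rfl fun i _ => by rw [map_mul, map_mul, hWi]
      have e2 : ∑ i ∈ range (N + 1), κ i *
          ∑ j ∈ a.support, f (a j) * ∑ l ∈ range (L + 1), (p : WittVector p (Ob C)) ^ (L - l) *
            WittVector.frobenius^[j + n * l] (teichmuller p (yfam p n hr x t i)) =
          ∑ j ∈ a.support, f (a j) * ∑ l ∈ range (L + 1), (p : WittVector p (Ob C)) ^ (L - l) *
            ∑ i ∈ range (N + 1), κ i *
              WittVector.frobenius^[j + n * l] (teichmuller p (yfam p n hr x t i)) := by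
        simp only [mul_sum]
        rw [sum_comm]
        refine sum_congr rfl fun j _ => ?_
        rw [sum_comm]
        exact sum_congr rfl fun l _ => sum_congr rfl fun i _ => by ring
      rw [e1, e2, map_sum, map_sum]
      refine sum_congr rfl fun j _ => ?_
      rw [map_mul, map_mul, map_sum, map_sum]
      exact congrArg _ (sum_congr rfl fun l _ => by rw [map_mul, map_mul, hR])
    rw [Ell.sum_digits p n a f hf0, Ideal.Quotient.eq] at hEJ
    obtain ⟨u, v, huv⟩ := Ideal.mem_span_pair.1 hEJ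
    have hE2 : E = teichmuller p ω * ((Ψ a + teichmuller p θ * v) +
        (p : WittVector p (Ob C)) ^ L * (U * f (a N))) + (p : WittVector p (Ob C)) ^ (L + 1) * u := by
      rw [map_mul] at huv
      simp only [Ψ]
      linear_combination -huv
    have hc : (U * f (a N)).coeff 0 = ι (a N) ^ p ^ t := by
      rw [← constantCoeff_apply, map_mul, constantCoeff_apply, constantCoeff_apply, hU, one_mul,
        teichmuller_coeff_zero]
    rw [hE, hE2, Ell.tau_add', Ell.tau_teich, Ell.tau_add, hc, ← mul_sub,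
      show Ell.tau p L (Ψ a + teichmuller p θ * v) + ι (a N) ^ p ^ t -
        (ι (a N) ^ p ^ t + Ell.tau p L (Ψ a)) =
        Ell.tau p L (Ψ a + teichmuller p θ * v) - Ell.tau p L (Ψ a) by ring, norm_mul]
    exact mul_lt_of_lt_one_right hω0 (Ell.tau_small p L θ hθ1 _ _)

end
end Crest.Agent.R227
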