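import Crest.Agent.R227.FG

/-!
# 227-EV: evaluation of power series over `O` at points of norm `< 1`; the group of points.
(filled by helper8)
Everything except `exists_ev` should follow from `ext_norm` / `mem_pow_span_X_iff` and truncation.
-/
set_option autoImplicit false
open Crest.LubinTate MvPowerSeries

namespace Crest.Agent.R227
noncomputable section
variable {C : Type} [NormedField C] [IsUltrametricDist C] [CompleteSpace C] {σ τ : Type}

namespace EV

instance : IsLinearTopology (Ob C) (Ob C) := by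
  refine IsLinearTopology.mk_of_hasBasis (Ob C) (p := fun ε : ℝ => 0 < ε)
    (s := fun ε => Ob.ball (C := C) (max ε 0) (le_max_right _ _)) ?_
  refine Metric.nhds_basis_closedBall.congr (fun _ => Iff.rfl) (fun ε hε => ?_)
  ext x
  simp [max_eq_left hε.le]

omit [CompleteSpace C] in
theorem hasEval [Finite σ] {a : σ → Ob C} (ha : ∀ i, ‖a i‖ < 1) : HasEval a where
  hpow s := tendsto_pow_atTop_nhds_zero_of_norm_lt_one (ha s)
  tendsto_zero := by simp [Filter.cofinite_eq_bot]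

omit [CompleteSpace C] in
theorem norm_prod_le {a : σ → Ob C} {θ : ℝ} (hθ : ∀ i, ‖a i‖ ≤ θ) (d : σ →₀ ℕ) :
    ‖d.prod fun s e => a s ^ e‖ ≤ θ ^ d.degree := by
  rw [Finsupp.prod, norm_prod, Finsupp.degree_apply, ← Finset.prod_pow_eq_pow_sum]
  refine Finset.prod_le_prod (fun _ _ => norm_nonneg _) (fun i _ => ?_)
  rw [norm_pow]
  exact pow_le_pow_left₀ (norm_nonneg _) (hθ i) _

omit [CompleteSpace C] in
theorem norm_le_of_hasSum {ι : Type*} {u : ι → Ob C} {x : Ob C} (h : HasSum u x) {s : ℝ}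
    (hs : 0 ≤ s) (hu : ∀ i, ‖u i‖ ≤ s) : ‖x‖ ≤ s := by
  rw [← h.tsum_eq]
  exact IsUltrametricDist.norm_tsum_le_of_forall_le_of_nonneg hs hu

end EV

/-- PLAN (one option): `α f = lim_D eval a (truncTotal D f)` (Cauchy: differences lie in `ball (θ^D)`, `θ = max ‖a i‖`,
use `truncTotal_sub_truncTotal_mem_pow_idealOfVars`, `truncTotal_mul_sub_mul_truncTotal_mem_pow_idealOfVars`);
other option: `MvPowerSeries.eval₂Hom` after proving `IsLinearTopology (Ob C) (Ob C)` (basis `Ob.ball`). -/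
theorem exists_ev [Finite σ] (a : σ → Ob C) (ha : ∀ i, ‖a i‖ < 1) :
    ∃ α : MvPowerSeries σ (Ob C) →+* Ob C, (∀ r, α (MvPowerSeries.C r) = r) ∧ ∀ i, α (X i) = a i := by
  have hφ : Continuous (RingHom.id (Ob C)) := continuous_id
  refine ⟨eval₂Hom hφ (EV.hasEval ha), fun r => ?_, fun i => ?_⟩
  · rw [coe_eval₂Hom, eval₂_C]; rfl
  · rw [coe_eval₂Hom, eval₂_X]

open Classical in
/-- evaluation at `a` (junk: evaluation at `0` if some `‖a i‖ = 1`). -/
def ev [Finite σ] (a : σ → Ob C) : MvPowerSeries σ (Ob C) →+* Ob C :=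
  if h : ∀ i, ‖a i‖ < 1 then (exists_ev a h).choose else MvPowerSeries.constantCoeff

/-- one-variable evaluation. -/
def ev1 (t : Ob C) : PowerSeries (Ob C) →+* Ob C := ev (fun _ : Unit => t)

variable [Finite σ] [Finite τ]

theorem ev_C (a : σ → Ob C) (r : Ob C) : ev a (MvPowerSeries.C r) = r := by
  unfold ev
  split_ifs with h
  · exact (exists_ev a h).choose_spec.1 r
  · simp

theorem ev_X {a : σ → Ob C} (ha : ∀ i, ‖a i‖ < 1) (i : σ) : ev a (X i) = a i := by
  unfold ev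
  rw [dif_pos ha]
  exact (exists_ev a ha).choose_spec.2 i

theorem EV.hasSum_ev {a : σ → Ob C} (ha : ∀ i, ‖a i‖ < 1) (f : MvPowerSeries σ (Ob C)) :
    HasSum (fun d : σ →₀ ℕ => coeff d f * d.prod fun s e => a s ^ e) (ev a f) := by
  have hφ : Continuous (RingHom.id (Ob C)) := continuous_id
  have e : ev a = eval₂Hom hφ (EV.hasEval ha) := by
    refine ext_norm _ _ (fun r => ?_) (fun i => ?_) (fun i => ?_)
    · rw [ev_C, coe_eval₂Hom, eval₂_C]; rfl
    · rw [ev_X ha, coe_eval₂Hom, eval₂_X]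
    · rw [ev_X ha]; exact ha i
  rw [e, coe_eval₂Hom]
  exact hasSum_eval₂ hφ (EV.hasEval ha) f

theorem ev1_C (t r : Ob C) : ev1 t (PowerSeries.C r) = r := by
  exact ev_C _ r

theorem ev1_X {t : Ob C} (ht : ‖t‖ < 1) : ev1 t PowerSeries.X = t := by
  exact ev_X (a := fun _ : Unit => t) (fun _ => ht) ()

theorem ev_coe {a : σ → Ob C} (ha : ∀ i, ‖a i‖ < 1) (P : MvPolynomial σ (Ob C)) :
    ev a (P : MvPowerSeries σ (Ob C)) = MvPolynomial.eval a P := by
  induction P using MvPolynomial.induction_on with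
  | C r => rw [MvPolynomial.coe_C, ev_C, MvPolynomial.eval_C]
  | add P Q hP hQ => rw [MvPolynomial.coe_add, map_add, map_add, hP, hQ]
  | mul_X P i hP =>
    rw [MvPolynomial.coe_mul, map_mul, map_mul, hP, MvPolynomial.coe_X, ev_X ha, MvPolynomial.eval_X]

theorem ev1_coe {t : Ob C} (ht : ‖t‖ < 1) (P : Polynomial (Ob C)) :
    ev1 t (P : PowerSeries (Ob C)) = P.eval t := by
  induction P using Polynomial.induction_on' with
  | add P Q hP hQ => rw [Polynomial.coe_add, map_add, Polynomial.eval_add, hP, hQ]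
  | monomial n r =>
    rw [← Polynomial.C_mul_X_pow_eq_monomial, Polynomial.coe_mul, Polynomial.coe_pow,
      Polynomial.coe_C, Polynomial.coe_X, map_mul, map_pow, ev1_C, ev1_X ht]
    simp

theorem ev_zero (f : MvPowerSeries σ (Ob C)) : ev (fun _ => (0 : Ob C)) f = constantCoeff f := by
  have h0 : ∀ i : σ, ‖(fun _ => (0 : Ob C)) i‖ < 1 := fun _ => by simp
  have e : ev (fun _ : σ => (0 : Ob C)) = constantCoeff := by
    refine ext_norm _ _ (fun r => ?_) (fun i => ?_) (fun i => ?_)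
    · rw [ev_C, constantCoeff_C]
    · rw [ev_X h0, constantCoeff_X]
    · rw [ev_X h0]; simp
  rw [e]

/-- order `≥ D` and coefficients `≤ s`. -/
theorem norm_ev_le_of_order {a : σ → Ob C} (ha : ∀ i, ‖a i‖ < 1) {θ s : ℝ} (hθ0 : 0 ≤ θ) (hθ : ∀ i, ‖a i‖ ≤ θ)
    {f : MvPowerSeries σ (Ob C)} {D : ℕ} (hD : ∀ d : σ →₀ ℕ, d.degree < D → coeff d f = 0)
    (hs : ∀ d, ‖coeff d f‖ ≤ s) : ‖ev a f‖ ≤ s * θ ^ D := by
  have hs0 : 0 ≤ s := (norm_nonneg _).trans (hs 0)
  refine EV.norm_le_of_hasSum (EV.hasSum_ev ha f) (by positivity) (fun d => ?_)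
  by_cases hd : d.degree < D
  · rw [hD d hd, zero_mul, norm_zero]; positivity
  · rw [norm_mul]
    refine mul_le_mul (hs d) ?_ (norm_nonneg _) hs0
    have h1 : ∀ i, ‖a i‖ ≤ min θ 1 := fun i => le_min (hθ i) (ha i).le
    have h2 : 0 ≤ min θ 1 := le_min hθ0 zero_le_one
    calc _ ≤ (min θ 1) ^ d.degree := EV.norm_prod_le h1 d
      _ ≤ (min θ 1) ^ D := pow_le_pow_of_le_one h2 (min_le_right _ _) (not_lt.1 hd)
      _ ≤ θ ^ D := pow_le_pow_left₀ h2 (min_le_left _ _) _

theorem norm_ev_le {a : σ → Ob C} (ha : ∀ i, ‖a i‖ < 1) {s : ℝ} {f : MvPowerSeries σ (Ob C)}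
    (hs : ∀ d, ‖coeff d f‖ ≤ s) : ‖ev a f‖ ≤ s := by
  simpa using norm_ev_le_of_order ha zero_le_one (fun i => (ha i).le) (D := 0)
    (fun d hd => absurd hd (Nat.not_lt_zero _)) hs

theorem norm_ev_sub_trunc {a : σ → Ob C} (ha : ∀ i, ‖a i‖ < 1) {θ : ℝ} (hθ0 : 0 ≤ θ) (hθ : ∀ i, ‖a i‖ ≤ θ)
    (f : MvPowerSeries σ (Ob C)) (D : ℕ) :
    ‖ev a f - MvPolynomial.eval a (truncTotal D f)‖ ≤ θ ^ D := by
  rw [← ev_coe ha, ← map_sub]
  have := norm_ev_le_of_order ha hθ0 hθ (f := f - (truncTotal D f : MvPolynomial σ (Ob C)))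
    (D := D) (s := 1) (fun d hd => by
      rw [map_sub, MvPolynomial.coeff_coe, coeff_truncTotal _ hd, sub_self])
    (fun d => Ob.norm_le_one _)
  rwa [one_mul] at this

theorem norm_ev1_le_of_order {t : Ob C} (ht : ‖t‖ < 1) {s : ℝ} {f : PowerSeries (Ob C)} {D : ℕ}
    (hD : ∀ d < D, PowerSeries.coeff d f = 0) (hs : ∀ d, ‖PowerSeries.coeff d f‖ ≤ s) :
    ‖ev1 t f‖ ≤ s * ‖t‖ ^ D := by
  refine norm_ev_le_of_order (a := fun _ : Unit => t) (fun _ => ht) (norm_nonneg _)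
    (fun _ => le_rfl) (fun d hd => ?_) (fun d => ?_)
  · rw [Finsupp.unique_single d] at hd ⊢
    exact hD _ (by simpa using hd)
  · rw [Finsupp.unique_single d]
    exact hs _

theorem norm_ev1_sub_sum {t : Ob C} (ht : ‖t‖ < 1) (f : PowerSeries (Ob C)) (D : ℕ) :
    ‖ev1 t f - ∑ d ∈ Finset.range D, PowerSeries.coeff d f * t ^ d‖ ≤ ‖t‖ ^ D := by
  have e : ∑ d ∈ Finset.range D, PowerSeries.coeff d f * t ^ d =
      ev1 t (∑ d ∈ Finset.range D, PowerSeries.C (PowerSeries.coeff d f) * PowerSeries.X ^ d) := by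
    rw [map_sum]
    refine Finset.sum_congr rfl (fun d _ => ?_)
    rw [map_mul, map_pow, ev1_C, ev1_X ht]
  rw [e, ← map_sub]
  have := norm_ev1_le_of_order ht (f := f - ∑ d ∈ Finset.range D,
      PowerSeries.C (PowerSeries.coeff d f) * PowerSeries.X ^ d) (D := D) (s := 1)
    (fun d hd => by
      simp only [map_sub, map_sum, PowerSeries.coeff_C_mul, PowerSeries.coeff_X_pow]
      rw [Finset.sum_eq_single d (fun e _ he => by simp [Ne.symm he])
        (fun h => absurd (Finset.mem_range.2 hd) h)]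
      simp)
    (fun d => Ob.norm_le_one _)
  rwa [one_mul] at this

theorem norm_ev_lt_one {a : σ → Ob C} (ha : ∀ i, ‖a i‖ < 1) {f : MvPowerSeries σ (Ob C)}
    (hf : ‖constantCoeff f‖ < 1) : ‖ev a f‖ < 1 := by
  obtain ⟨θ, hθ0, hθ1, hθ⟩ : ∃ θ : ℝ, 0 ≤ θ ∧ θ < 1 ∧ ∀ i, ‖a i‖ ≤ θ := by
    rcases isEmpty_or_nonempty σ with h | h
    · exact ⟨0, le_rfl, zero_lt_one, fun i => isEmptyElim i⟩
    · obtain ⟨i, hi⟩ := Finite.exists_max (fun i => ‖a i‖)
      exact ⟨‖a i‖, norm_nonneg _, ha i, hi⟩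
  have h1 := norm_ev_le_of_order ha hθ0 hθ (f := f - MvPowerSeries.C (constantCoeff f))
    (D := 1) (s := 1) (fun d hd => by
      have : d = 0 := (Finsupp.degree_eq_zero_iff d).1 (by omega)
      subst this
      simp) (fun d => Ob.norm_le_one _)
  rw [map_sub, ev_C, one_mul, pow_one] at h1
  have e : ev a f = (ev a f - constantCoeff f) + constantCoeff f := by ring
  rw [e]
  exact (IsUltrametricDist.norm_add_le_max _ _).trans_lt (max_lt (h1.trans_lt hθ1) hf)

/-- Lipschitz.  PLAN: `ev a`, `ev b` agree modulo `ball s` (`ext_nil` if `s > 0`, `ext_norm`/congr if `s = 0`). -/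
theorem norm_ev_sub_le {a b : σ → Ob C} (ha : ∀ i, ‖a i‖ < 1) (hb : ∀ i, ‖b i‖ < 1) {s : ℝ} (hs0 : 0 ≤ s)
    (hs : ∀ i, ‖a i - b i‖ ≤ s) (f : MvPowerSeries σ (Ob C)) : ‖ev a f - ev b f‖ ≤ s := by
  refine EV.norm_le_of_hasSum ((EV.hasSum_ev ha f).sub (EV.hasSum_ev hb f)) hs0 (fun d => ?_)
  rw [← mul_sub, ← Ob.mem_ball (hs := hs0)]
  refine Ideal.mul_mem_left _ _ ?_
  rw [← Ideal.Quotient.eq, Finsupp.prod, Finsupp.prod, map_prod, map_prod]
  refine Finset.prod_congr rfl (fun i _ => ?_)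
  rw [map_pow, map_pow, (Ideal.Quotient.eq (I := Ob.ball s hs0)).2 (hs i)]

theorem ev_subst {a : τ → Ob C} (ha : ∀ i, ‖a i‖ < 1) {b : σ → MvPowerSeries τ (Ob C)}
    (hb : ∀ i, constantCoeff (b i) = 0) (f : MvPowerSeries σ (Ob C)) :
    ev a (f.subst b) = ev (fun i => ev a (b i)) f := by
  have hb' : HasSubst b := hasSubst_of_constantCoeff_zero hb
  have h1 : ∀ i, ‖ev a (b i)‖ < 1 := fun i => norm_ev_lt_one ha (by rw [hb i]; simp)
  have e : (ev a).comp (substAlgHom hb').toRingHom = ev (fun i => ev a (b i)) := by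
    refine ext_norm _ _ (fun r => ?_) (fun i => ?_) (fun i => ?_)
    · simp only [RingHom.comp_apply, AlgHom.toRingHom_eq_coe, RingHom.coe_coe, substAlgHom_apply,
        subst_C, ev_C]
    · simp only [RingHom.comp_apply, AlgHom.toRingHom_eq_coe, RingHom.coe_coe, substAlgHom_apply,
        subst_X hb', ev_X h1]
    · simp only [RingHom.comp_apply, AlgHom.toRingHom_eq_coe, RingHom.coe_coe, substAlgHom_apply,
        subst_X hb', h1]
  rw [← e]
  simp only [RingHom.comp_apply, AlgHom.toRingHom_eq_coe, RingHom.coe_coe, substAlgHom_apply]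

theorem ev_subst1 {a : τ → Ob C} (ha : ∀ i, ‖a i‖ < 1) {b : MvPowerSeries τ (Ob C)}
    (hb : constantCoeff b = 0) (f : PowerSeries (Ob C)) :
    ev a (f.subst b) = ev1 (ev a b) f := by
  exact ev_subst ha (b := fun _ : Unit => b) (fun _ => hb) f

/-- any point of a power series ring is an evaluation. -/
theorem eq_ev {R : Type*} [CommRing R] (z : MvPowerSeries σ R →+* Ob C) (hz : ∀ i, ‖z (X i)‖ < 1)
    (f : MvPowerSeries σ R) :
    z f = ev (fun i => z (X i)) (f.map (z.comp MvPowerSeries.C)) := by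
  have e : z = (ev (fun i => z (X i))).comp (MvPowerSeries.map (z.comp MvPowerSeries.C)) := by
    refine ext_norm _ _ (fun r => ?_) (fun i => ?_) hz
    · rw [RingHom.comp_apply, map_C, ev_C, RingHom.comp_apply]
    · rw [RingHom.comp_apply, map_X, ev_X hz]
  exact DFunLike.congr_fun e f

theorem ev_frob (p : ℕ) [Fact p.Prime] [CharP C p] {a : σ → Ob C} (ha : ∀ i, ‖a i‖ < 1) (j : ℕ)
    (f : MvPowerSeries σ (Ob C)) :
    ev a f ^ p ^ j = ev (fun i => a i ^ p ^ j) (f.map (iterateFrobenius (Ob C) p j)) := by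
  have h1 : ∀ i, ‖a i ^ p ^ j‖ < 1 := fun i => by
    rw [norm_pow]
    exact pow_lt_one₀ (norm_nonneg _) (ha i) (pow_ne_zero _ (Fact.out : p.Prime).ne_zero)
  have e : (iterateFrobenius (Ob C) p j).comp (ev a) =
      (ev (fun i => a i ^ p ^ j)).comp (MvPowerSeries.map (iterateFrobenius (Ob C) p j)) := by
    refine ext_norm _ _ (fun r => ?_) (fun i => ?_) (fun i => ?_)
    · rw [RingHom.comp_apply, RingHom.comp_apply, map_C, ev_C, ev_C]
    · rw [RingHom.comp_apply, RingHom.comp_apply, map_X, ev_X ha, ev_X h1, iterateFrobenius_def]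
    · rw [RingHom.comp_apply, ev_X ha, iterateFrobenius_def]; exact h1 i
  have := DFunLike.congr_fun e f
  rwa [RingHom.comp_apply, RingHom.comp_apply, iterateFrobenius_def] at this

/-! ## points of a formal group -/

set_option linter.unusedVariables false in
/-- points of `F` with values in the maximal ideal of `O`. -/
def GPt (F : FormalGroup (Ob C)) : Type := {x : Ob C // ‖x‖ < 1}

theorem GPt.lt {F : FormalGroup (Ob C)} (x : GPt F) : ‖x.1‖ < 1 := x.2

theorem GPt.pair {F : FormalGroup (Ob C)} (x y : GPt F) : ∀ i, ‖(![x.1, y.1] : Fin 2 → Ob C) i‖ < 1 := by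
  intro i; fin_cases i
  · exact x.2
  · exact y.2

instance (F : FormalGroup (Ob C)) : Add (GPt F) :=
  ⟨fun x y => ⟨ev ![x.1, y.1] F.toPowerSeries,
    norm_ev_lt_one (GPt.pair x y) (by rw [F.zero_constantCoeff]; simp)⟩⟩

instance (F : FormalGroup (Ob C)) : Zero (GPt F) := ⟨⟨0, by simp⟩⟩

theorem GPt.add_val {F : FormalGroup (Ob C)} (x y : GPt F) :
    (x + y).1 = ev ![x.1, y.1] F.toPowerSeries := rfl

@[simp] theorem GPt.zero_val {F : FormalGroup (Ob C)} : (0 : GPt F).1 = 0 := rfl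

theorem EV.ev_fg {a : τ → Ob C} (ha : ∀ i, ‖a i‖ < 1) (f : MvPowerSeries (Fin 2) (Ob C))
    {A B : MvPowerSeries τ (Ob C)} (hA : constantCoeff A = 0) (hB : constantCoeff B = 0) :
    ev a (f.subst ![A, B]) = ev ![ev a A, ev a B] f := by
  rw [ev_subst ha (fun i => by fin_cases i <;> simpa)]
  congr 2
  funext i
  fin_cases i <;> rfl

theorem GPt.add_assoc' {F : FormalGroup (Ob C)} (x y z : GPt F) : x + y + z = x + (y + z) := by
  apply Subtype.ext
  have h3 : ∀ i, ‖(![x.1, y.1, z.1] : Fin 3 → Ob C) i‖ < 1 := by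
    intro i; fin_cases i
    · exact x.2
    · exact y.2
    · exact z.2
  have hc : ∀ i j : Fin 3, constantCoeff (F.toPowerSeries.subst
      ![(X i : MvPowerSeries (Fin 3) (Ob C)), X j]) = 0 := fun i j =>
    constantCoeff_subst_eq_zero HasSubst.X_X (fun k => by fin_cases k <;> simp)
      F.zero_constantCoeff
  have h := congrArg (ev ![x.1, y.1, z.1]) F.assoc
  rw [EV.ev_fg h3 _ (hc _ _) (by simp), EV.ev_fg h3 _ (by simp) (hc _ _),
    EV.ev_fg h3 _ (by simp) (by simp), EV.ev_fg h3 _ (by simp) (by simp)] at h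
  simp only [ev_X h3] at h
  exact h

theorem GPt.zero_add' {F : FormalGroup (Ob C)} (x : GPt F) : 0 + x = x := by
  apply Subtype.ext
  obtain ⟨K, hK⟩ := fg_eq_add F
  rw [GPt.add_val, hK]
  simp [ev_X (GPt.pair (0 : GPt F) x), -GPt.zero_val]
  simp

theorem GPt.add_zero' {F : FormalGroup (Ob C)} (x : GPt F) : x + 0 = x := by
  apply Subtype.ext
  obtain ⟨K, hK⟩ := fg_eq_add F
  rw [GPt.add_val, hK]
  simp [ev_X (GPt.pair x (0 : GPt F)), -GPt.zero_val]
  simp

theorem GPt.add_comm' {F : FormalGroup (Ob C)} [F.IsComm] (x y : GPt F) : x + y = y + x := by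
  apply Subtype.ext
  have h := congrArg (ev ![x.1, y.1]) (FormalGroup.IsComm.comm (F := F))
  rw [EV.ev_fg (GPt.pair x y) _ (by simp) (by simp)] at h
  simp only [ev_X (GPt.pair x y)] at h
  exact h

instance (F : FormalGroup (Ob C)) [F.IsComm] : AddCommMonoid (GPt F) where
  add_assoc := GPt.add_assoc'
  zero_add := GPt.zero_add'
  add_zero := GPt.add_zero'
  add_comm := GPt.add_comm'
  nsmul := nsmulRec

theorem GPt.nsmul_val {F : FormalGroup (Ob C)} [F.IsComm] (m : ℕ) (x : GPt F) :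
    (m • x).1 = ev1 x.1 (mulSeries F m) := by
  induction m with
  | zero => rw [zero_nsmul, mulSeries, map_zero]; rfl
  | succ m ih =>
    rw [succ_nsmul, GPt.add_val, ih, mulSeries]
    have := EV.ev_fg (a := fun _ : Unit => x.1) (fun _ => x.2) F.toPowerSeries
      (A := mulSeries F m) (B := PowerSeries.X) (mul_const F m) PowerSeries.constantCoeff_X
    refine Eq.trans ?_ this.symm
    congr 3
    exact congrArg (fun t => ![t]) (ev1_X x.2).symm

/-- `fg_eq_add`. -/
theorem GPt.add_eq {F : FormalGroup (Ob C)} (x y : GPt F) :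
    ∃ c : Ob C, (x + y).1 = x.1 + y.1 + x.1 * y.1 * c := by
  obtain ⟨K, hK⟩ := fg_eq_add F
  refine ⟨ev ![x.1, y.1] K, ?_⟩
  rw [GPt.add_val]
  conv_lhs => rw [hK]
  simp [ev_X (GPt.pair x y)]

theorem GPt.norm_add_le {F : FormalGroup (Ob C)} (x y : GPt F) : ‖(x + y).1‖ ≤ max ‖x.1‖ ‖y.1‖ := by
  obtain ⟨c, hc⟩ := GPt.add_eq x y
  rw [hc]
  refine (IsUltrametricDist.norm_add_le_max _ _).trans (max_le
    (IsUltrametricDist.norm_add_le_max _ _) (le_max_of_le_left ?_))
  rw [mul_assoc, norm_mul]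
  exact mul_le_of_le_one_right (norm_nonneg _) (Ob.norm_le_one _)

theorem GPt.norm_nsmul_le {F : FormalGroup (Ob C)} [F.IsComm] (m : ℕ) (x : GPt F) : ‖(m • x).1‖ ≤ ‖x.1‖ := by
  induction m with
  | zero => rw [zero_nsmul]; simp
  | succ m ih => rw [succ_nsmul]; exact (GPt.norm_add_le _ _).trans (max_le ih le_rfl)

theorem GPt.norm_sum_le {F : FormalGroup (Ob C)} [F.IsComm] {ι : Type*} (S : Finset ι) (x : ι → GPt F)
    {ρ : ℝ} (hρ : 0 ≤ ρ) (hx : ∀ i ∈ S, ‖(x i).1‖ ≤ ρ) : ‖(∑ i ∈ S, x i).1‖ ≤ ρ := by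
  classical
  induction S using Finset.induction_on with
  | empty => simpa using hρ
  | insert i S hi ih =>
    rw [Finset.sum_insert hi]
    exact (GPt.norm_add_le _ _).trans (max_le (hx i (Finset.mem_insert_self _ _))
      (ih fun j hj => hx j (Finset.mem_insert_of_mem hj)))

/-- a homomorphism acts additively on points; an isomorphism preserves norms. -/
theorem exists_homG {F G : FormalGroup (Ob C)} [F.IsComm] [G.IsComm] {θ : PowerSeries (Ob C)}
    (h : IsFGHom F G θ) : ∃ Φ : GPt F →+ GPt G, (∀ x, (Φ x).1 = ev1 x.1 θ) ∧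
      (IsUnit (PowerSeries.coeff 1 θ) → ∀ x, ‖(Φ x).1‖ = ‖x.1‖) := by
  have h0 : constantCoeff θ = 0 := h.1
  have hl : ∀ x : GPt F, ‖ev1 x.1 θ‖ < 1 := fun x =>
    norm_ev_lt_one (a := fun _ : Unit => x.1) (fun _ => x.2) (by rw [h0]; simp)
  have hc : ∀ i : Fin 2, constantCoeff
      (PowerSeries.subst (X i : MvPowerSeries (Fin 2) (Ob C)) θ) = 0 := fun i =>
    constantCoeff_subst_eq_zero (PowerSeries.HasSubst.X i).const (fun _ => by simp) h0
  refine ⟨{ toFun := fun x => ⟨ev1 x.1 θ, hl x⟩, map_zero' := ?_, map_add' := ?_ },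
    fun _ => rfl, fun hu x => ?_⟩
  · exact Subtype.ext ((ev_zero θ).trans h0)
  · intro x y
    apply Subtype.ext
    have e := congrArg (ev ![x.1, y.1]) h.2
    rw [ev_subst1 (GPt.pair x y) F.zero_constantCoeff, EV.ev_fg (GPt.pair x y) _ (hc 0) (hc 1),
      ev_subst1 (GPt.pair x y) (by simp), ev_subst1 (GPt.pair x y) (by simp)] at e
    simp only [ev_X (GPt.pair x y)] at e
    exact e
  · show ‖ev1 x.1 θ‖ = ‖x.1‖
    have h1 := norm_ev1_sub_sum x.2 θ 2
    have h2 : PowerSeries.coeff 0 θ = 0 := by simpa using h.1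
    simp only [Finset.sum_range_succ, Finset.sum_range_zero, h2, zero_mul, zero_add, pow_one] at h1
    have h3 : ‖PowerSeries.coeff 1 θ * x.1‖ = ‖x.1‖ := by
      rw [norm_mul, Ob.isUnit_iff.1 hu, one_mul]
    rcases (norm_nonneg x.1).eq_or_lt with h4 | h4
    · have h5 : x.1 = 0 := norm_eq_zero.1 h4.symm
      rw [h5]
      simpa [h5] using h1
    · have h5 : ‖x.1‖ ^ 2 < ‖x.1‖ := by have := x.2; nlinarith
      have e : ev1 x.1 θ = (ev1 x.1 θ - PowerSeries.coeff 1 θ * x.1) +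
          PowerSeries.coeff 1 θ * x.1 := by ring
      rw [e, IsUltrametricDist.norm_add_eq_max_of_norm_ne_norm (by rw [h3]; linarith), h3]
      exact max_eq_right (by linarith)

end
end Crest.Agent.R227
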