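import Crest.Agent.R227.Defs

/-!
# 227-EXT: extensionality and Taylor lemmas for power series.   
-/
set_option autoImplicit false
open MvPowerSeries

namespace Crest.Agent.R227
noncomputable section
variable {R S : Type*} [CommRing R] [CommRing S] {σ τ : Type*}

/-- order `≥ D` iff in `(X)^D`.  PLAN: (→) coefficients of products of `D` elements of the ideal (induction on `D`,
`Submodule.span_induction`/`Ideal.pow` or `MvPowerSeries.order`).  (←) induction on `D`: a series without terms of degree
`< D+1` is `∑ i, X i * g i` with `g i` without terms of degree `< D` (assign each monomial `d ≠ 0` to one variable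
`i` with `d i ≠ 0`, e.g. by `Classical.choose`; `g i := fun d => if chosen (d + single i 1) = i then coeff (d + single i 1) f else 0`). -/
theorem mem_pow_span_X_iff [Finite σ] (f : MvPowerSeries σ R) (D : ℕ) :
    f ∈ (Ideal.span (Set.range (X : σ → MvPowerSeries σ R))) ^ D ↔
      ∀ d : σ →₀ ℕ, d.degree < D → coeff d f = 0 := by
  classical
  constructor
  · intro hf d hd
    have key : ∀ (D : ℕ) (f : MvPowerSeries σ R),
        f ∈ (Ideal.span (Set.range (X : σ → MvPowerSeries σ R))) ^ D → (D : ℕ∞) ≤ f.order := by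
      intro D
      induction D with
      | zero => intro f _; simp
      | succ D ih =>
        intro f hf
        rw [pow_succ] at hf
        refine Submodule.mul_induction_on hf (fun a ha b hb => ?_) (fun a b ha hb => ?_)
        · have h1 : (1 : ℕ∞) ≤ b.order := by
            rw [one_le_order_iff_constCoeff_eq_zero]
            have : Ideal.span (Set.range (X : σ → MvPowerSeries σ R)) ≤
                RingHom.ker (constantCoeff : MvPowerSeries σ R →+* R) := by
              rw [Ideal.span_le]
              rintro _ ⟨i, rfl⟩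
              simp
            exact this hb
          refine le_trans ?_ le_order_mul
          push_cast
          exact add_le_add (ih a ha) h1
        · exact le_trans (le_min ha hb) min_order_le_add
    exact coeff_of_lt_order (lt_of_lt_of_le (by exact_mod_cast hd) (key D f hf))
  · have := Fintype.ofFinite σ
    induction D generalizing f with
    | zero => intro _; simp
    | succ D ih =>
      intro hf
      have hch : ∀ d : σ →₀ ℕ, ∃ i : Option σ, (d ≠ 0 → ∃ j, i = some j ∧ d j ≠ 0) := by
        intro d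
        by_cases hd : d = 0
        · exact ⟨none, fun h => absurd hd h⟩
        · obtain ⟨j, hj⟩ := Finsupp.ne_iff.1 hd
          exact ⟨some j, fun _ => ⟨j, rfl, hj⟩⟩
      choose ch hch using hch
      let g : σ → MvPowerSeries σ R := fun i d =>
        if ch (d + Finsupp.single i 1) = some i then coeff (d + Finsupp.single i 1) f else 0
      have hg : ∀ i d, coeff d (g i) =
          if ch (d + Finsupp.single i 1) = some i then coeff (d + Finsupp.single i 1) f else 0 :=
        fun i d => rfl
      have hfg : f = ∑ i, g i * X i := by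
        ext d
        rw [map_sum]
        simp only [X, coeff_mul_monomial, mul_one, hg]
        by_cases hd : d = 0
        · subst hd
          rw [hf 0 (by simp), eq_comm]
          refine Finset.sum_eq_zero fun i _ => if_neg fun h => ?_
          simpa using h i
        · obtain ⟨j, hj, hdj⟩ := hch d hd
          have hle : Finsupp.single j 1 ≤ d := by
            rw [Finsupp.single_le_iff]; omega
          rw [Finset.sum_eq_single j]
          · rw [if_pos hle, tsub_add_cancel_of_le hle, if_pos hj]
          · intro i _ hi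
            split_ifs with h1 h2
            · rw [tsub_add_cancel_of_le h1, hj] at h2
              exact absurd (Option.some.inj h2).symm hi
            · rfl
            · rfl
          · intro h; exact absurd (Finset.mem_univ j) h
      rw [hfg, pow_succ]
      refine Ideal.sum_mem _ fun i _ => Ideal.mul_mem_mul (ih _ fun d hd => ?_)
        (Ideal.subset_span ⟨i, rfl⟩)
      rw [hg]
      split_ifs
      · refine hf _ ?_
        rw [map_add, Finsupp.degree_single]
        omega
      · rfl

theorem EXT.poly (α β : MvPowerSeries σ R →+* S)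
    (hC : ∀ r, α (C r) = β (C r)) (hX : ∀ i, α (X i) = β (X i)) (P : MvPolynomial σ R) :
    α (P : MvPowerSeries σ R) = β (P : MvPowerSeries σ R) := by
  induction P using MvPolynomial.induction_on with
  | C r => simpa using hC r
  | add P Q hP hQ => simp [hP, hQ]
  | mul_X P i hP => simp [hP, hX]

theorem EXT.sub_mem [Finite σ] (I : Ideal S) (α β : MvPowerSeries σ R →+* S)
    (hC : ∀ r, α (C r) = β (C r)) (hX : ∀ i, α (X i) = β (X i)) (hI : ∀ i, α (X i) ∈ I)
    (f : MvPowerSeries σ R) (D : ℕ) : α f - β f ∈ I ^ D := by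
  have ht : f - (truncTotal D f : MvPolynomial σ R) ∈
      (Ideal.span (Set.range (X : σ → MvPowerSeries σ R))) ^ D := by
    rw [mem_pow_span_X_iff]
    intro d hd
    rw [map_sub, MvPolynomial.coeff_coe, coeff_truncTotal _ hd, sub_self]
  have hm : ∀ γ : MvPowerSeries σ R →+* S, (∀ i, γ (X i) ∈ I) →
      γ (f - (truncTotal D f : MvPolynomial σ R)) ∈ I ^ D := by
    intro γ hγ
    have h1 : (Ideal.span (Set.range (X : σ → MvPowerSeries σ R))).map γ ≤ I := by
      rw [Ideal.map_span, Ideal.span_le]
      rintro _ ⟨_, ⟨i, rfl⟩, rfl⟩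
      exact hγ i
    have h2 := Ideal.mem_map_of_mem γ ht
    rw [Ideal.map_pow] at h2
    exact Ideal.pow_right_mono h1 D h2
  have h := (I ^ D).sub_mem (hm α hI) (hm β fun i => hX i ▸ hI i)
  rw [map_sub, map_sub, EXT.poly α β hC hX] at h
  convert h using 1
  ring

/-- EXT. PLAN: `f = truncTotal D f + tail`, tail `∈ (X)^D`, both maps agree on polynomials
(`MvPolynomial.induction_on`) and send `(X)^D` into `I^D`; conclude with `IsHausdorff.haus`. -/
theorem ext_sep [Finite σ] (I : Ideal S) [IsHausdorff I S] (α β : MvPowerSeries σ R →+* S)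
    (hC : ∀ r, α (C r) = β (C r)) (hX : ∀ i, α (X i) = β (X i)) (hI : ∀ i, α (X i) ∈ I) : α = β := by
  ext f
  rw [← sub_eq_zero]
  refine IsHausdorff.haus' (I := I) _ fun D => ?_
  rw [SModEq.zero, smul_eq_mul, Ideal.mul_top]
  exact EXT.sub_mem I α β hC hX hI f D

/-- PLAN: `I = span (range (α ∘ X))` is nilpotent (`Ideal.FG.isNilpotent_iff_le_nilradical`), hence Hausdorff; or redo `ext_sep`. -/
theorem ext_nil [Finite σ] (α β : MvPowerSeries σ R →+* S)
    (hC : ∀ r, α (C r) = β (C r)) (hX : ∀ i, α (X i) = β (X i)) (hn : ∀ i, IsNilpotent (α (X i))) :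
    α = β := by
  have hfg : (Ideal.span (Set.range fun i => α (X i))).FG :=
    Submodule.fg_span (Set.finite_range _)
  have hnil : IsNilpotent (Ideal.span (Set.range fun i => α (X i))) := by
    rw [hfg.isNilpotent_iff_le_nilradical, Ideal.span_le]
    rintro _ ⟨i, rfl⟩
    exact mem_nilradical.2 (hn i)
  obtain ⟨D, hD⟩ := hnil
  ext f
  have h := EXT.sub_mem (Ideal.span (Set.range fun i => α (X i))) α β hC hX
    (fun i => Ideal.subset_span (Set.mem_range_self i)) f D
  rw [hD] at h
  exact sub_eq_zero.1 (by simpa using h)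

/-- PLAN: `ext_sep` with `I = span (range X)` (Mathlib instance `IsAdicComplete`), `mem_pow_span_X_iff` with `D = 1`. -/
theorem ext_ser [Finite σ] [Finite τ] (α β : MvPowerSeries σ R →+* MvPowerSeries τ S)
    (hC : ∀ r, α (C r) = β (C r)) (hX : ∀ i, α (X i) = β (X i))
    (h0 : ∀ i, constantCoeff (α (X i)) = 0) : α = β := by
  refine ext_sep (Ideal.span (Set.range (X : τ → MvPowerSeries τ S))) α β hC hX fun i => ?_
  rw [← pow_one (Ideal.span _), mem_pow_span_X_iff]
  intro d hd
  have : d = 0 := (Finsupp.degree_eq_zero_iff d).1 (by omega)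
  subst this
  simpa using h0 i

/-- Taylor to second order.  PLAN: in `R⟦X₀,X₁⟧`, `f(X₀+X₁) - f(X₀) - f'(X₀) X₁` is divisible by `X₁^2`
(`MvPowerSeries.X_pow_dvd_iff`, `PowerSeries.coeff_subst_X_zero_add_X_one`, `PowerSeries.coeff_subst_single`);
substitute `![B, A - B]`. -/
theorem subst_taylor [Finite σ] (f : PowerSeries R) (A B : MvPowerSeries σ R)
    (hA : constantCoeff A = 0) (hB : constantCoeff B = 0) :
    ∃ K : MvPowerSeries σ R, f.subst A =
      f.subst B + (PowerSeries.derivative R f).subst B * (A - B) + (A - B) ^ 2 * K := by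
  classical
  have h0 : PowerSeries.HasSubst (X 0 : MvPowerSeries (Fin 2) R) := PowerSeries.HasSubst.X 0
  have h01 : PowerSeries.HasSubst (X 0 + X 1 : MvPowerSeries (Fin 2) R) :=
    PowerSeries.HasSubst.of_constantCoeff_zero (by simp)
  have hdvd : (X 1 : MvPowerSeries (Fin 2) R) ^ 2 ∣
      f.subst (X 0 + X 1 : MvPowerSeries (Fin 2) R) - f.subst (X 0 : MvPowerSeries (Fin 2) R) -
        (PowerSeries.derivative R f).subst (X 0 : MvPowerSeries (Fin 2) R) * X 1 := by
    rw [X_pow_dvd_iff]
    intro m hm
    rw [map_sub, map_sub, PowerSeries.coeff_subst_X_zero_add_X_one,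
      PowerSeries.coeff_subst_single]
    conv_lhs => rw [X_def (1 : Fin 2), coeff_mul_monomial, PowerSeries.coeff_subst_single]
    have hm' : m 1 = 0 ∨ m 1 = 1 := by omega
    rcases hm' with h | h
    · have e1 : m = Finsupp.single 0 (m 0) := by
        ext i; fin_cases i <;> simp [h]
      have e2 : ¬ Finsupp.single (1 : Fin 2) 1 ≤ m := by
        rw [Finsupp.single_le_iff]; omega
      rw [if_pos e1, if_neg e2, h]
      simp
    · have e1 : m ≠ Finsupp.single 0 (m 0) := fun e => by
        have := congrArg (fun x => x 1) e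
        simp [h] at this
      have e2 : Finsupp.single (1 : Fin 2) 1 ≤ m := by
        rw [Finsupp.single_le_iff]; omega
      have e3 : (m - Finsupp.single (1 : Fin 2) 1 : Fin 2 →₀ ℕ) 0 = m 0 := by simp
      have e4 : (m - Finsupp.single (1 : Fin 2) 1 : Fin 2 →₀ ℕ) = Finsupp.single 0 (m 0) := by
        ext i; fin_cases i <;> simp [h]
      rw [if_neg e1, if_pos e2, e3, if_pos e4, h, PowerSeries.coeff_derivative]
      simp only [Nat.choose_succ_self_right]
      push_cast
      ring
  obtain ⟨K, hK⟩ := hdvd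
  have hs : HasSubst (![B, A - B] : Fin 2 → MvPowerSeries σ R) :=
    hasSubst_of_constantCoeff_zero fun i => by fin_cases i <;> simp [hA, hB]
  have hcomp : ∀ (g : PowerSeries R) (a : MvPowerSeries (Fin 2) R), PowerSeries.HasSubst a →
      subst ![B, A - B] (g.subst a) = g.subst (subst ![B, A - B] a) := by
    intro g a ha
    rw [PowerSeries.subst_def, PowerSeries.subst_def, subst_comp_subst_apply ha.const hs]
  have h := congrArg (subst (![B, A - B] : Fin 2 → MvPowerSeries σ R)) hK
  rw [subst_sub hs, subst_sub hs, subst_mul hs, subst_mul hs, subst_pow hs, hcomp _ _ h0,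
    hcomp _ _ h0, hcomp _ _ h01, subst_add hs, subst_X hs, subst_X hs] at h
  simp only [Matrix.cons_val_zero, Matrix.cons_val_one, add_sub_cancel] at h
  refine ⟨subst ![B, A - B] K, ?_⟩
  linear_combination h

/-- substitution respects congruences of the arguments.  PLAN: `subst_taylor`-like: in `R⟦X_i, Y_i⟧`, or directly:
map everything to `R ⧸ I` with `MvPowerSeries.map_subst`. -/
theorem subst_congr_ideal [Finite τ] (I : Ideal R) (f g : MvPowerSeries τ R) (A B : τ → MvPowerSeries σ R)
    (hA : ∀ i, constantCoeff (A i) = 0) (hB : ∀ i, constantCoeff (B i) = 0)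
    (hfg : ∀ d, coeff d (f - g) ∈ I) (hAB : ∀ i d, coeff d (A i - B i) ∈ I) :
    ∀ d, coeff d (f.subst A - g.subst B) ∈ I := by
  have key : ∀ {υ : Type _} (F G : MvPowerSeries υ R), (∀ d, coeff d (F - G) ∈ I) →
      F.map (Ideal.Quotient.mk I) = G.map (Ideal.Quotient.mk I) := by
    intro υ F G h
    ext d
    rw [coeff_map, coeff_map, Ideal.Quotient.eq, ← map_sub]
    exact h d
  have key' : ∀ {υ : Type _} (F G : MvPowerSeries υ R), (∀ d, coeff d (F - G) ∈ I) →
      F.map (Ideal.Quotient.mk I) = G.map (Ideal.Quotient.mk I) := by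
    intro υ F G h
    ext d
    rw [coeff_map, coeff_map, Ideal.Quotient.eq, ← map_sub]
    exact h d
  have h : (f.subst A).map (Ideal.Quotient.mk I) = (g.subst B).map (Ideal.Quotient.mk I) := by
    rw [map_subst (hasSubst_of_constantCoeff_zero hA), map_subst (hasSubst_of_constantCoeff_zero hB),
      key f g hfg]
    congr 1
    funext i
    exact key' _ _ (hAB i)
  intro d
  have h1 := congrArg (coeff d) h
  rw [coeff_map, coeff_map, Ideal.Quotient.eq, ← map_sub] at h1
  exact h1

/-- coefficients of a product. -/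
theorem coeff_mul_mem_mul (I J : Ideal R) (A B : MvPowerSeries σ R)
    (hA : ∀ d, coeff d A ∈ I) (hB : ∀ d, coeff d B ∈ J) : ∀ d, coeff d (A * B) ∈ I * J := by
  classical
  intro d
  rw [coeff_mul]
  exact Ideal.sum_mem _ fun x _ => Ideal.mul_mem_mul (hA _) (hB _)

/-- a one-variable series substituted in `A` (`A(0)=0`): the coefficients of degree `< D` only see the terms `< D` of `f`. -/
theorem coeff_subst_eq_sum (f A : PowerSeries R) (hA : PowerSeries.constantCoeff A = 0) (D d : ℕ) (hd : d < D) :
    PowerSeries.coeff d (f.subst A) =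
      ∑ i ∈ Finset.range D, PowerSeries.coeff i f * PowerSeries.coeff d (A ^ i) := by
  rw [PowerSeries.coeff_subst' (PowerSeries.HasSubst.of_constantCoeff_zero' hA),
    finsum_eq_sum_of_support_subset (s := Finset.range D)]
  · simp only [smul_eq_mul]
  · intro i hi
    by_contra hn
    refine hi ?_
    have hi' : D ≤ i := by simpa using hn
    have hdvd : (PowerSeries.X : PowerSeries R) ^ i ∣ A ^ i :=
      pow_dvd_pow_of_dvd (PowerSeries.X_dvd_iff.2 hA) i
    simp only [PowerSeries.X_pow_dvd_iff.1 hdvd d (by omega), smul_zero]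

section Norm
variable {C' : Type} [NormedField C'] [IsUltrametricDist C']

theorem EXT.mem_ball_pow {θ : ℝ} (hθ : 0 ≤ θ) (D : ℕ) (x : Ob C')
    (hx : x ∈ Ob.ball θ hθ ^ D) : ‖x‖ ≤ θ ^ D := by
  induction D generalizing x with
  | zero => simpa using Ob.norm_le_one x
  | succ D ih =>
    rw [pow_succ] at hx
    refine Submodule.mul_induction_on hx (fun a ha b hb => ?_) (fun a b ha hb => ?_)
    · rw [norm_mul, pow_succ]
      exact mul_le_mul (ih a ha) hb (norm_nonneg _) (pow_nonneg hθ D)
    · exact (IsUltrametricDist.norm_add_le_max a b).trans (max_le ha hb)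

/-- PLAN: as `ext_sep`: with `θ = max ‖α (X i)‖ < 1` the tail in `(X)^D` has norm `≤ θ^D` under both maps
(image of `(X)^D` lies in `Ob.ball (θ^D)`). -/
theorem ext_norm [Finite σ] (α β : MvPowerSeries σ R →+* Ob C')
    (hC : ∀ r, α (C r) = β (C r)) (hX : ∀ i, α (X i) = β (X i)) (hn : ∀ i, ‖α (X i)‖ < 1) : α = β := by
  obtain ⟨θ, hθ0, hθ1, hθ⟩ : ∃ θ : ℝ, 0 ≤ θ ∧ θ < 1 ∧ ∀ i, ‖α (X i)‖ ≤ θ := by
    cases isEmpty_or_nonempty σ with
    | inl h => exact ⟨0, le_rfl, one_pos, fun i => isEmptyElim i⟩
    | inr h =>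
      obtain ⟨j, hj⟩ := Finite.exists_max fun i => ‖α (X i)‖
      exact ⟨_, norm_nonneg _, hn j, hj⟩
  ext1 f
  rw [← sub_eq_zero, ← norm_le_zero_iff]
  exact ge_of_tendsto' (tendsto_pow_atTop_nhds_zero_of_lt_one hθ0 hθ1) fun D =>
    EXT.mem_ball_pow hθ0 D _ (EXT.sub_mem (Ob.ball θ hθ0) α β hC hX hθ f D)

/-- first-order Taylor formula for two points.  PLAN: `𝔟 = Ob.ball (s^2)`; in `O ⧸ 𝔟` (if `s > 0`; for `s = 0` use
`ext_norm`) the maps `f ↦ z' f` and `f ↦ z f + ∑ z(∂_i f) Δ_i` (a ring hom because `Δ_i Δ_j ∈ 𝔟`, Leibniz rule)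
agree on `C r`, `X i`, and `z' (X i)` is nilpotent mod `𝔟`; use `ext_nil`. -/
theorem taylor1 [Fintype σ] (z z' : MvPowerSeries σ R →+* Ob C') (s : ℝ) (hs : 0 ≤ s)
    (hC : ∀ r, z (C r) = z' (C r)) (hz : ∀ i, ‖z (X i)‖ < 1) (hz' : ∀ i, ‖z' (X i)‖ < 1)
    (hd : ∀ i, ‖z' (X i) - z (X i)‖ ≤ s) (f : MvPowerSeries σ R) :
    ‖z' f - z f - ∑ i, z (pderiv R i f) * (z' (X i) - z (X i))‖ ≤ s ^ 2 := by
  classical
  rcases hs.eq_or_lt with rfl | hs0
  · have h0 : ∀ i, z' (X i) - z (X i) = 0 := fun i => norm_le_zero_iff.1 (hd i)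
    have h1 : z = z' := ext_norm z z' hC (fun i => (sub_eq_zero.1 (h0 i)).symm) hz
    simp [h1]
  set 𝔟 : Ideal (Ob C') := Ob.ball (s ^ 2) (sq_nonneg s) with h𝔟
  set π := Ideal.Quotient.mk 𝔟 with hπ
  set Δ : σ → Ob C' := fun i => z' (X i) - z (X i) with hΔ
  have hΔ2 : ∀ i j, π (Δ i) * π (Δ j) = 0 := fun i j => by
    rw [← map_mul, hπ, Ideal.Quotient.eq_zero_iff_mem, h𝔟, Ob.mem_ball, norm_mul, sq]
    exact mul_le_mul (hd i) (hd j) (norm_nonneg _) hs
  let L : MvPowerSeries σ R → Ob C' ⧸ 𝔟 := fun g => ∑ i, π (z (pderiv R i g)) * π (Δ i)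
  have hLL : ∀ g g', L g * L g' = 0 := fun g g' => by
    simp only [L, Finset.sum_mul_sum]
    refine Finset.sum_eq_zero fun i _ => Finset.sum_eq_zero fun j _ => ?_
    rw [mul_mul_mul_comm, hΔ2, mul_zero]
  have hLmul : ∀ g g', L (g * g') = π (z g) * L g' + π (z g') * L g := fun g g' => by
    simp only [L, Derivation.leibniz, smul_eq_mul, map_add, map_mul, Finset.mul_sum,
      ← Finset.sum_add_distrib]
    exact Finset.sum_congr rfl fun i _ => by ring
  let β : MvPowerSeries σ R →+* Ob C' ⧸ 𝔟 :=
    { toFun := fun g => π (z g) + L g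
      map_one' := by simp [L]
      map_mul' := fun g g' => by
        rw [hLmul, map_mul, map_mul]
        linear_combination (-1 : Ob C' ⧸ 𝔟) * hLL g g'
      map_zero' := by simp [L]
      map_add' := fun g g' => by
        simp only [L, map_add, add_mul, Finset.sum_add_distrib]
        ring }
  have hβ : ∀ g, β g = π (z g) + L g := fun g => rfl
  have heq : π.comp z' = β := by
    refine ext_nil _ _ (fun r => ?_) (fun i => ?_) (fun i => ?_)
    · simp [hβ, L, hC]
    · rw [hβ, RingHom.comp_apply]
      have : L (X i) = π (Δ i) := by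
        simp only [L]
        rw [Finset.sum_eq_single i]
        · simp
        · intro j _ hj
          rw [pderiv_X_of_ne (Ne.symm hj)]
          simp
        · intro h; exact absurd (Finset.mem_univ i) h
      rw [this, hΔ]
      simp
    · obtain ⟨N, hN⟩ := exists_pow_lt_of_lt_one (pow_pos hs0 2) (hz' i)
      refine ⟨N, ?_⟩
      rw [RingHom.comp_apply, ← map_pow, hπ, Ideal.Quotient.eq_zero_iff_mem, h𝔟, Ob.mem_ball,
        norm_pow]
      exact hN.le
  have h := congrArg (fun γ => γ f) heq
  simp only [RingHom.comp_apply, hβ, L] at h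
  rw [← Ob.mem_ball (hs := sq_nonneg s), ← h𝔟, ← Ideal.Quotient.eq_zero_iff_mem, ← hπ, map_sub,
    map_sub, map_sum, h]
  simp only [map_mul, hΔ]
  ring

end Norm

end
end Crest.Agent.R227
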