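import Crest.Agent.R227.Ext

/-!
# 227-FG: basic API for formal group homomorphisms.
Tools: `MvPowerSeries.subst_comp_subst_apply`, `PowerSeries.subst_comp_subst_apply`, `map_subst`,
`constantCoeff_subst_eq_zero`, `FormalGroup.assoc'`, `comm'`, `add_zero`, `zero_add`, the `AddCommMonoid (F.Point σ)`.
-/
set_option autoImplicit false
open Crest.LubinTate MvPowerSeries

namespace Crest.Agent.R227
noncomputable section
variable {R S T : Type*} [CommRing R] [CommRing S] [CommRing T] {σ τ : Type*}

namespace FGA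

theorem hs2 {A B : MvPowerSeries σ R} (hA : PowerSeries.HasSubst A) (hB : PowerSeries.HasSubst B) :
    HasSubst ![A, B] :=
  hasSubst_of_constantCoeff_nilpotent fun s => by fin_cases s <;> simpa

theorem mv_ps {a : τ → MvPowerSeries σ R} (ha : HasSubst a) {A : MvPowerSeries τ R}
    (hA : PowerSeries.HasSubst A) (θ : PowerSeries R) :
    MvPowerSeries.subst a (θ.subst A) = θ.subst (MvPowerSeries.subst a A) := by
  rw [PowerSeries.subst_def, subst_comp_subst_apply hA.const ha]; rfl

theorem mv_2 {a : τ → MvPowerSeries σ R} (ha : HasSubst a) {A B : MvPowerSeries τ R}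
    (hA : PowerSeries.HasSubst A) (hB : PowerSeries.HasSubst B) (F : MvPowerSeries (Fin 2) R) :
    MvPowerSeries.subst a (F.subst ![A, B]) = F.subst ![A.subst a, B.subst a] := by
  rw [subst_comp_subst_apply (hs2 hA hB) ha]
  congr 1
  funext s
  fin_cases s <;> rfl

theorem ps_2 {a : MvPowerSeries σ R} (ha : PowerSeries.HasSubst a) {A B : PowerSeries R}
    (hA : PowerSeries.HasSubst A) (hB : PowerSeries.HasSubst B) (F : MvPowerSeries (Fin 2) R) :
    PowerSeries.subst a (F.subst ![A, B] : PowerSeries R) = F.subst ![A.subst a, B.subst a] :=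
  mv_2 ha.const hA hB F

theorem hs_ps {A : MvPowerSeries σ R} (hA : PowerSeries.HasSubst A) {θ : PowerSeries R}
    (hθ : PowerSeries.HasSubst θ) : PowerSeries.HasSubst (θ.subst A) :=
  IsNilpotent_subst hA.const hθ

theorem hs_mv {a : τ → MvPowerSeries σ R} (ha : HasSubst a) {A : MvPowerSeries τ R}
    (hA : PowerSeries.HasSubst A) : PowerSeries.HasSubst (A.subst a) :=
  IsNilpotent_subst ha hA

theorem hsF0 (F : FormalGroup R) : PowerSeries.HasSubst F.toPowerSeries :=
  PowerSeries.HasSubst.of_constantCoeff_zero F.zero_constantCoeff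

theorem hsF (F : FormalGroup R) {A B : MvPowerSeries σ R} (hA : PowerSeries.HasSubst A)
    (hB : PowerSeries.HasSubst B) : PowerSeries.HasSubst (F.toPowerSeries.subst ![A, B]) :=
  hs_mv (hs2 hA hB) (hsF0 F)

theorem hs0 {θ : PowerSeries R} (h : PowerSeries.constantCoeff θ = 0) : PowerSeries.HasSubst θ :=
  PowerSeries.HasSubst.of_constantCoeff_zero' h

theorem hsX (i : σ) : PowerSeries.HasSubst (X i : MvPowerSeries σ R) := PowerSeries.HasSubst.X i

theorem map2 {A B : MvPowerSeries σ R} (hA : PowerSeries.HasSubst A) (hB : PowerSeries.HasSubst B)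
    (F : MvPowerSeries (Fin 2) R) (f : R →+* S) :
    (F.subst ![A, B]).map f = (F.map f).subst ![A.map f, B.map f] := by
  rw [map_subst (hs2 hA hB)]
  congr 1
  funext s
  fin_cases s <;> rfl

theorem const2 {A B : MvPowerSeries σ R} (hA : constantCoeff A = 0) (hB : constantCoeff B = 0)
    {F : MvPowerSeries (Fin 2) R} (hF : constantCoeff F = 0) :
    constantCoeff (F.subst ![A, B]) = 0 :=
  constantCoeff_subst_eq_zero (hasSubst_of_constantCoeff_zero fun s => by fin_cases s <;> simpa)
    (fun s => by fin_cases s <;> simpa) hF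

theorem constps {A : MvPowerSeries σ R} (hA : constantCoeff A = 0) {θ : PowerSeries R}
    (hθ : PowerSeries.constantCoeff θ = 0) : constantCoeff (θ.subst A) = 0 :=
  PowerSeries.constantCoeff_subst_eq_zero hA θ hθ

theorem subst_XX (F : MvPowerSeries (Fin 2) R) :
    F.subst ![(X 0 : MvPowerSeries (Fin 2) R), X 1] = F := by
  have : ![(X 0 : MvPowerSeries (Fin 2) R), X 1] = X := by
    funext s; fin_cases s <;> rfl
  rw [this, subst_self]; rfl

theorem sX0 {A B : MvPowerSeries σ R} (hA : PowerSeries.HasSubst A) (hB : PowerSeries.HasSubst B) :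
    (X 0 : MvPowerSeries (Fin 2) R).subst ![A, B] = A := by
  rw [subst_X (hs2 hA hB)]; rfl

theorem sX1 {A B : MvPowerSeries σ R} (hA : PowerSeries.HasSubst A) (hB : PowerSeries.HasSubst B) :
    (X 1 : MvPowerSeries (Fin 2) R).subst ![A, B] = B := by
  rw [subst_X (hs2 hA hB)]; rfl

theorem comp {a : MvPowerSeries σ R} (ha : PowerSeries.HasSubst a) {g : PowerSeries R}
    (hg : PowerSeries.HasSubst g) (f : PowerSeries R) :
    PowerSeries.subst a (f.subst g : PowerSeries R) = f.subst (g.subst a) :=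
  PowerSeries.subst_comp_subst_apply hg ha f

theorem subst_zero' {a : MvPowerSeries σ R} (ha : PowerSeries.HasSubst a) :
    PowerSeries.subst a (0 : PowerSeries R) = 0 := by
  rw [← PowerSeries.coe_substAlgHom ha, map_zero]

theorem mul_succ (F : FormalGroup R) (m : ℕ) :
    mulSeries F (m + 1) = F.toPowerSeries.subst ![mulSeries F m, PowerSeries.X] := rfl

theorem coeff_X0 (K : MvPowerSeries (Fin 2) R) (i : ℕ) :
    PowerSeries.coeff i (K.subst ![(PowerSeries.X : PowerSeries R), 0]) =
      coeff (Finsupp.single 0 i) K := by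
  have hs : HasSubst ![(PowerSeries.X : PowerSeries R), 0] :=
    hs2 PowerSeries.HasSubst.X' PowerSeries.HasSubst.zero
  rw [PowerSeries.coeff, coeff_subst hs, finsum_eq_single _ (Finsupp.single 0 i)]
  · rw [Finsupp.prod_single_index (by simp)]
    have h1 : coeff (Finsupp.single () i) ((PowerSeries.X : PowerSeries R) ^ i) = 1 :=
      PowerSeries.coeff_X_pow_self _
    simp only [Matrix.cons_val_zero, smul_eq_mul]
    rw [h1, mul_one]
  · intro e he
    rw [Finsupp.prod_fintype _ _ (by simp), Fin.prod_univ_two]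
    by_cases h1 : e 1 = 0
    · have h0 : e 0 ≠ i := fun h0 => he (by ext s; fin_cases s <;> simp [h0, h1])
      have h2 : coeff (Finsupp.single () i) ((PowerSeries.X : PowerSeries R) ^ e 0) = 0 := by
        change PowerSeries.coeff i _ = 0
        rw [PowerSeries.coeff_X_pow, if_neg h0.symm]
      simp only [Matrix.cons_val_zero, h1, pow_zero, mul_one, smul_eq_mul]
      rw [h2, mul_zero]
    · simp [h1]

theorem coeff_0X (K : MvPowerSeries (Fin 2) R) (i : ℕ) :
    PowerSeries.coeff i (K.subst ![0, (PowerSeries.X : PowerSeries R)]) =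
      coeff (Finsupp.single 1 i) K := by
  have hs : HasSubst ![0, (PowerSeries.X : PowerSeries R)] :=
    hs2 PowerSeries.HasSubst.zero PowerSeries.HasSubst.X'
  rw [PowerSeries.coeff, coeff_subst hs, finsum_eq_single _ (Finsupp.single 1 i)]
  · rw [Finsupp.prod_single_index (by simp)]
    have h1 : coeff (Finsupp.single () i) ((PowerSeries.X : PowerSeries R) ^ i) = 1 :=
      PowerSeries.coeff_X_pow_self _
    simp only [Matrix.cons_val_one, Matrix.cons_val_zero, smul_eq_mul]
    rw [h1, mul_one]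
  · intro e he
    rw [Finsupp.prod_fintype _ _ (by simp), Fin.prod_univ_two]
    by_cases h1 : e 0 = 0
    · have h0 : e 1 ≠ i := fun h0 => he (by ext s; fin_cases s <;> simp [h0, h1])
      have h2 : coeff (Finsupp.single () i) ((PowerSeries.X : PowerSeries R) ^ e 1) = 0 := by
        change PowerSeries.coeff i _ = 0
        rw [PowerSeries.coeff_X_pow, if_neg h0.symm]
      simp only [Matrix.cons_val_one, Matrix.cons_val_zero, h1, pow_zero, one_mul, smul_eq_mul]
      rw [h2, mul_zero]
    · simp [h1]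

theorem X1_dvd {K : MvPowerSeries (Fin 2) R}
    (h : K.subst ![(PowerSeries.X : PowerSeries R), 0] = 0) :
    (X 1 : MvPowerSeries (Fin 2) R) ∣ K := by
  rw [X_dvd_iff]
  intro d hd
  have : d = Finsupp.single 0 (d 0) := by ext s; fin_cases s <;> simp [hd]
  rw [this, ← coeff_X0, h, map_zero]

theorem X0_dvd {K : MvPowerSeries (Fin 2) R}
    (h : K.subst ![0, (PowerSeries.X : PowerSeries R)] = 0) :
    (X 0 : MvPowerSeries (Fin 2) R) ∣ K := by
  rw [X_dvd_iff]
  intro d hd
  have : d = Finsupp.single 1 (d 1) := by ext s; fin_cases s <;> simp [hd]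
  rw [this, ← coeff_0X, h, map_zero]

theorem eq_add (F : FormalGroup R) :
    ∃ K : MvPowerSeries (Fin 2) R, F.toPowerSeries = X 0 + X 1 + X 0 * X 1 * K := by
  have hx : PowerSeries.HasSubst (PowerSeries.X : PowerSeries R) := PowerSeries.HasSubst.X'
  have hz : PowerSeries.HasSubst (0 : PowerSeries R) := PowerSeries.HasSubst.zero
  obtain ⟨K1, hK1⟩ : (X 1 : MvPowerSeries (Fin 2) R) ∣ F.toPowerSeries - X 0 - X 1 := by
    apply X1_dvd
    rw [subst_sub (hs2 hx hz), subst_sub (hs2 hx hz), sX0 hx hz, sX1 hx hz, F.add_zero hx]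
    simp
  obtain ⟨K, rfl⟩ : (X 0 : MvPowerSeries (Fin 2) R) ∣ K1 := by
    apply X0_dvd
    have := congrArg (MvPowerSeries.subst ![0, (PowerSeries.X : PowerSeries R)]) hK1
    rw [subst_sub (hs2 hz hx), subst_sub (hs2 hz hx), subst_mul (hs2 hz hx), sX0 hz hx, sX1 hz hx,
      F.zero_add hx, sub_zero, sub_self] at this
    exact PowerSeries.X_mul_cancel (this.symm.trans (mul_zero _).symm)
  exact ⟨K, by linear_combination hK1⟩

end FGA

open FGA

theorem fg_map_map (F : FormalGroup R) (f : R →+* S) (g : S →+* T) :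
    (F.map f).map g = F.map (g.comp f) := by
  ext d
  simp

theorem fg_map_id (F : FormalGroup R) : F.map (RingHom.id R) = F := by
  ext d
  simp

theorem hom_X (F : FormalGroup R) : IsFGHom F F PowerSeries.X := by
  refine ⟨by simp, ?_⟩
  rw [PowerSeries.subst_X (hsF0 F), PowerSeries.subst_X (hsX 0), PowerSeries.subst_X (hsX 1),
    subst_XX]

/-- the homomorphism identity at arbitrary points. -/
theorem hom_apply {F G : FormalGroup R} {θ : PowerSeries R} (h : IsFGHom F G θ)
    {A B : MvPowerSeries σ R} (hA : PowerSeries.HasSubst A) (hB : PowerSeries.HasSubst B) :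
    θ.subst (F.toPowerSeries.subst ![A, B]) = G.toPowerSeries.subst ![θ.subst A, θ.subst B] := by
  have h0 := hs0 h.1
  have := congrArg (MvPowerSeries.subst ![A, B]) h.2
  rw [mv_ps (hs2 hA hB) (hsF0 F), mv_2 (hs2 hA hB) (hs_ps (hsX 0) h0) (hs_ps (hsX 1) h0),
    mv_ps (hs2 hA hB) (hsX 0), mv_ps (hs2 hA hB) (hsX 1), sX0 hA hB, sX1 hA hB] at this
  exact this

theorem hom_comp {F G K : FormalGroup R} {θ η : PowerSeries R} (h1 : IsFGHom F G θ)
    (h2 : IsFGHom G K η) : IsFGHom F K (η.subst θ) := by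
  have h0 := hs0 h1.1
  refine ⟨constps h1.1 h2.1, ?_⟩
  rw [comp (hsF0 F) h0, h1.2, hom_apply h2 (hs_ps (hsX 0) h0) (hs_ps (hsX 1) h0),
    comp (hsX 0) h0, comp (hsX 1) h0]

theorem hom_map {F G : FormalGroup R} {θ : PowerSeries R} (h : IsFGHom F G θ) (f : R →+* S) :
    IsFGHom (F.map f) (G.map f) (θ.map f) := by
  have h0 := hs0 h.1
  refine ⟨by rw [← PowerSeries.coeff_zero_eq_constantCoeff_apply, PowerSeries.coeff_map,
    PowerSeries.coeff_zero_eq_constantCoeff_apply, h.1, map_zero], ?_⟩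
  have := congrArg (MvPowerSeries.map f) h.2
  rw [PowerSeries.map_subst (hsF0 F), map2 (hs_ps (hsX 0) h0) (hs_ps (hsX 1) h0),
    PowerSeries.map_subst (hsX 0), PowerSeries.map_subst (hsX 1), map_X, map_X] at this
  exact this

theorem mul_const (F : FormalGroup R) (m : ℕ) : PowerSeries.constantCoeff (mulSeries F m) = 0 := by
  induction m with
  | zero => exact map_zero _
  | succ m ih => exact const2 ih (PowerSeries.constantCoeff_X) F.zero_constantCoeff

/-- linear coefficient of `F(A,B)`. -/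
theorem coeff_one_add (F : FormalGroup R) {A B : PowerSeries R} (hA : PowerSeries.constantCoeff A = 0)
    (hB : PowerSeries.constantCoeff B = 0) :
    PowerSeries.coeff 1 (F.toPowerSeries.subst ![A, B]) = PowerSeries.coeff 1 A + PowerSeries.coeff 1 B := by
  obtain ⟨K, hK⟩ := eq_add F
  have hs := hs2 (hs0 hA) (hs0 hB)
  rw [hK, subst_add hs, subst_add hs, subst_mul hs, subst_mul hs, sX0 (hs0 hA) (hs0 hB),
    sX1 (hs0 hA) (hs0 hB)]
  obtain ⟨A', rfl⟩ := PowerSeries.X_dvd_iff.2 hA
  obtain ⟨B', rfl⟩ := PowerSeries.X_dvd_iff.2 hB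
  have : ∀ Z : PowerSeries R,
      PowerSeries.coeff 1 (PowerSeries.X * A' * (PowerSeries.X * B') * Z) = 0 := by
    intro Z
    rw [show PowerSeries.X * A' * (PowerSeries.X * B') * Z = PowerSeries.X ^ 2 * (A' * B' * Z) by ring,
      PowerSeries.coeff_X_pow_mul', if_neg (by omega)]
  rw [map_add, map_add, this, add_zero]

/-- `F(X,Y) = X + Y + X Y K`.  PLAN: `F(X,0)=X`, `F(0,Y)=Y` (`Xzero_eq_X`, `zeroX_eq_X`) read on coefficients; `X_dvd_iff`. -/
theorem fg_eq_add (F : FormalGroup R) :
    ∃ K : MvPowerSeries (Fin 2) R, F.toPowerSeries = X 0 + X 1 + X 0 * X 1 * K := by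
  exact eq_add F

theorem mul_coeff_one (F : FormalGroup R) (m : ℕ) : PowerSeries.coeff 1 (mulSeries F m) = (m : R) := by
  induction m with
  | zero => simp [mulSeries]
  | succ m ih =>
    rw [mul_succ, coeff_one_add F (mul_const F m) PowerSeries.constantCoeff_X, ih]
    simp

theorem mul_map (F : FormalGroup R) (m : ℕ) (f : R →+* S) :
    (mulSeries F m).map f = mulSeries (F.map f) m := by
  induction m with
  | zero => exact map_zero _
  | succ m ih =>
    have := map2 (hs0 (mul_const F m)) PowerSeries.HasSubst.X' F.toPowerSeries f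
    rw [mul_succ, mul_succ, ← ih, ← PowerSeries.map_X f]
    exact this

theorem nsmul_val (F : FormalGroup R) (m : ℕ) (A : F.Point σ) :
    (m • A).val = (mulSeries F m).subst A.val := by
  induction m with
  | zero => rw [zero_smul]; exact (subst_zero' A.prop).symm
  | succ m ih =>
    rw [succ_nsmul, FormalGroup.add_apply, ih, mul_succ,
      ps_2 A.prop (hs0 (mul_const F m)) PowerSeries.HasSubst.X', PowerSeries.subst_X A.prop]

theorem mul_mul (F : FormalGroup R) (a b : ℕ) :
    mulSeries F (a * b) = (mulSeries F a).subst (mulSeries F b) := by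
  have h1 := nsmul_val F (a * b) (⟨PowerSeries.X, PowerSeries.HasSubst.X'⟩ : F.Point Unit)
  have h2 := nsmul_val F b (⟨PowerSeries.X, PowerSeries.HasSubst.X'⟩ : F.Point Unit)
  rw [mul_smul, nsmul_val, h2] at h1
  simp only [PowerSeries.X_subst] at h1
  exact h1.symm

theorem hom_mul_comm {F G : FormalGroup R} {θ : PowerSeries R} (h : IsFGHom F G θ) (m : ℕ) :
    θ.subst (mulSeries F m) = (mulSeries G m).subst θ := by
  induction m with
  | zero =>
    exact (PowerSeries.subst_zero_of_constantCoeff_zero h.1).trans (subst_zero' (hs0 h.1)).symm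
  | succ m ih =>
    rw [mul_succ, mul_succ, hom_apply h (hs0 (mul_const F m)) PowerSeries.HasSubst.X', ih,
      ps_2 (hs0 h.1) (hs0 (mul_const G m)) PowerSeries.HasSubst.X', PowerSeries.X_subst,
      PowerSeries.subst_X (hs0 h.1)]

theorem hom_add {F G : FormalGroup R} [G.IsComm] {θ η : PowerSeries R} (h1 : IsFGHom F G θ)
    (h2 : IsFGHom F G η) : IsFGHom F G (G.toPowerSeries.subst ![θ, η]) := by
  have a := hs0 h1.1
  have b := hs0 h2.1
  refine ⟨const2 h1.1 h2.1 G.zero_constantCoeff, ?_⟩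
  rw [ps_2 (hsF0 F) a b, h1.2, h2.2, ps_2 (hsX 0) a b, ps_2 (hsX 1) a b]
  exact congrArg Subtype.val (add_add_add_comm (G := G.Point (Fin 2))
    ⟨_, hs_ps (hsX 0) a⟩ ⟨_, hs_ps (hsX 1) a⟩ ⟨_, hs_ps (hsX 0) b⟩
    ⟨_, hs_ps (hsX 1) b⟩)

theorem hom_mul (F : FormalGroup R) [F.IsComm] (m : ℕ) : IsFGHom F F (mulSeries F m) := by
  induction m with
  | zero =>
    refine ⟨map_zero _, ?_⟩
    change PowerSeries.subst _ (0 : PowerSeries R) = F.toPowerSeries.subst
      ![PowerSeries.subst _ (0 : PowerSeries R), PowerSeries.subst _ (0 : PowerSeries R)]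
    rw [subst_zero' (hsF0 F), subst_zero' (hsX 0), subst_zero' (hsX 1),
      F.add_zero PowerSeries.HasSubst.zero]
  | succ m ih => exact hom_add ih (hom_X F)

/-- PLAN: `η = θ.substInvOfIsUnit`; apply `η` to `hom_apply h` at the points `η(X₀), η(X₁)`. -/
theorem hom_inv {F G : FormalGroup R} {θ : PowerSeries R} (h : IsFGHom F G θ)
    (hu : IsUnit (PowerSeries.coeff 1 θ)) :
    ∃ η : PowerSeries R, IsFGHom G F η ∧ θ.subst η = PowerSeries.X ∧ η.subst θ = PowerSeries.X ∧
      IsUnit (PowerSeries.coeff 1 η) := by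
  set η := θ.substInvOfIsUnit hu with hη
  have e0 : PowerSeries.constantCoeff η = 0 := θ.constantCoeff_substInvOfIsUnit hu
  have e1 : θ.subst η = PowerSeries.X := θ.subst_substInvOfIsUnit_right h.1 hu
  have e2 : η.subst θ = PowerSeries.X := θ.subst_substInvOfIsUnit_left h.1 hu
  refine ⟨η, ⟨e0, ?_⟩, e1, e2, by rw [hη, θ.coeff_one_substInvOfIsUnit hu]; exact Units.isUnit _⟩
  have a := hs_ps (hsX (R := R) (0 : Fin 2)) (hs0 e0)
  have b := hs_ps (hsX (R := R) (1 : Fin 2)) (hs0 e0)
  have := congrArg (fun Z => η.subst Z) (hom_apply h a b)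
  rw [← comp (hsF F a b) (hs0 h.1), e2, PowerSeries.subst_X (hsF F a b), ← comp (hsX 0) (hs0 e0),
    ← comp (hsX 1) (hs0 e0), e1, PowerSeries.subst_X (hsX 0), PowerSeries.subst_X (hsX 1),
    subst_XX] at this
  exact this.symm

/-- linear coefficient of a composite. -/
theorem coeff_one_comp (f g : PowerSeries R) (hg : PowerSeries.constantCoeff g = 0) :
    PowerSeries.coeff 1 (f.subst g) = PowerSeries.coeff 1 f * PowerSeries.coeff 1 g := by
  rw [PowerSeries.coeff_subst' (hs0 hg), finsum_eq_single _ 1, pow_one, smul_eq_mul]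
  intro d hd
  obtain ⟨g', rfl⟩ := PowerSeries.X_dvd_iff.2 hg
  rcases Nat.eq_zero_or_pos d with rfl | h0
  · simp [PowerSeries.coeff_one]
  · rw [mul_pow, PowerSeries.coeff_X_pow_mul', if_neg (by omega), smul_zero]

/-- cancellation: composition with an invertible series is injective. -/
theorem subst_cancel {g : PowerSeries R} (hg : PowerSeries.constantCoeff g = 0)
    (hu : IsUnit (PowerSeries.coeff 1 g)) {f f' : PowerSeries R} (h : f.subst g = (f'.subst g : PowerSeries R)) :
    f = f' := by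
  have e0 : PowerSeries.constantCoeff (g.substInvOfIsUnit hu) = 0 :=
    g.constantCoeff_substInvOfIsUnit hu
  have := congrArg (fun Z : PowerSeries R => PowerSeries.subst (g.substInvOfIsUnit hu) Z) h
  rwa [comp (hs0 e0) (hs0 hg), comp (hs0 e0) (hs0 hg), g.subst_substInvOfIsUnit_right hg hu,
    PowerSeries.X_subst, PowerSeries.X_subst] at this

/-- transport of structure: `G = g⁻¹ (F (g X, g Y))`. -/
theorem exists_conj (F : FormalGroup R) {g : PowerSeries R} (hg : PowerSeries.constantCoeff g = 0)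
    (hu : IsUnit (PowerSeries.coeff 1 g)) : ∃ G : FormalGroup R, IsFGHom G F g := by
  set η := g.substInvOfIsUnit hu with hη
  have e0 : PowerSeries.constantCoeff η = 0 := g.constantCoeff_substInvOfIsUnit hu
  have e1 : g.subst η = PowerSeries.X := g.subst_substInvOfIsUnit_right hg hu
  have e2 : η.subst g = PowerSeries.X := g.subst_substInvOfIsUnit_left hg hu
  have h0 := hs0 hg
  set P : MvPowerSeries (Fin 2) R := η.subst (F.toPowerSeries.subst
    ![g.subst (X 0 : MvPowerSeries (Fin 2) R), g.subst (X 1 : MvPowerSeries (Fin 2) R)]) with hP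
  have hP0 : constantCoeff P = 0 := constps (const2 (constps (constantCoeff_X 0) hg)
    (constps (constantCoeff_X 1) hg) F.zero_constantCoeff) e0
  have key : ∀ {υ : Type} {A B : MvPowerSeries υ R}, PowerSeries.HasSubst A → PowerSeries.HasSubst B →
      P.subst ![A, B] = η.subst (F.toPowerSeries.subst ![g.subst A, g.subst B]) := by
    intro υ A B hA hB
    rw [hP, mv_ps (hs2 hA hB) (hsF F (hs_ps (hsX 0) h0) (hs_ps (hsX 1) h0)),
      mv_2 (hs2 hA hB) (hs_ps (hsX 0) h0) (hs_ps (hsX 1) h0), mv_ps (hs2 hA hB) (hsX 0),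
      mv_ps (hs2 hA hB) (hsX 1), sX0 hA hB, sX1 hA hB]
  have ge : ∀ {υ : Type} {Z : MvPowerSeries υ R}, PowerSeries.HasSubst Z →
      g.subst (η.subst Z) = Z := by
    intro υ Z hZ
    rw [← comp hZ (hs0 e0), e1, PowerSeries.subst_X hZ]
  have hx : PowerSeries.HasSubst (PowerSeries.X : PowerSeries R) := PowerSeries.HasSubst.X'
  have hz : PowerSeries.HasSubst (0 : PowerSeries R) := PowerSeries.HasSubst.zero
  have g0 : g.subst (0 : PowerSeries R) = 0 := PowerSeries.subst_zero_of_constantCoeff_zero hg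
  refine ⟨⟨P, hP0, ?_, ?_, ?_⟩, hg, ?_⟩
  · rw [← coeff_X0, key hx hz, g0, PowerSeries.X_subst, F.add_zero h0, e2]; simp
  · rw [← coeff_0X, key hz hx, g0, PowerSeries.X_subst, F.zero_add h0, e2]; simp
  · have a := hs_ps (hsX (R := R) (0 : Fin 3)) h0
    have b := hs_ps (hsX (R := R) (1 : Fin 3)) h0
    have c := hs_ps (hsX (R := R) (2 : Fin 3)) h0
    rw [key (hsX 0) (hsX 1), key (hsX 1) (hsX 2), key (hs_ps (hsF F a b) (hs0 e0)) (hsX 2),
      key (hsX 0) (hs_ps (hsF F b c) (hs0 e0)), ge (hsF F a b), ge (hsF F b c), F.assoc' a b c]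
  · exact ge (hsF F (hs_ps (hsX 0) h0) (hs_ps (hsX 1) h0))

theorem conj_unique {F G G' : FormalGroup R} {g : PowerSeries R} (hu : IsUnit (PowerSeries.coeff 1 g))
    (h : IsFGHom G F g) (h' : IsFGHom G' F g) : G = G' := by
  obtain ⟨η, -, -, e2, -⟩ := hom_inv h hu
  have := congrArg (fun Z => η.subst Z) (h.2.trans h'.2.symm)
  rw [← comp (hsF0 G) (hs0 h.1), ← comp (hsF0 G') (hs0 h.1), e2, PowerSeries.subst_X (hsF0 G),
    PowerSeries.subst_X (hsF0 G')] at this
  exact FormalGroup.ext this

theorem conj_comm {F G : FormalGroup R} [F.IsComm] {g : PowerSeries R} (hu : IsUnit (PowerSeries.coeff 1 g))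
    (h : IsFGHom G F g) : G.IsComm := by
  obtain ⟨η, -, -, e2, -⟩ := hom_inv h hu
  have a := hs_ps (hsX (R := R) (0 : Fin 2)) (hs0 h.1)
  have b := hs_ps (hsX (R := R) (1 : Fin 2)) (hs0 h.1)
  have h1 := hom_apply h (hsX (R := R) (1 : Fin 2)) (hsX (R := R) (0 : Fin 2))
  rw [F.comm' b a, ← h.2] at h1
  have := congrArg (fun Z => η.subst Z) h1
  rw [← comp (hsF0 G) (hs0 h.1), ← comp (hsF G (hsX 1) (hsX 0)) (hs0 h.1), e2,
    PowerSeries.subst_X (hsF0 G), PowerSeries.subst_X (hsF G (hsX 1) (hsX 0))] at this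
  exact ⟨this.symm⟩

/-- a homomorphism acts additively on points. -/
theorem exists_homPt {F G : FormalGroup R} {θ : PowerSeries R} (h : IsFGHom F G θ) (σ : Type*) :
    ∃ Φ : F.Point σ →+ G.Point σ, ∀ A, (Φ A).val = θ.subst A.val := by
  exact ⟨⟨⟨fun A => ⟨θ.subst A.val, hs_ps A.prop (hs0 h.1)⟩,
    Subtype.ext (PowerSeries.subst_zero_of_constantCoeff_zero h.1)⟩,
    fun A B => Subtype.ext (hom_apply h A.prop B.prop)⟩, fun _ => rfl⟩

/-- base change acts additively on points. -/
theorem exists_mapPt (F : FormalGroup R) (f : R →+* S) (σ : Type*) :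
    ∃ Φ : F.Point σ →+ (F.map f).Point σ, ∀ A, (Φ A).val = A.val.map f := by
  have hm : ∀ A : F.Point σ, PowerSeries.HasSubst (A.val.map f) := fun A => by
    have := A.prop.map f
    unfold PowerSeries.HasSubst
    rwa [constantCoeff_map]
  exact ⟨⟨⟨fun A => ⟨A.val.map f, hm A⟩, Subtype.ext (map_zero _)⟩,
    fun A B => Subtype.ext (map2 A.prop B.prop _ f)⟩, fun _ => rfl⟩

/-- precomposition acts additively on points. -/
theorem exists_compPt (F : FormalGroup R) {a : MvPowerSeries τ R} (ha : PowerSeries.HasSubst a) :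
    ∃ Φ : F.Point Unit →+ F.Point τ, ∀ A, (Φ A).val = PowerSeries.subst a (A.val : PowerSeries R) := by
  exact ⟨⟨⟨fun A => ⟨PowerSeries.subst a (A.val : PowerSeries R), hs_ps ha A.prop⟩,
    Subtype.ext (subst_zero' ha)⟩,
    fun A B => Subtype.ext (ps_2 ha A.prop B.prop _)⟩, fun _ => rfl⟩

theorem itr_const {e : PowerSeries R} (he : PowerSeries.constantCoeff e = 0) (i : ℕ) :
    PowerSeries.constantCoeff (itr e i) = 0 := by
  induction i with
  | zero => exact PowerSeries.constantCoeff_X
  | succ i ih => exact constps he ih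

theorem itr_succ' {e : PowerSeries R} (he : PowerSeries.constantCoeff e = 0) (i : ℕ) :
    itr e (i + 1) = e.subst (itr e i) := by
  induction i with
  | zero =>
    change PowerSeries.subst e PowerSeries.X = PowerSeries.subst PowerSeries.X e
    rw [PowerSeries.subst_X (hs0 he), PowerSeries.X_subst]
  | succ i ih =>
    change PowerSeries.subst e (itr e (i + 1)) = e.subst (PowerSeries.subst e (itr e i))
    rw [ih, comp (hs0 he) (hs0 (itr_const he i))]

theorem itr_map {e : PowerSeries R} (he : PowerSeries.constantCoeff e = 0) (i : ℕ) (f : R →+* S) :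
    (itr e i).map f = itr (e.map f) i := by
  induction i with
  | zero => exact PowerSeries.map_X f
  | succ i ih =>
    have := PowerSeries.map_subst (hs0 he) (h := f) (itr e i)
    rw [ih] at this
    exact this

theorem hom_itr {F : FormalGroup R} {e : PowerSeries R} (h : IsFGHom F F e) (i : ℕ) :
    IsFGHom F F (itr e i) := by
  induction i with
  | zero => exact hom_X F
  | succ i ih => exact hom_comp h ih

end
end Crest.Agent.R227
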