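import Crest.Agent.R227.FG

/-!
# 227-HD: invariant differential, Frobenius factorisation, height ideals, rigidity.
-/
set_option autoImplicit false
open Crest.LubinTate MvPowerSeries

namespace Crest.Agent.R227
noncomputable section
variable {R S : Type*} [CommRing R] [CommRing S] {σ : Type*}

open FGA

namespace HDA

theorem X1_dvd_sub (K : MvPowerSeries (Fin 2) R) : (X 1 : MvPowerSeries (Fin 2) R) ∣
    K - PowerSeries.subst (X 0 : MvPowerSeries (Fin 2) R)
      (K.subst ![(PowerSeries.X : PowerSeries R), 0] : PowerSeries R) := by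
  have hx : PowerSeries.HasSubst (PowerSeries.X : PowerSeries R) := PowerSeries.HasSubst.X'
  have hz : PowerSeries.HasSubst (0 : PowerSeries R) := PowerSeries.HasSubst.zero
  apply X1_dvd
  rw [subst_sub (hs2 hx hz), mv_ps (hs2 hx hz) (hsX 0), sX0 hx hz, PowerSeries.X_subst, sub_self]

theorem X_cancel {s : σ} {W : MvPowerSeries σ R} (h : X s * W = 0) : W = 0 := by
  classical
  ext d
  have := congrArg (coeff (Finsupp.single s 1 + d)) h
  rwa [X, coeff_add_monomial_mul, one_mul] at this

theorem const_subst {A : MvPowerSeries σ R} (hA : constantCoeff A = 0) (f : PowerSeries R) :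
    constantCoeff (f.subst A) = PowerSeries.constantCoeff f := by
  have h := PowerSeries.HasSubst.of_constantCoeff_zero hA
  conv_lhs => rw [PowerSeries.eq_X_mul_shift_add_const f]
  rw [PowerSeries.subst_add h, PowerSeries.subst_mul h, PowerSeries.subst_X h, PowerSeries.subst_C,
    map_add, map_mul, hA, zero_mul, zero_add, constantCoeff_C]

theorem const_subst' {A : PowerSeries R} (hA : PowerSeries.constantCoeff A = 0) (f : PowerSeries R) :
    PowerSeries.constantCoeff (f.subst A : PowerSeries R) = PowerSeries.constantCoeff f :=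
  const_subst hA f

theorem lead {q : ℕ} (hq : q ≠ 0) {A A' θ : PowerSeries R} (hθ : PowerSeries.constantCoeff θ = 0)
    (hA : PowerSeries.X ^ q ∣ A) (hA' : PowerSeries.X ^ q ∣ A')
    (e : θ.subst A = (A'.subst θ : PowerSeries R)) :
    PowerSeries.coeff 1 θ * PowerSeries.coeff q A =
      PowerSeries.coeff q A' * PowerSeries.coeff 1 θ ^ q := by
  obtain ⟨A1, rfl⟩ := hA
  obtain ⟨A2, rfl⟩ := hA'
  obtain ⟨t, rfl⟩ := PowerSeries.X_dvd_iff.2 hθ
  have h0 : PowerSeries.constantCoeff (PowerSeries.X ^ q * A1) = 0 := by simp [hq]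
  rw [PowerSeries.subst_mul (hs0 h0), PowerSeries.subst_X (hs0 h0), PowerSeries.subst_mul (hs0 hθ),
    PowerSeries.subst_pow (hs0 hθ), PowerSeries.subst_X (hs0 hθ), mul_pow, mul_assoc, mul_assoc] at e
  have c : ∀ W : PowerSeries R,
      PowerSeries.coeff q (PowerSeries.X ^ q * W) = PowerSeries.constantCoeff W := by
    intro W
    have := PowerSeries.coeff_X_pow_mul W q 0
    rwa [zero_add, PowerSeries.coeff_zero_eq_constantCoeff] at this
  have := congrArg (PowerSeries.coeff q) e
  rw [c, c, map_mul, map_mul, map_pow, const_subst' h0, const_subst' hθ] at this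
  rw [c, c, PowerSeries.coeff_succ_X_mul, PowerSeries.coeff_zero_eq_constantCoeff]
  linear_combination this

theorem coeff_unit (I : Ideal R) {A : PowerSeries R} (h : ∀ d, PowerSeries.coeff d A ∈ I) :
    ∀ d : Unit →₀ ℕ, coeff d A ∈ I := by
  intro d
  rw [Finsupp.unique_single d]
  exact h _

theorem mul_one' (F : FormalGroup R) : mulSeries F 1 = PowerSeries.X :=
  F.zero_add PowerSeries.HasSubst.X'

end HDA

open HDA

theorem cF_const (F : FormalGroup R) : PowerSeries.constantCoeff (cF F) = 1 := by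
  rw [← PowerSeries.coeff_zero_eq_constantCoeff_apply, cF, PowerSeries.coeff_mk, Finsupp.single_zero,
    zero_add, F.lin_coeff_Y]

theorem cF_map (F : FormalGroup R) (f : R →+* S) : (cF F).map f = cF (F.map f) := by
  ext d
  simp [cF]

theorem om_mul (F : FormalGroup R) : om F * cF F = 1 := by
  rw [mul_comm]
  exact PowerSeries.mul_invOfUnit _ 1 (cF_const F)

theorem om_map (F : FormalGroup R) (f : R →+* S) : (om F).map f = om (F.map f) := by
  have h1 := congrArg (PowerSeries.map f) (om_mul F)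
  rw [map_mul, map_one, cF_map] at h1
  have h2 := om_mul (F.map f)
  linear_combination (om (F.map f)) * h1 - (PowerSeries.map f (om F)) * h2

/-- `F(X,Y) = X + c_F(X) Y + Y² K`.  PLAN: `X_pow_dvd_iff`, `fg_eq_add` for the coefficients with `d 1 = 0`,
`PowerSeries.coeff_subst_single`. -/
theorem taylorF (F : FormalGroup R) : ∃ K : MvPowerSeries (Fin 2) R,
    F.toPowerSeries = X 0 + (cF F).subst (X 0 : MvPowerSeries (Fin 2) R) * X 1 + X 1 ^ 2 * K := by
  classical
  have hx : PowerSeries.HasSubst (PowerSeries.X : PowerSeries R) := PowerSeries.HasSubst.X'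
  have hz : PowerSeries.HasSubst (0 : PowerSeries R) := PowerSeries.HasSubst.zero
  obtain ⟨K1, hK1⟩ : (X 1 : MvPowerSeries (Fin 2) R) ∣ F.toPowerSeries - X 0 := by
    apply X1_dvd
    rw [subst_sub (hs2 hx hz), sX0 hx hz, F.add_zero hx, sub_self]
  obtain ⟨K, hK⟩ := X1_dvd_sub K1
  have e : (K1.subst ![(PowerSeries.X : PowerSeries R), 0] : PowerSeries R) = cF F := by
    ext i
    have := congrArg (coeff (Finsupp.single 1 1 + Finsupp.single 0 i)) hK1
    rw [show (X 1 : MvPowerSeries (Fin 2) R) = monomial (Finsupp.single 1 1) 1 from rfl,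
      coeff_add_monomial_mul, one_mul, map_sub, coeff_X, if_neg, sub_zero] at this
    · rw [coeff_X0, cF, PowerSeries.coeff_mk, ← this, add_comm]
    · intro h
      have := congrArg (fun d => d 1) h
      simp at this
  rw [e] at hK
  exact ⟨K, by linear_combination hK1 + X 1 * hK⟩

/-- (HD)  `θ'(X) c_F(X) = c_G(θ X) θ'(0)`.  PLAN: expand both sides of `θ(F(X,Y)) = G(θX,θY)` modulo `Y²` with
`subst_taylor` (A = F, B = X₀) and `taylorF G` substituted at `![θ X₀, θ X₁]` (`θ X₁ = θ₁ X₁ + X₁² _`);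
cancel `X₁` and put `X₁ = 0` (or compare coefficients at `single 0 i + single 1 1`). -/
theorem hd {F G : FormalGroup R} {θ : PowerSeries R} (h : IsFGHom F G θ) :
    PowerSeries.derivative R θ * cF F = (cF G).subst θ * PowerSeries.C (PowerSeries.coeff 1 θ) := by
  have hx : PowerSeries.HasSubst (PowerSeries.X : PowerSeries R) := PowerSeries.HasSubst.X'
  have hz : PowerSeries.HasSubst (0 : PowerSeries R) := PowerSeries.HasSubst.zero
  have h0 := hs0 h.1
  have a := hs_ps (hsX (R := R) (0 : Fin 2)) h0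
  have b := hs_ps (hsX (R := R) (1 : Fin 2)) h0
  obtain ⟨K1, e1⟩ := subst_taylor θ F.toPowerSeries (X 0) F.zero_constantCoeff (constantCoeff_X 0)
  obtain ⟨K2, e2⟩ := taylorF F
  obtain ⟨K3, e3⟩ := taylorF G
  have e4 := congrArg (MvPowerSeries.subst ![θ.subst (X 0 : MvPowerSeries (Fin 2) R),
    θ.subst (X 1 : MvPowerSeries (Fin 2) R)]) e3
  rw [subst_add (hs2 a b), subst_add (hs2 a b), subst_mul (hs2 a b), subst_mul (hs2 a b),
    subst_pow (hs2 a b), mv_ps (hs2 a b) (hsX 0), sX0 a b, sX1 a b, ← h.2, e1] at e4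
  obtain ⟨t, ht⟩ : ∃ t : PowerSeries R, θ = PowerSeries.X *
      (PowerSeries.C (PowerSeries.coeff 1 θ) + PowerSeries.X * t) := by
    obtain ⟨u, rfl⟩ := PowerSeries.X_dvd_iff.2 h.1
    refine ⟨PowerSeries.mk fun p => PowerSeries.coeff (p + 1) u, ?_⟩
    rw [PowerSeries.coeff_succ_X_mul, PowerSeries.coeff_zero_eq_constantCoeff, add_comm,
      ← PowerSeries.eq_X_mul_shift_add_const]
  have e5 := congrArg (PowerSeries.subst (X 1 : MvPowerSeries (Fin 2) R)) ht
  rw [PowerSeries.subst_mul (hsX 1), PowerSeries.subst_add (hsX 1), PowerSeries.subst_mul (hsX 1),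
    PowerSeries.subst_X (hsX 1), PowerSeries.subst_C] at e5
  set c1 : MvPowerSeries (Fin 2) R := C (PowerSeries.coeff 1 θ)
  set t1 : MvPowerSeries (Fin 2) R := t.subst (X 1 : MvPowerSeries (Fin 2) R)
  set D : MvPowerSeries (Fin 2) R := (PowerSeries.derivative R θ).subst (X 0 : MvPowerSeries (Fin 2) R)
    with hD
  set c : MvPowerSeries (Fin 2) R := (cF F).subst (X 0 : MvPowerSeries (Fin 2) R) with hc
  set g : MvPowerSeries (Fin 2) R := (cF G).subst (θ.subst (X 0 : MvPowerSeries (Fin 2) R)) with hg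
  set K4 := MvPowerSeries.subst ![θ.subst (X 0 : MvPowerSeries (Fin 2) R),
    θ.subst (X 1 : MvPowerSeries (Fin 2) R)] K3
  have e6 : F.toPowerSeries - X 0 = X 1 * (c + X 1 * K2) := by linear_combination e2
  rw [e5, e6] at e4
  have e7 : X 1 * (D * c - g * c1 + X 1 * (D * K2 + (c + X 1 * K2) ^ 2 * K1 - g * t1 -
      (c1 + X 1 * t1) ^ 2 * K4)) = 0 := by linear_combination e4
  have e8 := congrArg (MvPowerSeries.subst ![(PowerSeries.X : PowerSeries R), 0]) (X_cancel e7)
  have hs := hs2 hx hz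
  rw [subst_add hs, subst_sub hs, subst_mul hs, subst_mul hs, subst_mul hs, sX1 hx hz, zero_mul,
    add_zero, hD, hc, hg, mv_ps hs (hsX 0), mv_ps hs (hsX 0), mv_ps hs a, mv_ps hs (hsX 0), sX0 hx hz,
    PowerSeries.X_subst, PowerSeries.X_subst, PowerSeries.X_subst, subst_C,
    ← coe_substAlgHom hs, map_zero] at e8
  exact sub_eq_zero.1 e8

/-- PLAN: by `hd`, `θ' = 0` (`cF F` is a unit), so `θ_d = 0` for `p ∤ d` (`d` is a unit in char `p`), `θ = g(X^p)` with
`g = mk (θ_{p i})`.  `F^p = expand p (F.map frobenius)` (`map_frobenius_expand`, `map_expand`); so both sides of the hom identity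
for `g` agree after `expand p`, which is injective (`coeff_expand_smul`). -/
theorem frob_fact (p : ℕ) [Fact p.Prime] [CharP R p] {F G : FormalGroup R} {θ : PowerSeries R}
    (h : IsFGHom F G θ) (h1 : PowerSeries.coeff 1 θ = 0) :
    ∃ g : PowerSeries R, IsFGHom (F.map (frobenius R p)) G g ∧
      θ = g.subst (PowerSeries.X ^ p : PowerSeries R) := by
  have hp : p ≠ 0 := (Fact.out : p.Prime).ne_zero
  have d0 : PowerSeries.derivative R θ = 0 := by
    have e := hd h
    rw [h1, map_zero, mul_zero] at e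
    linear_combination (om F) * e - (PowerSeries.derivative R θ) * om_mul F
  have c0 : ∀ d, ¬ p ∣ d → PowerSeries.coeff d θ = 0 := by
    intro d hd
    obtain ⟨e, rfl⟩ : ∃ e, d = e + 1 := ⟨d - 1, by
      rcases Nat.eq_zero_or_pos d with rfl | h
      · exact absurd (dvd_zero p) hd
      · omega⟩
    have := congrArg (PowerSeries.coeff e) d0
    rw [PowerSeries.coeff_derivative, map_zero] at this
    have hu : IsUnit ((e + 1 : ℕ) : R) := (CharP.isUnit_natCast_iff Fact.out).2 hd
    push_cast at hu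
    exact hu.mul_left_eq_zero.1 this
  set g : PowerSeries R := PowerSeries.mk fun i => PowerSeries.coeff (p * i) θ with hg
  have e : θ = g.subst (PowerSeries.X ^ p : PowerSeries R) := by
    ext d
    rw [PowerSeries.coeff_subst_X_pow hp]
    split_ifs with hd
    · rw [hg, PowerSeries.coeff_mk, Nat.mul_div_cancel' hd]; rfl
    · exact c0 d hd
  have g0 : PowerSeries.constantCoeff g = 0 := by
    rw [← PowerSeries.coeff_zero_eq_constantCoeff_apply, hg, PowerSeries.coeff_mk, mul_zero,
      PowerSeries.coeff_zero_eq_constantCoeff_apply, h.1]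
  refine ⟨g, ⟨g0, ?_⟩, e⟩
  have ev : ∀ {Z : MvPowerSeries (Fin 2) R}, PowerSeries.HasSubst Z → θ.subst Z = g.subst (Z ^ p) := by
    intro Z hZ
    conv_lhs => rw [e]
    rw [comp hZ (PowerSeries.HasSubst.X_pow hp), PowerSeries.subst_pow hZ, PowerSeries.subst_X hZ]
  have hs : HasSubst (fun s : Fin 2 => (X s : MvPowerSeries (Fin 2) R) ^ p) := HasSubst.X_pow hp
  have ex : ∀ Z : MvPowerSeries (Fin 2) R,
      expand p hp Z = Z.subst (fun s : Fin 2 => (X s : MvPowerSeries (Fin 2) R) ^ p) :=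
    fun Z => substAlgHom_apply hs Z
  have inj : ∀ Z W : MvPowerSeries (Fin 2) R, expand p hp Z = expand p hp W → Z = W := by
    intro Z W hZ
    ext d
    rw [← coeff_expand_smul p hp Z, hZ, coeff_expand_smul]
  apply inj
  rw [ex, ex, mv_ps hs (hsF0 _), mv_2 hs (hs_ps (hsX 0) (hs0 g0)) (hs_ps (hsX 1) (hs0 g0)),
    mv_ps hs (hsX 0), mv_ps hs (hsX 1), subst_X hs, subst_X hs, ← ex, FormalGroup.map_toPowerSeries,
    ← map_expand, map_frobenius_expand, ← ev (hsF0 F), ← ev (hsX 0), ← ev (hsX 1), h.2]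

/-- PLAN: induction on `h` with `frob_fact`: the linear coefficient of `g` is the coefficient of `X^(p^h)` in `[p]`. -/
theorem mul_fact (p : ℕ) [Fact p.Prime] [CharP R p] (F : FormalGroup R) [F.IsComm] (h : ℕ)
    (hI0 : hI p F h = ⊥) :
    ∃ g : PowerSeries R, IsFGHom (F.map (iterateFrobenius R p h)) F g ∧
      mulSeries F p = g.subst (PowerSeries.X ^ (p ^ h) : PowerSeries R) := by
  have hp : p ≠ 0 := (Fact.out : p.Prime).ne_zero
  induction h with
  | zero =>
    refine ⟨mulSeries F p, ?_, by rw [pow_zero, pow_one, PowerSeries.X_subst]⟩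
    rw [iterateFrobenius_zero, fg_map_id]
    exact hom_mul F p
  | succ h ih =>
    rw [hI, sup_eq_bot_iff, Ideal.span_singleton_eq_bot] at hI0
    obtain ⟨g, h1, h2⟩ := ih hI0.1
    have hq : p ^ h ≠ 0 := pow_ne_zero _ hp
    have c1 : PowerSeries.coeff 1 g = 0 := by
      have := hI0.2
      rwa [h2, PowerSeries.coeff_subst_X_pow hq, if_pos dvd_rfl,
        Nat.div_self (Nat.pos_of_ne_zero hq)] at this
    obtain ⟨g', h3, h4⟩ := frob_fact p h1 c1
    refine ⟨g', ?_, ?_⟩
    · rwa [add_comm h 1, iterateFrobenius_add, iterateFrobenius_one, ← fg_map_map]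
    · have hx := PowerSeries.HasSubst.X_pow (R := R) hq
      rw [h2, h4, comp hx (PowerSeries.HasSubst.X_pow hp), PowerSeries.subst_pow hx,
        PowerSeries.subst_X hx, ← pow_mul, ← pow_succ]

theorem hI_map (p : ℕ) (F : FormalGroup R) (f : R →+* S) (h : ℕ) :
    hI p (F.map f) h = (hI p F h).map f := by
  induction h with
  | zero => exact Ideal.map_bot.symm
  | succ h ih =>
    rw [hI, hI, ih, Ideal.map_sup, Ideal.map_span, Set.image_singleton, ← mul_map,
      PowerSeries.coeff_map]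

theorem hI_mono (p : ℕ) (F : FormalGroup R) : Monotone (hI p F) := by
  exact monotone_nat_of_le_succ fun h => le_sup_left

theorem p_mem_hI (p : ℕ) (F : FormalGroup R) {h : ℕ} (hh : 1 ≤ h) : (p : R) ∈ hI p F h := by
  refine hI_mono p F hh ?_
  rw [hI, pow_zero, mul_coeff_one]
  exact Ideal.mem_sup_right (Ideal.mem_span_singleton_self _)

/-- PLAN: `h = 0` is vacuous; else pass to `R ⧸ hI` (trivial ring: done; else `CharP _ p`), `hI_map`, `mul_fact`,
`PowerSeries.coeff_subst_X_pow`. -/
theorem coeff_mem_hI (p : ℕ) [Fact p.Prime] (F : FormalGroup R) [F.IsComm] (h d : ℕ) (hd : ¬ p ^ h ∣ d) :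
    PowerSeries.coeff d (mulSeries F p) ∈ hI p F h := by
  have hp : p ≠ 0 := (Fact.out : p.Prime).ne_zero
  have hh : 1 ≤ h := by
    rcases Nat.eq_zero_or_pos h with rfl | h
    · simp at hd
    · exact h
  rw [← Ideal.Quotient.eq_zero_iff_mem]
  rcases subsingleton_or_nontrivial (R ⧸ hI p F h) with hs | hs
  · exact Subsingleton.elim _ _
  have : CharP (R ⧸ hI p F h) p := (CharP.charP_iff_prime_eq_zero Fact.out).2 (by
    rw [← map_natCast (Ideal.Quotient.mk (hI p F h)), Ideal.Quotient.eq_zero_iff_mem]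
    exact p_mem_hI p F hh)
  obtain ⟨g, -, h2⟩ := mul_fact p (F.map (Ideal.Quotient.mk (hI p F h))) h
    (by rw [hI_map, Ideal.map_quotient_self])
  rw [← PowerSeries.coeff_map, mul_map, h2, PowerSeries.coeff_subst_X_pow (pow_ne_zero _ hp),
    if_neg hd]

/-- height ideals are isomorphism invariants.  PLAN: induction on `h`; mod `hI h` (`coeff_mem_hI`, `mul_const`) `[p]_F` and
`[p]_G` have order `≥ p^h` with leading coefficients `a, a'`; `θ ∘ [p]_F = [p]_G ∘ θ` gives `θ₁ a = a' θ₁^(p^h)`. -/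
theorem hI_hom (p : ℕ) [Fact p.Prime] {F G : FormalGroup R} [F.IsComm] [G.IsComm] {θ : PowerSeries R}
    (h : IsFGHom F G θ) (hu : IsUnit (PowerSeries.coeff 1 θ)) (i : ℕ) : hI p F i = hI p G i := by
  have hp : p ≠ 0 := (Fact.out : p.Prime).ne_zero
  induction i with
  | zero => rfl
  | succ i ih =>
    have dv : ∀ (H : FormalGroup R) [H.IsComm], hI p H i = hI p G i → PowerSeries.X ^ (p ^ i) ∣
        mulSeries (H.map (Ideal.Quotient.mk (hI p G i))) p := by
      intro H _ e
      rw [PowerSeries.X_pow_dvd_iff]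
      intro d hd
      rw [← mul_map, PowerSeries.coeff_map, Ideal.Quotient.eq_zero_iff_mem, ← e]
      rcases Nat.eq_zero_or_pos d with rfl | h0
      · rw [PowerSeries.coeff_zero_eq_constantCoeff_apply, mul_const]; exact zero_mem _
      · exact coeff_mem_hI p H i d fun h => absurd (Nat.le_of_dvd h0 h) (by omega)
    have hm := hom_map h (Ideal.Quotient.mk (hI p G i))
    have e := lead (pow_ne_zero i hp) hm.1 (dv F ih) (dv G rfl) (hom_mul_comm hm p)
    rw [← mul_map, ← mul_map, PowerSeries.coeff_map, PowerSeries.coeff_map, PowerSeries.coeff_map,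
      ← map_pow, ← map_mul, ← map_mul, Ideal.Quotient.eq] at e
    obtain ⟨u, hu⟩ := hu
    rw [← hu] at e
    rw [hI, hI, ih]
    set a := PowerSeries.coeff (p ^ i) (mulSeries F p)
    set b := PowerSeries.coeff (p ^ i) (mulSeries G p)
    refine le_antisymm (sup_le le_sup_left ?_) (sup_le le_sup_left ?_)
    · rw [Ideal.span_singleton_le_iff_mem]
      have : a = ↑u⁻¹ * (u * a - b * (u : R) ^ p ^ i) + ↑u⁻¹ * (u : R) ^ p ^ i * b := by
        linear_combination (-a) * u.inv_mul
      rw [this]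
      exact add_mem (Ideal.mem_sup_left (Ideal.mul_mem_left _ _ e))
        (Ideal.mem_sup_right (Ideal.mul_mem_left _ _ (Ideal.mem_span_singleton_self _)))
    · rw [Ideal.span_singleton_le_iff_mem]
      have h1 : (↑u⁻¹ : R) ^ p ^ i * (u : R) ^ p ^ i = 1 := by rw [← mul_pow, u.inv_mul, one_pow]
      have : b = -(↑u⁻¹ : R) ^ p ^ i * (u * a - b * (u : R) ^ p ^ i) +
          (↑u⁻¹ : R) ^ p ^ i * u * a := by
        linear_combination (-b) * h1
      rw [this]
      exact add_mem (Ideal.mem_sup_left (Ideal.mul_mem_left _ _ e))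
        (Ideal.mem_sup_right (Ideal.mul_mem_left _ _ (Ideal.mem_span_singleton_self _)))

/-- `[m]` improves congruences: `A ≡ B mod 𝔟 ⇒ [m]A ≡ [m]B mod m𝔟 + 𝔟²`.
PLAN: `subst_taylor` for `f = [m]`; by `hd (hom_mul F m)` and `om_mul`, `[m]' = m · _`; `coeff_mul_mem_mul`. -/
theorem impr [Finite σ] (F : FormalGroup R) [F.IsComm] (m : ℕ) (𝔟 : Ideal R) {A B : MvPowerSeries σ R}
    (hA : constantCoeff A = 0) (hB : constantCoeff B = 0) (hAB : ∀ d, coeff d (A - B) ∈ 𝔟) :
    ∀ d, coeff d ((mulSeries F m).subst A - (mulSeries F m).subst B) ∈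
      Ideal.span {(m : R)} * 𝔟 ⊔ 𝔟 ^ 2 := by
  intro d
  obtain ⟨K, e⟩ := subst_taylor (mulSeries F m) A B hA hB
  have hb := PowerSeries.HasSubst.of_constantCoeff_zero hB
  have e1 : PowerSeries.derivative R (mulSeries F m) =
      PowerSeries.C (m : R) * ((cF F).subst (mulSeries F m) * om F) := by
    have := hd (hom_mul F m)
    rw [mul_coeff_one] at this
    linear_combination (om F) * this - (PowerSeries.derivative R (mulSeries F m)) * om_mul F
  rw [e1, PowerSeries.subst_mul hb, PowerSeries.subst_C] at e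
  rw [e, add_assoc, add_sub_cancel_left, map_add]
  refine add_mem (Ideal.mem_sup_left (coeff_mul_mem_mul _ _ _ _ (fun d => ?_) hAB d))
    (Ideal.mem_sup_right ?_)
  · rw [coeff_C_mul]
    exact Ideal.mul_mem_right _ _ (Ideal.mem_span_singleton_self _)
  · have := coeff_mul_mem_mul (𝔟 * 𝔟) ⊤ _ K (coeff_mul_mem_mul _ _ _ _ hAB hAB)
      (fun _ => Submodule.mem_top) d
    rwa [Ideal.mul_top, ← pow_two, ← pow_two] at this

/-- rigidity.  PLAN: `impr` iterated: `[p^N] χ ≡ [p^N] X mod 𝔪^(N+1) = 0`, so `χ ∘ [p^N] = [p^N] ∘ χ = [p^N] = X ∘ [p^N]`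
(`hom_mul_comm`, `mul_mul`).  Composition with `[p]` is injective: if `f ∘ [p] = 0` and all `f_d ∈ 𝔪^j`, the coefficient of
`X^(q d)` of `f ∘ [p]` is `f_d` modulo `𝔪^(j+1)` (`coeff_subst_eq_sum`, `[p]^i ≡ X^(q i) mod 𝔪`); so `f_d ∈ 𝔪^j` for all `j`. -/
theorem rigid (p q : ℕ) (hq : q ≠ 0) (F : FormalGroup R) [F.IsComm] (𝔪 : Ideal R) (N : ℕ) (hN : 𝔪 ^ N = ⊥)
    (hp : (p : R) ∈ 𝔪)
    (hF : ∀ d, PowerSeries.coeff d (mulSeries F p - PowerSeries.X ^ q) ∈ 𝔪)
    {χ : PowerSeries R} (hχ : IsFGHom F F χ) (h1 : ∀ d, PowerSeries.coeff d (χ - PowerSeries.X) ∈ 𝔪) :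
    χ = PowerSeries.X := by
  have c0 := fun j => mul_const F (p ^ j)
  have h2 : ∀ j, ∀ d : Unit →₀ ℕ, coeff d ((mulSeries F (p ^ j)).subst χ -
      (mulSeries F (p ^ j)).subst (PowerSeries.X : PowerSeries R)) ∈ 𝔪 ^ (j + 1) := by
    intro j
    induction j with
    | zero =>
      rw [pow_zero, mul_one', PowerSeries.subst_X (hs0 hχ.1), PowerSeries.X_subst, zero_add, pow_one]
      exact coeff_unit _ h1
    | succ j ih =>
      intro d
      rw [pow_succ' p j, mul_mul, comp (hs0 hχ.1) (hs0 (c0 j)), comp PowerSeries.HasSubst.X' (hs0 (c0 j))]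
      have := impr F p _ (constps hχ.1 (c0 j)) (constps PowerSeries.constantCoeff_X (c0 j)) ih d
      refine (sup_le ?_ ?_ : _ ≤ 𝔪 ^ (j + 1 + 1)) this
      · rw [pow_succ' 𝔪 (j + 1)]
        exact Ideal.mul_mono_left ((Ideal.span_singleton_le_iff_mem _).2 hp)
      · rw [← pow_mul]
        exact Ideal.pow_le_pow_right (by omega)
  have h3 : (mulSeries F (p ^ N)).subst χ = mulSeries F (p ^ N) := by
    have : (mulSeries F (p ^ N)).subst χ -
        (mulSeries F (p ^ N)).subst (PowerSeries.X : PowerSeries R) = 0 := by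
      ext d
      have := h2 N (Finsupp.single () d)
      rw [pow_succ, hN, Ideal.bot_mul, Ideal.mem_bot] at this
      exact this
    rwa [PowerSeries.X_subst, sub_eq_zero] at this
  have inj1 : ∀ f : PowerSeries R, f.subst (mulSeries F p) = 0 → f = 0 := by
    intro f hf
    have key : ∀ j d, PowerSeries.coeff d f ∈ 𝔪 ^ j := by
      intro j
      induction j with
      | zero => intro d; simp
      | succ j ih =>
        intro d
        have a1 := coeff_subst_eq_sum f (mulSeries F p) (mul_const F p) (q * d + 1) (q * d) (by omega)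
        have a2 := coeff_subst_eq_sum f (PowerSeries.X ^ q) (by simp [hq]) (q * d + 1) (q * d) (by omega)
        rw [hf, map_zero] at a1
        rw [PowerSeries.coeff_subst_X_pow hq, if_pos (dvd_mul_right _ _),
          Nat.mul_div_cancel_left _ (Nat.pos_of_ne_zero hq)] at a2
        have a3 : PowerSeries.coeff d f = -∑ i ∈ Finset.range (q * d + 1), PowerSeries.coeff i f *
            PowerSeries.coeff (q * d) (mulSeries F p ^ i - (PowerSeries.X ^ q) ^ i) := by
          simp only [map_sub, mul_sub, Finset.sum_sub_distrib]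
          rw [← a1, ← a2]; simp
        rw [a3, pow_succ]
        refine neg_mem (Ideal.sum_mem _ fun i _ => Ideal.mul_mem_mul (ih i) ?_)
        obtain ⟨W, hW⟩ := sub_dvd_pow_sub_pow (mulSeries F p) (PowerSeries.X ^ q) i
        rw [hW, PowerSeries.coeff_mul]
        exact Ideal.sum_mem _ fun x _ => Ideal.mul_mem_right _ _ (hF _)
    ext d
    have := key N d
    rwa [hN, Ideal.mem_bot] at this
  have inj : ∀ j, ∀ f : PowerSeries R, f.subst (mulSeries F (p ^ j)) = 0 → f = 0 := by
    intro j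
    induction j with
    | zero => intro f hf; rwa [pow_zero, mul_one', PowerSeries.X_subst] at hf
    | succ j ih =>
      intro f hf
      rw [pow_succ, mul_mul, ← comp (hs0 (mul_const F p)) (hs0 (c0 j))] at hf
      exact ih f (inj1 _ hf)
  refine sub_eq_zero.1 (inj N _ ?_)
  rw [PowerSeries.subst_sub (hs0 (c0 N)), hom_mul_comm hχ, h3, PowerSeries.subst_X (hs0 (c0 N)),
    sub_self]

/-- `[p^i] ∘ η → 0` coefficientwise.  PLAN: `[p](X) = X π(X)` with `π(0) = p`, so `η_{i+1} = η_i π(η_i)` and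
`η_i ∈ (p, X)^i`; elements of `(p,X)^i` have `d`-th coefficient in `(p^(i-d))`. -/
theorem coeff_mul_pow_mem (p : ℕ) (F : FormalGroup R) {η : PowerSeries R}
    (hη : PowerSeries.constantCoeff η = 0) (i d : ℕ) :
    (p : R) ^ (i - d) ∣ PowerSeries.coeff d ((mulSeries F (p ^ i)).subst η) := by
  obtain ⟨π, hπ⟩ := PowerSeries.X_dvd_iff.2 (mul_const F p)
  have hπ0 : PowerSeries.constantCoeff π = p := by
    rw [← mul_coeff_one F p, hπ, PowerSeries.coeff_succ_X_mul, PowerSeries.coeff_zero_eq_constantCoeff]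
  induction i generalizing d with
  | zero => simp
  | succ i ih =>
    have c0 : PowerSeries.constantCoeff ((mulSeries F (p ^ i)).subst η : PowerSeries R) = 0 :=
      constps hη (mul_const F _)
    rw [pow_succ' p i, mul_mul, comp (hs0 hη) (hs0 (mul_const F _)), hπ, PowerSeries.subst_mul (hs0 c0),
      PowerSeries.subst_X (hs0 c0), PowerSeries.coeff_mul]
    refine Finset.dvd_sum fun x hx => ?_
    have hx' : x.1 + x.2 = d := by simpa using hx
    rcases Nat.eq_zero_or_pos x.2 with h0 | h0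
    · rw [h0, PowerSeries.coeff_zero_eq_constantCoeff_apply, const_subst' c0, hπ0]
      refine (pow_dvd_pow _ (show i + 1 - d ≤ i - x.1 + 1 by omega)).trans ?_
      rw [pow_succ]
      exact mul_dvd_mul_right (ih _) _
    · exact ((pow_dvd_pow _ (show i + 1 - d ≤ i - x.1 by omega)).trans (ih _)).mul_right _

end
end Crest.Agent.R227
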