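import Crest.Agent.R227.Log

/-!
# 227-HONDA: Honda's functional-equation lemma over `W = W(𝔽_q)`, `K = Frac W`.
-/
set_option autoImplicit false
open Crest.LubinTate MvPowerSeries

namespace Crest.Agent.R227
noncomputable section
variable (p : ℕ) [Fact p.Prime] (n : ℕ)

abbrev KK : Type := FractionRing (WW p n)

instance : CharZero (KK p n) := inferInstance

/-- `W → K`. -/
abbrev iK : WW p n →+* KK p n := algebraMap (WW p n) (KK p n)

/-- `l₀(X) = ∑_l X^(q^l) / p^l`. -/
def l0 : PowerSeries (KK p n) :=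
  PowerSeries.mk fun d => if d = (p ^ n) ^ Nat.log (p ^ n) d then ((p : KK p n) ^ Nat.log (p ^ n) d)⁻¹ else 0

/-- all coefficients in `p W`. -/
def PInt {σ : Type*} (f : MvPowerSeries σ (KK p n)) : Prop :=
  ∃ g : MvPowerSeries σ (WW p n), f = map (iK p n) ((p : MvPowerSeries σ (WW p n)) * g)

variable {p n} {σ : Type*}

namespace Honda

theorem one_lt_q (hn : 1 ≤ n) : 1 < p ^ n :=
  Nat.one_lt_pow (by omega) (Fact.out : p.Prime).one_lt

theorem pK_ne : (p : KK p n) ≠ 0 := Nat.cast_ne_zero.2 (Fact.out : p.Prime).ne_zero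

theorem iK_inj : Function.Injective (iK p n) := IsFractionRing.injective _ _

theorem l0_pow (hn : 1 ≤ n) (l : ℕ) :
    PowerSeries.coeff ((p ^ n) ^ l) (l0 p n) = ((p : KK p n) ^ l)⁻¹ := by
  rw [l0, PowerSeries.coeff_mk, Nat.log_pow (one_lt_q hn), if_pos rfl]

theorem l0_ne {d : ℕ} (h : ∀ l, d ≠ (p ^ n) ^ l) : PowerSeries.coeff d (l0 p n) = 0 := by
  rw [l0, PowerSeries.coeff_mk, if_neg (h _)]

theorem coeff_nat_mul {R : Type*} [CommRing R] (m : ℕ) (f : MvPowerSeries σ R) (d : σ →₀ ℕ) :
    coeff d ((m : MvPowerSeries σ R) * f) = m * coeff d f := by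
  rw [← nsmul_eq_mul, map_nsmul, nsmul_eq_mul]

theorem coeff_nat_mul' {R : Type*} [CommRing R] (m : ℕ) (f : PowerSeries R) (d : ℕ) :
    PowerSeries.coeff d ((m : PowerSeries R) * f) = m * PowerSeries.coeff d f := by
  rw [← nsmul_eq_mul, map_nsmul, nsmul_eq_mul]

theorem dvd_iff_coeff {R : Type*} [CommRing R] (m : ℕ) (f : MvPowerSeries σ R) :
    (m : MvPowerSeries σ R) ∣ f ↔ ∀ d, (m : R) ∣ coeff d f := by
  constructor
  · rintro ⟨g, rfl⟩ d
    exact ⟨coeff d g, coeff_nat_mul m g d⟩
  · intro h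
    choose g hg using h
    refine ⟨g, ?_⟩
    ext d
    rw [coeff_nat_mul, hg d]
    rfl

theorem pint_iff (f : MvPowerSeries σ (KK p n)) :
    PInt p n f ↔ ∀ d, ∃ w : WW p n, coeff d f = p * iK p n w := by
  constructor
  · rintro ⟨g, rfl⟩ d
    exact ⟨coeff d g, by rw [coeff_map, coeff_nat_mul, map_mul, map_natCast]⟩
  · intro h
    choose g hg using h
    refine ⟨g, ?_⟩
    ext d
    rw [coeff_map, coeff_nat_mul, map_mul, map_natCast, hg d]
    rfl

theorem pint_sub {f g : MvPowerSeries σ (KK p n)} (hf : PInt p n f) (hg : PInt p n g) :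
    PInt p n (f - g) := by
  obtain ⟨a, rfl⟩ := hf
  obtain ⟨b, rfl⟩ := hg
  exact ⟨a - b, by rw [← map_sub, mul_sub]⟩

theorem pint_add {f g : MvPowerSeries σ (KK p n)} (hf : PInt p n f) (hg : PInt p n g) :
    PInt p n (f + g) := by
  obtain ⟨a, rfl⟩ := hf
  obtain ⟨b, rfl⟩ := hg
  exact ⟨a + b, by rw [← map_add, mul_add]⟩

theorem const_map {R S : Type*} [CommRing R] [CommRing S] (φ : R →+* S) {A : MvPowerSeries σ R}
    (hA : constantCoeff A = 0) : constantCoeff (A.map φ) = 0 := by
  rw [constantCoeff_map, hA, map_zero]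

theorem coeff_subst_sub {R : Type*} [CommRing R] (f : PowerSeries R) {A B : MvPowerSeries σ R}
    (hA : constantCoeff A = 0) (hB : constantCoeff B = 0) (d : σ →₀ ℕ) :
    coeff d (f.subst A - f.subst B) =
      ∑ᶠ i : ℕ, PowerSeries.coeff i f * coeff d (A ^ i - B ^ i) := by
  have ha := PowerSeries.HasSubst.of_constantCoeff_zero hA
  have hb := PowerSeries.HasSubst.of_constantCoeff_zero hB
  rw [map_sub, PowerSeries.coeff_subst ha, PowerSeries.coeff_subst hb,
    ← finsum_sub_distrib (PowerSeries.coeff_subst_finite ha f d)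
      (PowerSeries.coeff_subst_finite hb f d)]
  refine finsum_congr fun i => ?_
  rw [map_sub, mul_sub, smul_eq_mul, smul_eq_mul]

/-- first-order behaviour of a series with linear coefficient `1`. -/
theorem coeff_subst_sub_eq {R : Type*} [CommRing R] (f : PowerSeries R)
    (hf : PowerSeries.coeff 1 f = 1) {A B : MvPowerSeries σ R}
    (hA : constantCoeff A = 0) (hB : constantCoeff B = 0) (D : ℕ)
    (hD : ∀ d : σ →₀ ℕ, d.degree < D → coeff d (A - B) = 0) (d : σ →₀ ℕ) (hd : d.degree ≤ D) :
    coeff d (f.subst A - f.subst B) = coeff d (A - B) := by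
  rw [coeff_subst_sub f hA hB, finsum_eq_single _ 1, hf, one_mul, pow_one, pow_one]
  intro i hi
  rcases Nat.eq_zero_or_pos i with rfl | hi0
  · simp
  · rw [← geom_sum₂_mul]
    have h1 : 1 ≤ (∑ j ∈ Finset.range i, A ^ j * B ^ (i - 1 - j)).order := by
      rw [one_le_order_iff_constCoeff_eq_zero, map_sum]
      refine Finset.sum_eq_zero fun j _ => ?_
      rw [map_mul, map_pow, map_pow, hA, hB]
      rcases Nat.eq_zero_or_pos j with rfl | hj
      · rw [zero_pow (show i - 1 - 0 ≠ 0 by omega), mul_zero]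
      · rw [zero_pow hj.ne', zero_mul]
    have h2 : (D : ℕ∞) ≤ (A - B).order := nat_le_order hD
    have h3 := (add_le_add h1 h2).trans le_order_mul
    rw [coeff_of_lt_order (lt_of_lt_of_le _ h3), mul_zero]
    have : d.degree < 1 + D := by omega
    exact_mod_cast this

theorem pow_q (hn : 1 ≤ n) (c : GaloisField p n) : c ^ p ^ n = c := by
  have := Fintype.ofFinite (GaloisField p n)
  have h := FiniteField.pow_card c
  rwa [← Nat.card_eq_fintype_card, GaloisField.card p n (by omega)] at h

theorem dvd_pow_sub_expand (hn : 1 ≤ n) (ψ : MvPowerSeries σ (WW p n)) :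
    (p : MvPowerSeries σ (WW p n)) ∣
      ψ ^ (p ^ n) - expand (p ^ n) (pow_ne_zero n (Fact.out : p.Prime).ne_zero) ψ := by
  rw [dvd_iff_coeff]
  intro d
  rw [← Ideal.mem_span_singleton, WittVector.mem_span_p_iff_coeff_zero_eq_zero,
    ← WittVector.constantCoeff_apply, ← coeff_map, map_sub, map_pow, map_expand,
    ← map_iterateFrobenius_expand p (Fact.out : p.Prime).ne_zero, map_sub, coeff_map,
    iterateFrobenius_def, pow_q hn, sub_self]

end Honda

open Honda

theorem l0_const (hn : 1 ≤ n) : PowerSeries.constantCoeff (l0 p n) = 0 := by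
  rw [← PowerSeries.coeff_zero_eq_constantCoeff_apply]
  exact l0_ne fun l => (pow_pos (lt_trans one_pos (one_lt_q hn)) l).ne

theorem l0_one (hn : 1 ≤ n) : PowerSeries.coeff 1 (l0 p n) = 1 := by
  simpa using l0_pow (p := p) hn 0

/-- `p l₀(X) = p X + l₀(X^q)`. -/
theorem l0_eq (hn : 1 ≤ n) : (p : PowerSeries (KK p n)) * l0 p n =
    (p : PowerSeries (KK p n)) * PowerSeries.X + (l0 p n).subst (PowerSeries.X ^ (p ^ n) : PowerSeries (KK p n)) := by
  have hq := one_lt_q (p := p) hn
  ext d
  rw [map_add, coeff_nat_mul', coeff_nat_mul', PowerSeries.coeff_subst_X_pow (by omega),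
    PowerSeries.coeff_X]
  by_cases h : ∃ l, d = (p ^ n) ^ l
  · obtain ⟨l, rfl⟩ := h
    rw [l0_pow hn]
    cases l with
    | zero =>
      rw [pow_zero (p ^ n), if_pos rfl, if_neg (by rw [Nat.dvd_one]; omega)]
      simp
    | succ l =>
      rw [if_neg (Nat.one_lt_pow (by omega) hq).ne', if_pos (dvd_pow_self _ (by omega)),
        pow_succ (p ^ n), Nat.mul_div_cancel _ (by omega), l0_pow hn]
      have := pK_ne (p := p) (n := n)
      simp only [Algebra.algebraMap_self, RingHom.id_apply]
      field_simp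
      ring
  · push Not at h
    rw [l0_ne h, if_neg (by simpa using h 0)]
    split_ifs with hd
    · rw [l0_ne]
      · simp
      · intro l hl
        apply h (l + 1)
        rw [pow_succ, ← hl, Nat.div_mul_cancel hd]
    · simp

/-- `l₀'` is integral (`q^l / p^l ∈ ℤ`). -/
theorem l0_deriv (hn : 1 ≤ n) :
    ∃ ω : PowerSeries (WW p n), PowerSeries.derivative (KK p n) (l0 p n) = ω.map (iK p n) := by
  have key : ∀ d, ∃ w : WW p n,
      PowerSeries.coeff d (PowerSeries.derivative (KK p n) (l0 p n)) = iK p n w := by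
    intro d
    rw [PowerSeries.coeff_derivative]
    by_cases h : ∃ l, d + 1 = (p ^ n) ^ l
    · obtain ⟨l, hl⟩ := h
      refine ⟨(p : WW p n) ^ ((n - 1) * l), ?_⟩
      have h2 : (d : KK p n) + 1 = (p : KK p n) ^ l * (p : KK p n) ^ ((n - 1) * l) := by
        have : ((d + 1 : ℕ) : KK p n) = (((p ^ n) ^ l : ℕ) : KK p n) := by rw [hl]
        push_cast at this
        rw [this, ← pow_mul, ← pow_add]
        congr 1
        obtain ⟨m, rfl⟩ := Nat.exists_eq_add_of_le hn
        rw [Nat.add_sub_cancel_left]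
        ring
      rw [hl, l0_pow hn, h2, map_pow, map_natCast, ← mul_assoc,
        inv_mul_cancel₀ (pow_ne_zero _ pK_ne), one_mul]
    · push Not at h
      exact ⟨0, by rw [l0_ne h, zero_mul, map_zero]⟩
  choose w hw using key
  refine ⟨PowerSeries.mk w, ?_⟩
  ext d
  rw [hw, PowerSeries.coeff_map, PowerSeries.coeff_mk]

/-- `p^L l₀(Y) ≡ Λ_L(Y) mod Y^(q^(L+1))`. -/
theorem l0_trunc (hn : 1 ≤ n) (L : ℕ) : (PowerSeries.X : PowerSeries (KK p n)) ^ ((p ^ n) ^ (L + 1)) ∣
    (p : PowerSeries (KK p n)) ^ L * l0 p n - Lam p n L PowerSeries.X := by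
  have hq := one_lt_q (p := p) hn
  rw [PowerSeries.X_pow_dvd_iff]
  intro m hm
  rw [map_sub, ← Nat.cast_pow, coeff_nat_mul', Lam, map_sum, sub_eq_zero]
  have e : ∀ l, PowerSeries.coeff m ((p : PowerSeries (KK p n)) ^ (L - l) *
      PowerSeries.X ^ (p ^ n) ^ l) = if m = (p ^ n) ^ l then (p : KK p n) ^ (L - l) else 0 := by
    intro l
    rw [← Nat.cast_pow, coeff_nat_mul', PowerSeries.coeff_X_pow]
    split_ifs <;> simp
  simp only [e]
  by_cases h : ∃ l, m = (p ^ n) ^ l
  · obtain ⟨l, rfl⟩ := h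
    have hl : l < L + 1 := (Nat.pow_lt_pow_iff_right hq).1 hm
    rw [Finset.sum_eq_single l, if_pos rfl, l0_pow hn]
    · rw [pow_sub₀ _ pK_ne (by omega)]
      push_cast
      rfl
    · intro l' _ hl'
      rw [if_neg fun h => hl' (Nat.pow_right_injective hq h).symm]
    · intro h
      exact absurd (Finset.mem_range.2 hl) h
  · push Not at h
    rw [l0_ne h, mul_zero]
    exact (Finset.sum_eq_zero fun l _ => if_neg (h l)).symm

/-- (LOGC) PLAN: coefficientwise (`PowerSeries.coeff_subst`, a finsum): `h_d = ω_{d-1}/d` and `A^d - B^d ∈ p d · W⟦X⟧` up to a unit: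
`p ∣ A - B ⇒ p^(e+1) ∣ A^(p^e) - B^(p^e)` (`dvd_sub_pow_of_dvd_sub`), `d = p^e d'`, `d'` a unit of `W`. -/
theorem logc [Finite σ] (h : PowerSeries (KK p n)) (ω : PowerSeries (WW p n))
    (hω : PowerSeries.derivative (KK p n) h = ω.map (iK p n)) {A B : MvPowerSeries σ (WW p n)}
    (hA : constantCoeff A = 0) (hB : constantCoeff B = 0) (hAB : (p : MvPowerSeries σ (WW p n)) ∣ A - B) :
    PInt p n (h.subst (A.map (iK p n)) - h.subst (B.map (iK p n))) := by
  rw [pint_iff]
  intro d
  rw [coeff_subst_sub h (const_map _ hA) (const_map _ hB)]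
  refine finsum_induction (fun x => ∃ w : WW p n, x = p * iK p n w) ⟨0, by simp⟩ ?_ fun i => ?_
  · rintro _ _ ⟨a, rfl⟩ ⟨b, rfl⟩
    exact ⟨a + b, by rw [map_add, mul_add]⟩
  · cases i with
    | zero => exact ⟨0, by simp⟩
    | succ i =>
      obtain ⟨e, m, hm, hi⟩ := Nat.exists_eq_pow_mul_and_not_dvd (Nat.succ_ne_zero i) p
        (Fact.out : p.Prime).ne_one
      have hu : IsUnit (m : WW p n) := by
        apply WittVector.isUnit_of_coeff_zero_ne_zero
        rw [← WittVector.constantCoeff_apply, map_natCast, Ne, CharP.cast_eq_zero_iff _ p]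
        exact hm
      have h1 : ((p ^ (e + 1) : ℕ) : MvPowerSeries σ (WW p n)) ∣ A ^ (i + 1) - B ^ (i + 1) := by
        have hi' : i + 1 = p ^ e * m := hi
        rw [hi', pow_mul, pow_mul, Nat.cast_pow]
        exact (dvd_sub_pow_of_dvd_sub hAB e).trans (sub_dvd_pow_sub_pow _ _ _)
      obtain ⟨g, hg⟩ := (dvd_iff_coeff _ _).1 h1 d
      obtain ⟨u, hu⟩ := hu.exists_right_inv
      have h2 := congrArg (PowerSeries.coeff i) hω
      rw [PowerSeries.coeff_derivative, PowerSeries.coeff_map] at h2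
      refine ⟨PowerSeries.coeff i ω * u * g, ?_⟩
      have h3 : (i : KK p n) + 1 = (p : KK p n) ^ e * m := by
        have : ((i + 1 : ℕ) : KK p n) = ((p ^ e * m : ℕ) : KK p n) := congrArg _ hi
        push_cast at this
        exact this
      have h4 : (m : KK p n) * iK p n u = 1 := by
        rw [← map_natCast (iK p n), ← map_mul, hu, map_one]
      rw [← map_pow, ← map_pow, ← map_sub, coeff_map, hg, map_mul, map_mul, map_mul, ← h2, h3,
        map_natCast]
      push_cast
      linear_combination (-(PowerSeries.coeff (i + 1) h) * (p : KK p n) ^ (e + 1) * iK p n g) * h4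

/-- `l₀` is injective (it has a compositional inverse `substInv`). -/
theorem l0_inj (hn : 1 ≤ n) {A B : MvPowerSeries σ (KK p n)} (hA : constantCoeff A = 0) (hB : constantCoeff B = 0)
    (h : (l0 p n).subst A = (l0 p n).subst B) : A = B := by
  have hu : IsUnit (PowerSeries.coeff 1 (l0 p n)) := by rw [l0_one hn]; exact isUnit_one
  have hl := PowerSeries.HasSubst.of_constantCoeff_zero' (l0_const (p := p) hn)
  have key : ∀ {Z : MvPowerSeries σ (KK p n)}, constantCoeff Z = 0 →
      ((l0 p n).substInvOfIsUnit hu).subst ((l0 p n).subst Z) = Z := by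
    intro Z hZ
    have hz := PowerSeries.HasSubst.of_constantCoeff_zero hZ
    rw [← PowerSeries.subst_comp_subst_apply hl hz,
      PowerSeries.subst_substInvOfIsUnit_left _ (l0_const hn) hu, PowerSeries.subst_X hz]
  rw [← key hA, h, key hB]

/-- PLAN: induction on `D`: `A - B ∈ (p) + (X)^D`.  If `A - B = p β + e` with `e ∈ (X)^D`, `D ≥ 1`, then `l₀(A) ≡ l₀(B+e) mod p`
(`logc`) and `l₀(B+e) - l₀(B) ≡ e mod (X)^(D+1)` (`subst_taylor` over `K`, `l₀'(B) ≡ 1 mod (X)`), so the degree `D` part of `e` is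
divisible by `p`. -/
theorem l0_inj_mod [Finite σ] (hn : 1 ≤ n) {A B : MvPowerSeries σ (WW p n)} (hA : constantCoeff A = 0)
    (hB : constantCoeff B = 0)
    (h : PInt p n ((l0 p n).subst (A.map (iK p n)) - (l0 p n).subst (B.map (iK p n)))) :
    (p : MvPowerSeries σ (WW p n)) ∣ A - B := by
  obtain ⟨ω, hω⟩ := l0_deriv (p := p) hn
  have key : ∀ D : ℕ, ∀ d : σ →₀ ℕ, d.degree < D → (p : WW p n) ∣ coeff d (A - B) := by
    intro D
    induction D with
    | zero => intro d hd; omega
    | succ D ih =>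
      intro d hd
      by_cases hdD : d.degree < D
      · exact ih d hdD
      let e : MvPowerSeries σ (WW p n) := fun d => if d.degree < D then 0 else coeff d (A - B)
      have he : ∀ d, coeff d e = if d.degree < D then 0 else coeff d (A - B) := fun _ => rfl
      have he0 : constantCoeff (B + e) = 0 := by
        rw [map_add, hB, zero_add, ← coeff_zero_eq_constantCoeff_apply, he]
        split_ifs
        · rfl
        · rw [coeff_zero_eq_constantCoeff_apply, map_sub, hA, hB, sub_zero]
      have h1 : (p : MvPowerSeries σ (WW p n)) ∣ (B + e) - A := by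
        rw [dvd_iff_coeff]
        intro d'
        rw [show B + e - A = e - (A - B) by ring, map_sub, he]
        split_ifs with h'
        · rw [zero_sub, dvd_neg]
          exact ih d' h'
        · simp
      have h2 := pint_add (logc (l0 p n) ω hω he0 hA h1) h
      rw [sub_add_sub_cancel] at h2
      obtain ⟨w, hw⟩ := (pint_iff _).1 h2 d
      rw [coeff_subst_sub_eq _ (l0_one hn) (const_map _ he0) (const_map _ hB) D
        (fun d' hd' => by rw [← map_sub, add_sub_cancel_left, coeff_map, he, if_pos hd', map_zero])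
        d (by omega), ← map_sub, add_sub_cancel_left, coeff_map, he, if_neg hdD,
        ← map_natCast (iK p n), ← map_mul] at hw
      exact ⟨w, iK_inj hw⟩
  rw [dvd_iff_coeff]
  exact fun d => key _ d (Nat.lt_succ_self _)

/-- Honda's lemma.  PLAN: `ψ_K = l₀⁻¹ ∘ h` over `K`; show by induction on the degree `d` that its coefficients of degree `≤ d` are
integral.  If `ψ₀` is the integral truncation in degrees `< d`, `f = h - l₀(ψ₀)` has order `≥ d` with the same degree-`d` part as `ψ_K`
(`subst_taylor`).  `l₀(ψ₀)` satisfies the same condition as `h`: `p l₀(ψ₀) - l₀(ψ₀)(X^q) = p ψ₀ + l₀(ψ₀^q) - l₀(ψ₀(X^q))` (`l0_eq`), and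
`ψ₀^q ≡ ψ₀(X^q) mod p` (`map_iterateFrobenius_expand` over `k`, `c^q = c` in `k`), `logc`.  So `p f - f(X^q) ∈ p W⟦X⟧`, and
in degree `d ≥ 1` `f(X^q)` has no terms: the degree-`d` coefficients of `f` are integral. -/
theorem honda [Finite σ] (hn : 1 ≤ n) (h : MvPowerSeries σ (KK p n)) (h0 : constantCoeff h = 0)
    (hh : PInt p n ((p : MvPowerSeries σ (KK p n)) * h -
      expand (p ^ n) (pow_ne_zero n (Fact.out : p.Prime).ne_zero) h)) :
    ∃ ψ : MvPowerSeries σ (WW p n), constantCoeff ψ = 0 ∧ (l0 p n).subst (ψ.map (iK p n)) = h := by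
  classical
  have hq := one_lt_q (p := p) hn
  obtain ⟨ω, hω⟩ := l0_deriv (p := p) hn
  have hu : IsUnit (PowerSeries.coeff 1 (l0 p n)) := by rw [l0_one hn]; exact isUnit_one
  have hsh := PowerSeries.HasSubst.of_constantCoeff_zero h0
  obtain ⟨ψK, hψ0, hψ⟩ : ∃ ψK : MvPowerSeries σ (KK p n), constantCoeff ψK = 0 ∧
      (l0 p n).subst ψK = h := by
    refine ⟨((l0 p n).substInvOfIsUnit hu).subst h,
      PowerSeries.constantCoeff_subst_eq_zero h0 _ (by simp), ?_⟩
    rw [← PowerSeries.subst_comp_subst_apply (PowerSeries.HasSubst.substInvOfIsUnit _ hu) hsh,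
      PowerSeries.subst_substInvOfIsUnit_right _ (l0_const hn) hu, PowerSeries.subst_X hsh]
  have key : ∀ D : ℕ, ∀ d : σ →₀ ℕ, d.degree < D → ∃ w, coeff d ψK = iK p n w := by
    intro D
    induction D with
    | zero => intro d hd; omega
    | succ D ih =>
      intro d hd
      by_cases hdD : d.degree < D
      · exact ih d hdD
      by_cases hd0 : d = 0
      · exact ⟨0, by rw [hd0, coeff_zero_eq_constantCoeff_apply, hψ0, map_zero]⟩
      have ih' : ∀ d' : σ →₀ ℕ, ∃ w, (if d'.degree < D then coeff d' ψK else 0) = iK p n w := by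
        intro d'
        split_ifs with h'
        · exact ih d' h'
        · exact ⟨0, by simp⟩
      choose w hw using ih'
      let ψ₀ : MvPowerSeries σ (WW p n) := w
      have hc : ∀ d', coeff d' (ψ₀.map (iK p n)) = if d'.degree < D then coeff d' ψK else 0 :=
        fun d' => by rw [coeff_map, hw]; rfl
      have hψ₀ : constantCoeff ψ₀ = 0 := by
        apply iK_inj
        rw [← constantCoeff_map, ← coeff_zero_eq_constantCoeff_apply, hc, map_zero (iK p n)]
        split_ifs
        · rw [coeff_zero_eq_constantCoeff_apply, hψ0]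
        · rfl
      have hm0 := const_map (iK p n) hψ₀
      have hsm := PowerSeries.HasSubst.of_constantCoeff_zero hm0
      have hord : ∀ d' : σ →₀ ℕ, d'.degree < D → coeff d' (ψK - ψ₀.map (iK p n)) = 0 :=
        fun d' hd' => by rw [map_sub, hc, if_pos hd', sub_self]
      have hf := coeff_subst_sub_eq _ (l0_one hn) hψ0 hm0 D hord
      rw [hψ] at hf
      have h1 : PInt p n ((p : MvPowerSeries σ (KK p n)) * (l0 p n).subst (ψ₀.map (iK p n)) -
          expand (p ^ n) (pow_ne_zero n (Fact.out : p.Prime).ne_zero)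
            ((l0 p n).subst (ψ₀.map (iK p n)))) := by
        have e1 := congrArg (PowerSeries.substAlgHom (R := KK p n) hsm) (l0_eq (p := p) hn)
        rw [map_add, map_mul, map_mul, map_natCast, PowerSeries.substAlgHom_X,
          PowerSeries.coe_substAlgHom,
          PowerSeries.subst_comp_subst_apply (PowerSeries.HasSubst.X_pow (by omega)) hsm,
          PowerSeries.subst_pow hsm, PowerSeries.subst_X hsm] at e1
        rw [e1, PowerSeries.expand_subst _ _ hsm, ← map_expand, ← map_pow, add_sub_assoc]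
        refine pint_add ⟨ψ₀, by rw [map_mul, map_natCast]⟩ ?_
        refine logc (l0 p n) ω hω ?_ ?_ (dvd_pow_sub_expand hn ψ₀)
        · rw [map_pow, hψ₀, zero_pow (by omega)]
        · rw [constantCoeff_expand, hψ₀]
      have h2 := pint_sub hh h1
      rw [sub_sub_sub_comm, ← mul_sub, ← map_sub] at h2
      obtain ⟨v, hv⟩ := (pint_iff _).1 h2 d
      have h3 : coeff d (expand (p ^ n) (pow_ne_zero n (Fact.out : p.Prime).ne_zero)
          (h - (l0 p n).subst (ψ₀.map (iK p n)))) = 0 := by
        by_cases hdv : ∀ i, p ^ n ∣ d i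
        · obtain ⟨m, rfl⟩ : ∃ m : σ →₀ ℕ, d = p ^ n • m := by
            refine ⟨d.mapRange (· / p ^ n) (by simp), ?_⟩
            ext i
            simp [Nat.mul_div_cancel' (hdv i)]
          have hm0' : m.degree ≠ 0 := by
            rw [Ne, Finsupp.degree_eq_zero_iff]
            rintro rfl
            exact hd0 (smul_zero _)
          rw [map_nsmul, smul_eq_mul] at hd hdD
          have hmD : m.degree < D := by nlinarith [Nat.pos_of_ne_zero hm0']
          rw [coeff_expand_smul, hf m hmD.le, hord m hmD]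
        · push Not at hdv
          obtain ⟨i, hi⟩ := hdv
          exact coeff_expand_of_not_dvd _ _ _ hi
      rw [map_sub, h3, sub_zero, coeff_nat_mul, hf d (by omega), map_sub, hc, if_neg hdD,
        sub_zero] at hv
      exact ⟨v, mul_left_cancel₀ pK_ne hv⟩
  choose w hw using fun d => key _ d (Nat.lt_succ_self _)
  let ψ : MvPowerSeries σ (WW p n) := w
  have e : ψ.map (iK p n) = ψK := by
    ext d
    rw [coeff_map, hw]
    rfl
  refine ⟨ψ, ?_, by rw [e, hψ]⟩
  apply iK_inj
  rw [← constantCoeff_map, e, hψ0, map_zero]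

end
end Crest.Agent.R227
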