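import Crest.Agent.R227.HD

/-!
# 227-LOG: the logarithm in characteristic zero.
-/
set_option autoImplicit false
open Crest.LubinTate MvPowerSeries

namespace Crest.Agent.R227
noncomputable section
variable {K : Type*} [Field K] [CharZero K] {σ : Type*}

open FGA HDA

namespace LOG

/-- two endomorphisms that agree to first order agree on `𝔪^d` modulo `𝔪^(d+1)`. -/
theorem filt {R : Type*} [CommRing R] (m : Ideal R) (α β : R →+* R) (hα : ∀ x ∈ m, α x ∈ m)
    (hβ : ∀ x ∈ m, β x ∈ m) (h : ∀ x ∈ m, α x - β x ∈ m ^ 2) (d : ℕ) :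
    ∀ x ∈ m ^ (d + 1), α x - β x ∈ m ^ (d + 2) := by
  have hβ' : ∀ k, ∀ x ∈ m ^ k, β x ∈ m ^ k := by
    intro k x hx
    have h1 : (m ^ k).map β ≤ m ^ k := by
      rw [Ideal.map_pow]
      exact Ideal.pow_right_mono (Ideal.map_le_iff_le_comap.2 fun y hy => hβ y hy) k
    exact h1 (Ideal.mem_map_of_mem β hx)
  induction d with
  | zero => intro x hx; rw [zero_add, pow_one] at hx; exact h x hx
  | succ d ih =>
    intro x hx
    rw [pow_succ] at hx
    refine Submodule.mul_induction_on hx (fun g hg k hk => ?_) (fun a b ha hb => ?_)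
    · have e : α (g * k) - β (g * k) = (α g - β g) * α k + β g * (α k - β k) := by
        rw [map_mul, map_mul]; ring
      rw [e]
      refine add_mem ?_ ?_
      · rw [show d + 1 + 2 = d + 2 + 1 by ring, pow_succ]
        exact Ideal.mul_mem_mul (ih g hg) (hα k hk)
      · rw [pow_add]
        exact Ideal.mul_mem_mul (hβ' _ g hg) (h k hk)
    · have e : α (a + b) - β (a + b) = (α a - β a) + (α b - β b) := by
        rw [map_add, map_add]; ring
      rw [e]
      exact add_mem ha hb

theorem mem_span_X {R τ : Type*} [CommRing R] [Finite τ] {f : MvPowerSeries τ R} :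
    f ∈ Ideal.span (Set.range (X : τ → MvPowerSeries τ R)) ↔ constantCoeff f = 0 := by
  rw [← pow_one (Ideal.span _), mem_pow_span_X_iff]
  constructor
  · intro h
    exact h 0 (by simp)
  · intro h d hd
    have : d = 0 := (Finsupp.degree_eq_zero_iff d).1 (by omega)
    subst this
    exact h

theorem shape {R : Type*} [CommRing R] {θ : PowerSeries R} (h : PowerSeries.constantCoeff θ = 0) :
    ∃ t : PowerSeries R, θ = PowerSeries.X *
      (PowerSeries.C (PowerSeries.coeff 1 θ) + PowerSeries.X * t) := by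
  obtain ⟨u, rfl⟩ := PowerSeries.X_dvd_iff.2 h
  refine ⟨PowerSeries.mk fun p => PowerSeries.coeff (p + 1) u, ?_⟩
  rw [PowerSeries.coeff_succ_X_mul, PowerSeries.coeff_zero_eq_constantCoeff, add_comm,
    ← PowerSeries.eq_X_mul_shift_add_const]

theorem shape' {R τ : Type*} [CommRing R] {θ : PowerSeries R} (h : PowerSeries.constantCoeff θ = 0)
    {A : MvPowerSeries τ R} (hA : PowerSeries.HasSubst A) :
    ∃ t : MvPowerSeries τ R, θ.subst A = C (PowerSeries.coeff 1 θ) * A + A ^ 2 * t := by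
  obtain ⟨t, ht⟩ := shape h
  have e5 := congrArg (PowerSeries.subst A) ht
  rw [PowerSeries.subst_mul hA, PowerSeries.subst_add hA, PowerSeries.subst_mul hA,
    PowerSeries.subst_X hA, PowerSeries.subst_C] at e5
  exact ⟨t.subst A, by rw [e5]; ring⟩

end LOG

open LOG

theorem intg_const (w : PowerSeries K) : PowerSeries.constantCoeff (intg w) = 0 := by
  rw [← PowerSeries.coeff_zero_eq_constantCoeff_apply, intg, PowerSeries.coeff_mk, if_pos rfl]

theorem deriv_intg (w : PowerSeries K) : PowerSeries.derivative K (intg w) = w := by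
  ext d
  have : ((d : K) + 1) ≠ 0 := Nat.cast_add_one_ne_zero d
  rw [PowerSeries.coeff_derivative, intg, PowerSeries.coeff_mk, if_neg (Nat.succ_ne_zero d),
    Nat.add_sub_cancel, Nat.cast_add, Nat.cast_one, div_mul_cancel₀ _ this]

theorem flog_const (F : FormalGroup K) : PowerSeries.constantCoeff (flog F) = 0 := by
  exact intg_const _

theorem flog_one (F : FormalGroup K) : PowerSeries.coeff 1 (flog F) = 1 := by
  have h := congrArg PowerSeries.constantCoeff (om_mul F)
  rw [map_mul, cF_const, mul_one, map_one] at h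
  rw [flog, intg, PowerSeries.coeff_mk, if_neg one_ne_zero, Nat.sub_self,
    PowerSeries.coeff_zero_eq_constantCoeff_apply, h, Nat.cast_one, div_one]

/-- PLAN: both sides have zero constant term and the same derivative (`PowerSeries.derivative_subst`, `hd`, `om_mul`),
`PowerSeries.derivative.ext`. -/
theorem flog_hom {F G : FormalGroup K} {θ : PowerSeries K} (h : IsFGHom F G θ) :
    (flog G).subst θ = PowerSeries.C (PowerSeries.coeff 1 θ) * flog F := by
  have h0 := hs0 h.1
  refine PowerSeries.derivative.ext ?_ ?_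
  · have e1 := congrArg (fun Z : PowerSeries K => (Z.subst θ : PowerSeries K)) (om_mul G)
    simp only [PowerSeries.subst_mul h0] at e1
    rw [← PowerSeries.coe_substAlgHom h0, map_one, PowerSeries.coe_substAlgHom] at e1
    rw [PowerSeries.derivative_subst h0, Derivation.leibniz, PowerSeries.derivative_C, smul_zero,
      add_zero, smul_eq_mul, flog, flog, deriv_intg, deriv_intg]
    have e2 := hd h
    have e3 := om_mul F
    linear_combination ((om G).subst θ * om F) * e2 -
      ((om G).subst θ * PowerSeries.derivative K θ) * e3 +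
      (PowerSeries.C (PowerSeries.coeff 1 θ) * om F) * e1
  · rw [const_subst' h.1, map_mul, flog_const, flog_const, mul_zero]

/-- PLAN: `Φ = l(F(X,Y)) - l(X) - l(Y)` has no terms of degree `< 2` and `Φ([2]X,[2]Y) = 2 Φ` (`flog_hom (hom_mul F 2)`,
`hom_apply`); if `Φ ∈ (X)^d`, `d ≥ 2`, then `Φ([2]X,[2]Y) ≡ 2^d Φ mod (X)^(d+1)` so `(2^d - 2) Φ ∈ (X)^(d+1)`
(`mem_pow_span_X_iff`).  Then substitute `![A,B]`.  (Alternative: chain rule for `pderiv` + associativity.) -/
theorem flog_add (F : FormalGroup K) [F.IsComm] {A B : MvPowerSeries σ K}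
    (hA : constantCoeff A = 0) (hB : constantCoeff B = 0) :
    (flog F).subst (F.toPowerSeries.subst ![A, B]) = (flog F).subst A + (flog F).subst B := by
  classical
  have hA' : PowerSeries.HasSubst A := PowerSeries.HasSubst.of_constantCoeff_zero hA
  have hB' : PowerSeries.HasSubst B := PowerSeries.HasSubst.of_constantCoeff_zero hB
  set l := flog F with hl
  set Φ : MvPowerSeries (Fin 2) K := l.subst F.toPowerSeries - l.subst (X 0 : MvPowerSeries (Fin 2) K) -
    l.subst (X 1 : MvPowerSeries (Fin 2) K) with hΦ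
  set m : Ideal (MvPowerSeries (Fin 2) K) := Ideal.span (Set.range X) with hm
  have hX : ∀ i, (X i : MvPowerSeries (Fin 2) K) ∈ m := fun i => Ideal.subset_span ⟨i, rfl⟩
  have h2 := hs0 (mul_const F 2)
  have a := hs_ps (hsX (R := K) (0 : Fin 2)) h2
  have b := hs_ps (hsX (R := K) (1 : Fin 2)) h2
  have hs := hs2 a b
  have key : ∀ Z : MvPowerSeries (Fin 2) K, PowerSeries.HasSubst Z →
      l.subst ((mulSeries F 2).subst Z) = C 2 * l.subst Z := by
    intro Z hZ
    rw [← comp hZ h2, hl, flog_hom (hom_mul F 2), PowerSeries.subst_mul hZ, PowerSeries.subst_C,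
      mul_coeff_one]
    rfl
  have hα : substAlgHom hs Φ = C 2 * Φ := by
    rw [coe_substAlgHom, hΦ, subst_sub hs, subst_sub hs, mv_ps hs (hsF0 F), mv_ps hs (hsX 0),
      mv_ps hs (hsX 1), sX0 a b, sX1 a b, ← (hom_mul F 2).2, key _ (hsF0 F), key _ (hsX 0),
      key _ (hsX 1)]
    ring
  have c0 : ∀ i, constantCoeff ((![(mulSeries F 2).subst (X 0 : MvPowerSeries (Fin 2) K),
      (mulSeries F 2).subst (X 1 : MvPowerSeries (Fin 2) K)] : Fin 2 → _) i) = 0 := by
    intro i
    fin_cases i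
    · exact constps (constantCoeff_X 0) (mul_const F 2)
    · exact constps (constantCoeff_X 1) (mul_const F 2)
  have m1 : ∀ x ∈ m, (substAlgHom hs : _ →ₐ[K] _).toRingHom x ∈ m := by
    intro x hx
    rw [hm, mem_span_X] at hx ⊢
    change constantCoeff (substAlgHom hs x) = 0
    rw [coe_substAlgHom]
    exact constantCoeff_subst_eq_zero hs c0 hx
  have m2 : ∀ x ∈ m, rescale (fun _ => (2 : K)) x ∈ m := by
    intro x hx
    rw [hm, mem_span_X] at hx ⊢
    rw [← coeff_zero_eq_constantCoeff_apply] at hx ⊢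
    rw [coeff_rescale, hx, mul_zero]
  have m0 : ∀ x, (substAlgHom hs : _ →ₐ[K] _).toRingHom x - rescale (fun _ => (2 : K)) x ∈ m := by
    intro x
    have e : x = (x - C (constantCoeff x)) + C (constantCoeff x) := by ring
    have hx : x - C (constantCoeff x) ∈ m := by rw [hm, mem_span_X]; simp
    have e1 : (substAlgHom hs : _ →ₐ[K] _).toRingHom (C (constantCoeff x)) = C (constantCoeff x) :=
      (substAlgHom hs).commutes _
    have e2 : rescale (fun _ : Fin 2 => (2 : K)) (C (constantCoeff x)) = C (constantCoeff x) := by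
      rw [rescale_eq_subst, subst_C]
    rw [e, map_add, map_add, e1, e2, add_sub_add_right_eq_sub]
    exact sub_mem (m1 _ hx) (m2 _ hx)
  have mX : ∀ i, (substAlgHom hs : _ →ₐ[K] _).toRingHom (X i) - rescale (fun _ => (2 : K)) (X i) ∈
      m ^ 2 := by
    intro i
    obtain ⟨t, ht⟩ := shape' (mul_const F 2) (hsX (R := K) i)
    have e1 : (substAlgHom hs : _ →ₐ[K] _).toRingHom (X i) =
        (mulSeries F 2).subst (X i : MvPowerSeries (Fin 2) K) := by
      change substAlgHom hs (X i) = _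
      rw [substAlgHom_X]
      fin_cases i <;> rfl
    have e2 : rescale (fun _ : Fin 2 => (2 : K)) (X i) = C 2 * X i := by
      rw [rescale_eq_subst, subst_X (HasSubst.smul_X _), ← smul_eq_C_mul]
      rfl
    rw [e1, e2, ht, mul_coeff_one, Nat.cast_ofNat, add_sub_cancel_left]
    exact Ideal.mul_mem_right _ _ (Ideal.pow_mem_pow (hX i) 2)
  have m3 : ∀ x ∈ m, (substAlgHom hs : _ →ₐ[K] _).toRingHom x - rescale (fun _ => (2 : K)) x ∈
      m ^ 2 := by
    intro x hx
    obtain ⟨c, rfl⟩ := Ideal.mem_span_range_iff_exists_fun.1 hx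
    rw [map_sum, map_sum, ← Finset.sum_sub_distrib]
    refine Ideal.sum_mem _ fun i _ => ?_
    set α := (substAlgHom hs : _ →ₐ[K] _).toRingHom
    set β := rescale (fun _ : Fin 2 => (2 : K))
    have e : α (c i * X i) - β (c i * X i) = (α (c i) - β (c i)) * α (X i) +
        β (c i) * (α (X i) - β (X i)) := by
      rw [map_mul, map_mul]; ring
    rw [e]
    refine add_mem ?_ (Ideal.mul_mem_left _ _ (mX i))
    rw [pow_two]
    exact Ideal.mul_mem_mul (m0 _) (m1 _ (hX i))
  have all : ∀ d, Φ ∈ m ^ (d + 2) := by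
    intro d
    induction d with
    | zero =>
      obtain ⟨K1, e1⟩ := fg_eq_add F
      obtain ⟨t0, e2⟩ := shape' (flog_const F) (hsF0 F)
      obtain ⟨t1, e3⟩ := shape' (flog_const F) (hsX (R := K) (0 : Fin 2))
      obtain ⟨t2, e4⟩ := shape' (flog_const F) (hsX (R := K) (1 : Fin 2))
      rw [flog_one, map_one, one_mul] at e2 e3 e4
      have hF : F.toPowerSeries ∈ m := by rw [hm, mem_span_X]; exact F.zero_constantCoeff
      have e : Φ = X 0 * X 1 * K1 + F.toPowerSeries ^ 2 * t0 - X 0 ^ 2 * t1 - X 1 ^ 2 * t2 := by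
        rw [hΦ, hl, e2, e3, e4]; linear_combination e1
      rw [e, zero_add]
      refine sub_mem (sub_mem (add_mem ?_ ?_) ?_) ?_
      · rw [pow_two]; exact Ideal.mul_mem_right _ _ (Ideal.mul_mem_mul (hX 0) (hX 1))
      · exact Ideal.mul_mem_right _ _ (Ideal.pow_mem_pow hF 2)
      · exact Ideal.mul_mem_right _ _ (Ideal.pow_mem_pow (hX 0) 2)
      · exact Ideal.mul_mem_right _ _ (Ideal.pow_mem_pow (hX 1) 2)
    | succ d ih =>
      have h3 := filt m _ _ m1 m2 m3 (d + 1) Φ ih
      have e1 : (substAlgHom hs : _ →ₐ[K] _).toRingHom Φ = C 2 * Φ := hα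
      rw [e1] at h3
      rw [hm, mem_pow_span_X_iff] at h3 ih ⊢
      intro e he
      rcases Nat.lt_or_ge e.degree (d + 2) with h4 | h4
      · exact ih e h4
      · have h5 := h3 e he
        have h6 : e.degree = d + 2 := by omega
        have h7 : (e.prod fun _ k => (2 : K) ^ k) = 2 ^ (d + 2) := by
          rw [← h6, Finsupp.prod, Finset.prod_pow_eq_pow_sum, Finsupp.degree_apply]
        rw [map_sub, coeff_C_mul, coeff_rescale, h7, ← sub_mul, mul_eq_zero] at h5
        refine h5.resolve_left fun h8 => ?_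
        have h9 : (2 : ℕ) = 2 ^ (d + 2) := by exact_mod_cast sub_eq_zero.1 h8
        have : 2 ^ 1 < 2 ^ (d + 2) := Nat.pow_lt_pow_right (by norm_num) (by omega)
        omega
  have hΦ0 : Φ = 0 := by
    ext e
    have := all e.degree
    rw [hm, mem_pow_span_X_iff] at this
    exact this e (by omega)
  have hs' := hs2 hA' hB'
  have := congrArg (MvPowerSeries.subst ![A, B]) hΦ0
  rw [hΦ, subst_sub hs', subst_sub hs', mv_ps hs' (hsF0 F), mv_ps hs' (hsX 0),
    mv_ps hs' (hsX 1), sX0 hA' hB', sX1 hA' hB', ← coe_substAlgHom hs', map_zero,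
    coe_substAlgHom] at this
  linear_combination this

theorem exists_logPt (F : FormalGroup K) [F.IsComm] (σ : Type*) :
    ∃ Φ : F.Point σ →+ MvPowerSeries σ K, ∀ A, Φ A = (flog F).subst A.val := by
  have h0 : ∀ A : F.Point σ, constantCoeff A.val = 0 := fun A => IsNilpotent.eq_zero A.prop
  exact ⟨⟨⟨fun A => (flog F).subst A.val,
    PowerSeries.subst_zero_of_constantCoeff_zero (flog_const F)⟩,
    fun A B => flog_add F (h0 A) (h0 B)⟩, fun _ => rfl⟩

section Norm
variable {C : Type} [NormedField C] [IsUltrametricDist C] [CharZero C]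

/-- the recursion `s_{e+1} ≤ s_e · max π s_e`.  PLAN: `s_e ≤ δ'^e` with `δ' = max π δ < 1`; choose `c` with `δ'^c ≤ π`;
then `s_{c+j} ≤ π^j`; `R = π⁻¹^c`. -/
theorem rec_bound {δ π : ℝ} (hδ : δ < 1) (hπ0 : 0 < π) (hπ : π < 1) :
    ∃ R : ℝ, 1 ≤ R ∧ ∀ s : ℕ → ℝ, (∀ e, 0 ≤ s e) → s 0 ≤ δ → (∀ e, s (e + 1) ≤ s e * max π (s e)) →
      ∀ e, s e ≤ R * π ^ e := by
  have hθ : max π δ < 1 := max_lt hπ hδ
  have hθ0 : 0 ≤ max π δ := hπ0.le.trans (le_max_left _ _)
  obtain ⟨c, hc⟩ := exists_pow_lt_of_lt_one hπ0 hθ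
  have hi : 1 ≤ π⁻¹ := (one_le_inv₀ hπ0).2 hπ.le
  refine ⟨π⁻¹ ^ c, one_le_pow₀ hi, fun s h0 h1 h2 => ?_⟩
  have a1 : ∀ e, s e ≤ max π δ ^ (e + 1) := by
    intro e
    induction e with
    | zero => rw [zero_add, pow_one]; exact h1.trans (le_max_right _ _)
    | succ e ih =>
      refine (h2 e).trans ?_
      rw [pow_succ _ (e + 1)]
      refine mul_le_mul ih (max_le (le_max_left _ _) (ih.trans ?_)) ((h0 e).trans (le_max_right _ _))
        (pow_nonneg hθ0 _)
      exact pow_le_of_le_one hθ0 hθ.le (Nat.succ_ne_zero _)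
  have a2 : ∀ e, e ≤ c → s e ≤ π⁻¹ ^ c * π ^ e := by
    intro e he
    obtain ⟨j, rfl⟩ := Nat.exists_eq_add_of_le he
    have : π⁻¹ ^ (e + j) * π ^ e = π⁻¹ ^ j := by
      rw [pow_add, mul_right_comm, ← mul_pow, inv_mul_cancel₀ hπ0.ne', one_pow, one_mul]
    rw [this]
    exact ((a1 e).trans (pow_le_one₀ hθ0 hθ.le)).trans (one_le_pow₀ hi)
  intro e
  induction e with
  | zero => exact a2 0 (Nat.zero_le _)
  | succ e ih =>
    rcases Nat.lt_or_ge e c with h | h
    · exact a2 _ h
    · have : s e ≤ π :=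
        ((a1 e).trans (pow_le_pow_of_le_one hθ0 hθ.le (by omega))).trans hc.le
      refine (h2 e).trans ?_
      rw [max_eq_left this, pow_succ, ← mul_assoc]
      exact mul_le_mul_of_nonneg_right ih hπ0.le

namespace LOG

/-- all coefficients have norm at most `s`. -/
def Bd (s : ℝ) (f : PowerSeries C) : Prop := ∀ d, ‖PowerSeries.coeff d f‖ ≤ s

omit [CharZero C] in
theorem Bd.mul {s t : ℝ} {f g : PowerSeries C} (hf : Bd s f) (hg : Bd t g) : Bd (s * t) (f * g) := by
  intro d
  have hs : 0 ≤ s := (norm_nonneg _).trans (hf 0)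
  have ht : 0 ≤ t := (norm_nonneg _).trans (hg 0)
  rw [PowerSeries.coeff_mul]
  refine IsUltrametricDist.norm_sum_le_of_forall_le_of_nonneg (mul_nonneg hs ht) fun x _ => ?_
  rw [norm_mul]
  exact mul_le_mul (hf _) (hg _) (norm_nonneg _) hs

omit [CharZero C] in
theorem Bd.add {s t : ℝ} {f g : PowerSeries C} (hf : Bd s f) (hg : Bd t g) :
    Bd (max s t) (f + g) := by
  intro d
  rw [map_add]
  exact (IsUltrametricDist.norm_add_le_max _ _).trans (max_le_max (hf d) (hg d))

omit [CharZero C] in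
theorem bd_map (f : PowerSeries (Ob C)) {s : ℝ} (h : ∀ d, ‖PowerSeries.coeff d f‖ ≤ s) :
    Bd s (f.map (Ob C).subtype) := by
  intro d
  rw [PowerSeries.coeff_map]
  exact h d

omit [CharZero C] in
theorem bd_one (f : PowerSeries (Ob C)) : Bd 1 (f.map (Ob C).subtype) :=
  bd_map f fun _ => Ob.norm_le_one _

omit [CharZero C] in
/-- `A^i - B^i` is as small as `A - B`. -/
theorem bd_pow {s : ℝ} (A B : PowerSeries (Ob C))
    (h : Bd s (A.map (Ob C).subtype - B.map (Ob C).subtype)) (i : ℕ) :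
    Bd s (A.map (Ob C).subtype ^ i - B.map (Ob C).subtype ^ i) := by
  obtain ⟨W, hW⟩ := sub_dvd_pow_sub_pow A B i
  have := congrArg (PowerSeries.map (Ob C).subtype) hW
  rw [map_sub, map_mul, map_sub, map_pow, map_pow] at this
  rw [this, ← mul_one s]
  exact h.mul (bd_one W)

omit [CharZero C] in
theorem bd_pow_p (p : ℕ) {s : ℝ} (A B : PowerSeries (Ob C))
    (h : Bd s (A.map (Ob C).subtype - B.map (Ob C).subtype)) :
    Bd (s * max ‖(p : C)‖ s) (A.map (Ob C).subtype ^ p - B.map (Ob C).subtype ^ p) := by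
  have hs : 0 ≤ s := (norm_nonneg _).trans (h 0)
  obtain ⟨k, hk⟩ := Polynomial.powAddExpansion B (A - B) p
  have := congrArg (PowerSeries.map (Ob C).subtype) hk
  simp only [add_sub_cancel, map_add, map_mul, map_pow, map_sub, map_natCast] at this
  have hp : Bd ‖(p : C)‖ (p : PowerSeries C) := by
    intro d
    rw [← map_natCast (PowerSeries.C (R := C)), PowerSeries.coeff_C]
    split_ifs
    · exact le_rfl
    · rw [norm_zero]; exact norm_nonneg _
  have h1 := ((hp.mul (bd_one (B ^ (p - 1)))).mul h).add ((bd_one k).mul (h.mul h))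
  rw [this, add_assoc, add_sub_cancel_left, ← map_pow, mul_max_of_nonneg _ _ hs, pow_two]
  rwa [mul_one, one_mul, mul_comm ‖(p : C)‖ s] at h1

omit [CharZero C] in
theorem norm_coprime (p : ℕ) [Fact p.Prime] (hp : ‖(p : C)‖ < 1) {i : ℕ} (hi : ¬ p ∣ i) :
    ‖(i : C)‖ = 1 := by
  refine le_antisymm (IsUltrametricDist.norm_natCast_le_one C i) ?_
  by_contra h
  rw [not_le] at h
  obtain ⟨a, b, hab⟩ := (Nat.isCoprime_iff_coprime.2
    ((Nat.Prime.coprime_iff_not_dvd (Fact.out : p.Prime)).2 hi))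
  have e : (a : C) * p + b * i = 1 := by exact_mod_cast congrArg (Int.cast : ℤ → C) hab
  have h1 := IsUltrametricDist.norm_add_le_max ((a : C) * p) (b * i)
  rw [e, norm_one, norm_mul, norm_mul] at h1
  have h2 : ‖(a : C)‖ * ‖(p : C)‖ < 1 :=
    (mul_le_of_le_one_left (norm_nonneg _) (IsUltrametricDist.norm_intCast_le_one C a)).trans_lt hp
  have h3 : ‖(b : C)‖ * ‖(i : C)‖ < 1 :=
    (mul_le_of_le_one_left (norm_nonneg _) (IsUltrametricDist.norm_intCast_le_one C b)).trans_lt h
  exact absurd h1 (not_le.2 (max_lt h2 h3))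

omit [CharZero C] in
theorem const_map {A : PowerSeries (Ob C)} (hA : PowerSeries.constantCoeff A = 0) :
    PowerSeries.constantCoeff (A.map (Ob C).subtype) = 0 := by
  rw [← PowerSeries.coeff_zero_eq_constantCoeff_apply, PowerSeries.coeff_map,
    PowerSeries.coeff_zero_eq_constantCoeff_apply, hA, map_zero]

end LOG

/-- (LB) the logarithm of two `δ`-close integral series differs by a bounded series; the bound depends on `δ, p` only.
PLAN: `coeff_subst_eq_sum`; `l_i = ω_{i-1}/i` with `ω = om G` integral (`om_map`); for `i = p^e i'`, `p ∤ i'` we have `‖i‖ = ‖p‖^e`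
and `A^(p^e) - B^(p^e)` has coefficients `≤ s_e`, `s_0 = δ`, `s_{e+1} = s_e max ‖p‖ s_e`
(`(b+u)^p - b^p ∈ (p u, u²)`, `coeff_mul_mem_mul` with `Ob.ball`), `rec_bound`. -/
theorem log_bdd (p : ℕ) [Fact p.Prime] (hp : ‖(p : C)‖ < 1) {δ : ℝ} (hδ0 : 0 ≤ δ) (hδ : δ < 1) :
    ∃ R : ℝ, ∀ (G : FormalGroup (Ob C)) (A B : PowerSeries (Ob C)),
      PowerSeries.constantCoeff A = 0 → PowerSeries.constantCoeff B = 0 →
      (∀ d, ‖PowerSeries.coeff d (A - B)‖ ≤ δ) → ∀ d,
      ‖PowerSeries.coeff d ((flog (G.map (Ob C).subtype)).subst (A.map (Ob C).subtype) -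
        (flog (G.map (Ob C).subtype)).subst (B.map (Ob C).subtype))‖ ≤ R := by
  have hp0 : 0 < ‖(p : C)‖ := norm_pos_iff.2 (Nat.cast_ne_zero.2 (Fact.out : p.Prime).ne_zero)
  obtain ⟨R, hR1, hR⟩ := rec_bound hδ hp0 hp
  refine ⟨R, fun G A B hA hB hAB d => ?_⟩
  let s : ℕ → ℝ := fun e => Nat.rec δ (fun _ x => x * max ‖(p : C)‖ x) e
  have hs1 : ∀ e, s (e + 1) = s e * max ‖(p : C)‖ (s e) := fun _ => rfl
  have hb : ∀ e, Bd (s e) (A.map (Ob C).subtype ^ (p ^ e) - B.map (Ob C).subtype ^ (p ^ e)) := by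
    intro e
    induction e with
    | zero =>
      rw [pow_zero, pow_one, pow_one, ← map_sub]
      exact bd_map _ hAB
    | succ e ih =>
      rw [← map_pow, ← map_pow] at ih
      have := bd_pow_p p _ _ ih
      rwa [map_pow, map_pow, ← pow_mul, ← pow_mul, ← pow_succ] at this
  have hs := hR s (fun e => (norm_nonneg _).trans (hb e 0)) le_rfl fun e => (hs1 e).le
  rw [map_sub, coeff_subst_eq_sum _ _ (const_map hA) (d + 1) d (by omega),
    coeff_subst_eq_sum _ _ (const_map hB) (d + 1) d (by omega), ← Finset.sum_sub_distrib]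
  refine IsUltrametricDist.norm_sum_le_of_forall_le_of_nonneg (zero_le_one.trans hR1) fun i _ => ?_
  rw [← mul_sub, ← map_sub, norm_mul, flog, intg, PowerSeries.coeff_mk]
  split_ifs with hi
  · rw [norm_zero, zero_mul]; exact zero_le_one.trans hR1
  obtain ⟨e, i', hi', rfl⟩ := Nat.exists_eq_pow_mul_and_not_dvd hi p (Fact.out : p.Prime).ne_one
  have h1 : Bd (s e) (A.map (Ob C).subtype ^ (p ^ e * i') - B.map (Ob C).subtype ^ (p ^ e * i')) := by
    have := hb e
    rw [← map_pow, ← map_pow] at this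
    have := bd_pow _ _ this i'
    rwa [map_pow, map_pow, ← pow_mul, ← pow_mul] at this
  rw [norm_div, Nat.cast_mul, Nat.cast_pow, norm_mul, norm_pow, norm_coprime p hp hi', mul_one,
    ← om_map, div_mul_eq_mul_div, div_le_iff₀ (pow_pos hp0 e)]
  exact (mul_le_of_le_one_left (norm_nonneg _) (bd_one _ _)).trans ((h1 d).trans (hs e))

/-- (UNB) the logarithm of a group whose reduction has finite height is unbounded.
PLAN: let `s = sup ‖l_d‖ ≥ 1` (finite).  `l ∘ [p] = p l` (`flog_hom`); the coefficient of `X^(q d)` of `l ∘ [p]` is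
`l_d + O(δ s)`; so `‖l_d‖ ≤ max δ ‖p‖ · s` for all `d`, whence `s ≤ max δ ‖p‖ · s`, contradiction. -/
theorem log_unbdd (p q : ℕ) (hq : q ≠ 0) (hp : ‖(p : C)‖ < 1) {δ : ℝ} (hδ : δ < 1)
    (G : FormalGroup (Ob C)) [G.IsComm]
    (hG : ∀ d, ‖PowerSeries.coeff d (mulSeries G p - PowerSeries.X ^ q)‖ ≤ δ) (R : ℝ) :
    ¬ ∀ d, ‖PowerSeries.coeff d (flog (G.map (Ob C).subtype))‖ ≤ R := by
  intro hR
  set l := flog (G.map (Ob C).subtype) with hl
  have hθ : max ‖(p : C)‖ δ < 1 := max_lt hp hδ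
  have hθ0 : 0 ≤ max ‖(p : C)‖ δ := (norm_nonneg _).trans (le_max_left _ _)
  have hb : Bd δ ((mulSeries G p).map (Ob C).subtype -
      (PowerSeries.X ^ q : PowerSeries (Ob C)).map (Ob C).subtype) := by
    rw [← map_sub]; exact bd_map _ hG
  have step : ∀ s, Bd s l → Bd (s * max ‖(p : C)‖ δ) l := by
    intro s hs d
    have hs0 : 0 ≤ s := (norm_nonneg _).trans (hs 0)
    have a1 := coeff_subst_eq_sum l _ (mul_const (G.map (Ob C).subtype) p) (q * d + 1) (q * d)
      (by omega)
    have a2 := coeff_subst_eq_sum l (PowerSeries.X ^ q) (by simp [hq]) (q * d + 1) (q * d) (by omega)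
    rw [hl, flog_hom (hom_mul _ p), mul_coeff_one, PowerSeries.coeff_C_mul, ← hl] at a1
    rw [PowerSeries.coeff_subst_X_pow hq, if_pos (dvd_mul_right _ _),
      Nat.mul_div_cancel_left _ (Nat.pos_of_ne_zero hq)] at a2
    have a3 : PowerSeries.coeff d l = p * PowerSeries.coeff (q * d) l +
        ∑ i ∈ Finset.range (q * d + 1), -(PowerSeries.coeff i l *
        PowerSeries.coeff (q * d) ((mulSeries G p).map (Ob C).subtype ^ i -
          (PowerSeries.X ^ q : PowerSeries (Ob C)).map (Ob C).subtype ^ i)) := by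
      simp only [map_sub, mul_sub, neg_sub, Finset.sum_sub_distrib, mul_map, map_pow,
        PowerSeries.map_X]
      rw [← a1, ← a2]; simp
    rw [a3]
    refine (IsUltrametricDist.norm_add_le_max _ _).trans (max_le ?_ ?_)
    · rw [norm_mul, mul_comm]
      exact mul_le_mul (hs _) (le_max_left _ _) (norm_nonneg _) hs0
    · refine IsUltrametricDist.norm_sum_le_of_forall_le_of_nonneg (mul_nonneg hs0 hθ0) fun i _ => ?_
      rw [norm_neg, norm_mul]
      exact mul_le_mul (hs _) ((bd_pow _ _ hb i _).trans (le_max_right _ _)) (norm_nonneg _) hs0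
  have all : ∀ k, Bd (R * max ‖(p : C)‖ δ ^ k) l := by
    intro k
    induction k with
    | zero => rw [pow_zero, mul_one]; exact hR
    | succ k ih => rw [pow_succ, ← mul_assoc]; exact step _ ih
  have hR1 : 1 ≤ R := by
    have := hR 1
    rwa [hl, flog_one, norm_one] at this
  have hR0 : 0 < R := one_pos.trans_le hR1
  obtain ⟨k, hk⟩ := exists_pow_lt_of_lt_one (inv_pos.2 hR0) hθ
  have := all k 1
  rw [hl, flog_one, norm_one] at this
  have h2 := mul_lt_mul_of_pos_left hk hR0
  rw [mul_inv_cancel₀ hR0.ne'] at h2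
  exact absurd this (not_le.2 h2)

end Norm

end
end Crest.Agent.R227
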