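import Crest.Agent.R227.Defs

set_option autoImplicit false
set_option linter.style.haveILetI false
open IsLocalRing

namespace Crest.Agent.R227.PB
noncomputable section

variable {K : Type} [Field K]

/-- coarsening of `V` at the radical of `a`. -/
def coarse (V : ValuationSubring K) (a : K) (ha : V.valuation a < 1) : ValuationSubring K where
  carrier := {x | ∀ n : ℕ, V.valuation x ^ n * V.valuation a < 1}
  mul_mem' := fun {x y} hx hy n => by
    have h1 := hx (2 * n)
    have h2 := hy (2 * n)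
    have h3 : (V.valuation (x * y) ^ n * V.valuation a) ^ 2 < 1 := by
      have : (V.valuation (x * y) ^ n * V.valuation a) ^ 2 =
          (V.valuation x ^ (2 * n) * V.valuation a) * (V.valuation y ^ (2 * n) * V.valuation a) := by
        rw [map_mul, mul_pow, mul_pow, mul_pow, ← pow_mul, ← pow_mul, mul_comm n 2, pow_two]
        ac_rfl
      rw [this]
      exact mul_lt_one_of_lt_of_le h1 h2.le
    exact (pow_lt_one_iff two_ne_zero).1 h3
  one_mem' := fun n => by simpa using ha
  add_mem' := fun {x y} hx hy n => by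
    rcases le_max_iff.1 (V.valuation.map_add x y) with h | h
    · exact lt_of_le_of_lt (mul_le_mul_left (pow_le_pow_left' h n) _) (hx n)
    · exact lt_of_le_of_lt (mul_le_mul_left (pow_le_pow_left' h n) _) (hy n)
  zero_mem' := fun n => lt_of_le_of_lt (mul_le_of_le_one_left' (pow_le_one' (by simp) n)) ha
  neg_mem' := fun {x} hx n => by simpa using hx n
  mem_or_inv_mem' := fun x => by
    rcases V.mem_or_inv_mem x with h | h
    · exact Or.inl fun n => lt_of_le_of_lt
        (mul_le_of_le_one_left' (pow_le_one' ((V.valuation_le_one_iff x).2 h) n)) ha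
    · exact Or.inr fun n => lt_of_le_of_lt
        (mul_le_of_le_one_left' (pow_le_one' ((V.valuation_le_one_iff _).2 h) n)) ha

theorem mem_coarse {V : ValuationSubring K} {a : K} {ha : V.valuation a < 1} {x : K} :
    x ∈ coarse V a ha ↔ ∀ n : ℕ, V.valuation x ^ n * V.valuation a < 1 := Iff.rfl

theorem le_coarse {V : ValuationSubring K} {a : K} {ha : V.valuation a < 1} {x : K} (h : x ∈ V) :
    x ∈ coarse V a ha := fun n => lt_of_le_of_lt
  (mul_le_of_le_one_left' (pow_le_one' ((V.valuation_le_one_iff x).2 h) n)) ha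

theorem coarse_lt_one (V : ValuationSubring K) (a : K) (ha : V.valuation a < 1) (ha0 : a ≠ 0) :
    (coarse V a ha).valuation a < 1 := by
  by_contra h
  have h1 : (coarse V a ha).valuation a⁻¹ ≤ 1 := by
    rw [map_inv₀]; exact inv_le_one_of_one_le₀ (not_lt.1 h)
  have h2 := mem_coarse.1 (((coarse V a ha).valuation_le_one_iff _).1 h1) 1
  rw [pow_one, ← map_mul, inv_mul_cancel₀ ha0, map_one] at h2
  exact lt_irrefl _ h2

theorem coarse_arch (V : ValuationSubring K) (a : K) (ha : V.valuation a < 1) (ha0 : a ≠ 0)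
    (hb : ∀ s : K, ∃ N : ℕ, a ^ N * s ∈ V) : MulArchimedean (coarse V a ha).ValueGroup := by
  refine ⟨fun x y hy => ?_⟩
  obtain ⟨s, rfl⟩ := (coarse V a ha).valuation_surjective x
  obtain ⟨t, rfl⟩ := (coarse V a ha).valuation_surjective y
  have ht : t ∉ coarse V a ha := fun h =>
    absurd (((coarse V a ha).valuation_le_one_iff _).2 h) (not_le.2 hy)
  have ht0 : t ≠ 0 := by rintro rfl; exact ht (zero_mem _)
  rw [mem_coarse, not_forall] at ht
  obtain ⟨n, hn⟩ := ht
  obtain ⟨N, hN⟩ := hb s
  have h1 : (t ^ n * a)⁻¹ ∈ V := by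
    rw [← V.valuation_le_one_iff, map_inv₀, map_mul, map_pow]
    exact inv_le_one_of_one_le₀ (not_lt.1 hn)
  have h2 : s / t ^ (n * N) ∈ V := by
    have : s / t ^ (n * N) = (a ^ N * s) * ((t ^ n * a)⁻¹) ^ N := by
      rw [pow_mul, inv_pow, mul_pow]; field_simp
    rw [this]
    exact mul_mem hN (pow_mem h1 N)
  have h3 := ((coarse V a ha).valuation_le_one_iff _).2 (le_coarse (ha := ha) h2)
  refine ⟨n * N, ?_⟩
  rw [map_div₀, map_pow] at h3
  exact (div_le_one₀ (pow_pos (zero_lt_one.trans hy) _)).1 h3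

theorem exists_abs (V : ValuationSubring K) (a : K) (ha : V.valuation a < 1) (ha0 : a ≠ 0)
    (hb : ∀ s : K, ∃ N : ℕ, a ^ N * s ∈ V) :
    ∃ ν : AbsoluteValue K ℝ, (∀ x y, ν (x + y) ≤ max (ν x) (ν y)) ∧ (∀ x ∈ V, ν x ≤ 1) ∧
      ν a < 1 := by
  set v := (coarse V a ha).valuation with hv
  have h1 := coarse_lt_one V a ha ha0
  haveI : v.IsNontrivial := ⟨a, by simpa using ha0, h1.ne⟩
  haveI := coarse_arch V a ha ha0 hb
  have h2 : MulArchimedean (MonoidWithZeroHom.ValueGroup₀ (.ofClass v)) :=
    MulArchimedean.comap MonoidWithZeroHom.ValueGroup₀.embedding.toMonoidHom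
      MonoidWithZeroHom.ValueGroup₀.embedding_strictMono
  obtain ⟨hr⟩ := Valuation.nonempty_rankOne_iff_mulArchimedean.2 h2
  have hm := Valuation.RankOne.strictMono v
  have hadd : ∀ x y, ((Valuation.RankOne.hom v (v.restrict (x + y)) : NNReal) : ℝ) ≤
      max (Valuation.RankOne.hom v (v.restrict x) : ℝ) (Valuation.RankOne.hom v (v.restrict y)) := by
    intro x y
    rcases le_max_iff.1 (v.restrict.map_add x y) with h | h
    · exact le_max_of_le_left (hm.monotone h)
    · exact le_max_of_le_right (hm.monotone h)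
  refine ⟨⟨⟨fun x => (Valuation.RankOne.hom v (v.restrict x) : ℝ), fun x y => by simp⟩,
    fun x => NNReal.coe_nonneg _, fun x => ?_, fun x y => ?_⟩, hadd, fun x hx => ?_, ?_⟩
  · simp [Valuation.RankOne.hom_eq_zero_iff]
  · refine (hadd x y).trans (max_le ?_ ?_)
    · exact le_add_of_nonneg_right (NNReal.coe_nonneg _)
    · exact le_add_of_nonneg_left (NNReal.coe_nonneg _)
  · have h3 : v.restrict x ≤ 1 := v.restrict_le_one_iff.2
      (((coarse V a ha).valuation_le_one_iff _).2 (le_coarse hx))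
    have := hm.monotone h3
    rw [map_one] at this
    exact_mod_cast this
  · have h3 : v.restrict a < 1 := v.restrict_lt_one_iff.2 h1
    have := hm h3
    rw [map_one] at this
    exact_mod_cast this

theorem pointB (R : Type) [CommRing R] [IsDomain R] [IsLocalRing R] (a : R) (ha : a ∈ maximalIdeal R)
    (ha0 : a ≠ 0) (h1 : ∀ f ∈ maximalIdeal R, ∃ N : ℕ, a ∣ f ^ N) (h2 : ∀ b : R, b ≠ 0 → ∃ N : ℕ, b ∣ a ^ N) :
    ∃ (K : Type) (_ : NormedField K) (_ : IsUltrametricDist K) (_ : IsAlgClosed K) (z : R →+* K),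
      (∀ f, ‖z f‖ ≤ 1) ∧ z a ≠ 0 ∧ ∀ f ∈ maximalIdeal R, ‖z f‖ < 1 := by
  let K := AlgebraicClosure (FractionRing R)
  let z : R →+* K := algebraMap R K
  have hz : Function.Injective z := by
    have : z = (algebraMap (FractionRing R) K).comp (algebraMap R (FractionRing R)) :=
      IsScalarTower.algebraMap_eq _ _ _
    rw [this]
    exact (algebraMap (FractionRing R) K).injective.comp (IsFractionRing.injective R _)
  have hza : z a ≠ 0 := fun h => ha0 (hz (by rw [h, map_zero]))
  have hI : Ideal.span {z.rangeRestrict a} ≠ ⊤ := by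
    rw [Ne, Ideal.span_singleton_eq_top]
    intro hu
    obtain ⟨b, hb⟩ := hu.exists_right_inv
    obtain ⟨c, rfl⟩ := z.rangeRestrict_surjective b
    have : z (a * c) = z 1 := by
      have := congrArg Subtype.val hb
      simpa using this
    exact (mem_maximalIdeal _).1 ha (IsUnit.of_mul_eq_one _ (hz this))
  obtain ⟨V, hV1, hV2⟩ := Ideal.image_subset_nonunits_valuationSubring _ hI
  have hzV : ∀ f, z f ∈ V := fun f => hV1 ⟨f, rfl⟩
  have haV : V.valuation (z a) < 1 :=
    (V.mem_nonunits_iff).1 (hV2 ⟨_, Ideal.mem_span_singleton_self _, rfl⟩)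
  have hb : ∀ s : K, ∃ N : ℕ, z a ^ N * s ∈ V := by
    intro s
    haveI : Algebra.IsAlgebraic R (FractionRing R) := IsLocalization.isAlgebraic _ (nonZeroDivisors R)
    haveI : Algebra.IsAlgebraic R K := Algebra.IsAlgebraic.trans R (FractionRing R) K
    obtain ⟨b, hb0, hb⟩ := (Algebra.IsAlgebraic.isAlgebraic (R := R) s).exists_integral_multiple
    obtain ⟨N, c, hc⟩ := h2 b hb0
    letI : Algebra R V := (z.codRestrict V.toSubring hzV).toAlgebra
    haveI : IsScalarTower R V K := IsScalarTower.of_algebraMap_eq fun _ => rfl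
    obtain ⟨y, hy⟩ := IsIntegrallyClosed.algebraMap_eq_of_integral (R := V) (K := K)
      (hb.tower_top (A := V))
    refine ⟨N, ?_⟩
    have : z a ^ N * s = z c * (y : K) := by
      have hy' : (y : K) = z b * s := by rw [← Algebra.smul_def]; exact hy
      rw [hy', ← map_pow, hc, map_mul]; ring
    rw [this]
    exact mul_mem (hzV c) y.2
  obtain ⟨ν, n1, n2, n3⟩ := exists_abs V (z a) haV hza hb
  letI : NormedField K := ν.toNormedField
  refine ⟨K, inferInstance,
    IsUltrametricDist.isUltrametricDist_of_forall_norm_add_le_max_norm n1,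
    (inferInstance : IsAlgClosed (AlgebraicClosure (FractionRing R))), z,
    fun f => n2 _ (hzV f), hza, fun f hf => ?_⟩
  obtain ⟨N, c, hc⟩ := h1 f hf
  have h3 : ν (z f) ^ N < 1 := by
    rw [← map_pow, ← map_pow, hc, map_mul, map_mul]
    exact mul_lt_one_of_nonneg_of_lt_one_left (ν.nonneg _) n3 (n2 _ (hzV c))
  by_contra h4
  exact absurd h3 (not_lt.2 (one_le_pow₀ (not_lt.1 h4)))

end
end Crest.Agent.R227.PB
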