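import Crest.Agent.R227.Defs

set_option autoImplicit false
set_option linter.style.haveILetI false
open Polynomial

namespace Crest.Agent.R227.PC
noncomputable section

theorem nontriv {K L : Type} [Field K] [NontriviallyNormedField L] [IsUltrametricDist L]
    [CompleteSpace L] [Algebra K L] (hi : DenseRange (algebraMap K L)) [IsAlgClosed K] :
    IsAlgClosed L := by
  apply IsAlgClosed.of_exists_root
  intro f fmon firr
  have fnatdeg0 : f.natDegree ≠ 0 := (Irreducible.natDegree_pos firr).ne'
  let F := f.SplittingField
  let : NormedField F := spectralNorm.normedField L F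
  let : NormedAlgebra L F := spectralNorm.normedAlgebra L F
  let a := rootOfSplits (SplittingField.splits f)
      (by simpa using degree_ne_of_natDegree_ne fnatdeg0)
  have fa0 : f.aeval a = 0 := by
    rw [← eval_map_algebraMap]
    exact eval_rootOfSplits (Polynomial.SplittingField.splits f)
      (by simpa using degree_ne_of_natDegree_ne fnatdeg0)
  have hcl : IsClosed (Set.range (algebraMap L F)) :=
    (algebraMap_isometry L F).isClosedEmbedding.isClosed_range
  have ha : a ∈ Set.range (algebraMap L F) := by
    rw [← hcl.closure_eq, Metric.mem_closure_iff]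
    intro δ δpos
    have hε : (δ / (max ‖a‖ 1)) ^ f.natDegree / (f.natDegree + 1) > 0 := by positivity
    obtain ⟨g, gmon, gdeg, gcoeff⟩ :=
      exists_monic_and_natDegree_eq_and_norm_map_algebraMap_coeff_sub_lt hi fmon hε
    let ⟨b, hb, hab⟩ := exists_aroots_norm_sub_lt_of_norm_coeff_sub_lt
        hε fa0 fmon (gmon.map _) (gdeg ▸ (g.natDegree_map _)) gcoeff
        (by simpa [Polynomial.map_map] using (IsAlgClosed.splits g).map ((algebraMap L F).comp _))
    have hab : ‖a - b‖ < δ := by
      rw [← Real.rpow_natCast, ← mul_comm_div, div_self, one_mul,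
          ← Real.rpow_mul (div_pos δpos (by positivity)).le, mul_inv_cancel₀] at hab
      · simpa [mul_assoc, div_mul_cancel₀ _ (by positivity : (max ‖a‖ 1) > 0).ne'] using hab
      · simp [fnatdeg0]
      · positivity
    rw [Polynomial.aroots_def, Splits.roots_map ((IsAlgClosed.splits g).map _),
        Multiset.mem_map] at hb
    obtain ⟨c, _, hc⟩ := hb
    exact ⟨b, ⟨c, hc⟩, by rwa [dist_eq_norm]⟩
  obtain ⟨c, hc⟩ := ha
  refine ⟨c, (algebraMap L F).injective ?_⟩
  rw [map_zero, ← fa0, ← hc, aeval_algebraMap_apply, coe_aeval_eq_eval]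

theorem pointC {K L : Type} [Field K] [NormedField L] [IsUltrametricDist L] [CompleteSpace L] [Algebra K L]
    (hi : DenseRange (algebraMap K L)) [IsAlgClosed K] : IsAlgClosed L := by
  by_cases h : ∃ x : L, 1 < ‖x‖
  · letI : NontriviallyNormedField L := ⟨h⟩
    exact nontriv hi
  · have h1 : ∀ x : L, ‖x‖ < 1 → x = 0 := by
      intro x hx
      by_contra h0
      refine h ⟨x⁻¹, ?_⟩
      rw [norm_inv]
      exact one_lt_inv₀ (norm_pos_iff.2 h0) |>.2 hx
    have hs : Function.Surjective (algebraMap K L) := by
      intro y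
      obtain ⟨x, hx⟩ := hi.exists_dist_lt y one_pos
      rw [dist_eq_norm] at hx
      exact ⟨x, (sub_eq_zero.1 (h1 _ hx)).symm⟩
    exact IsAlgClosed.of_ringEquiv K L
      (RingEquiv.ofBijective (algebraMap K L) ⟨(algebraMap K L).injective, hs⟩)

end
end Crest.Agent.R227.PC
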