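import Crest.Agent.R227.PointA
import Crest.Agent.R227.PointB
import Crest.Agent.R227.PointC

/-!
# 227-PT: existence of rank-one points.  Three independent parts PA, PB, PC + the (short) assembly `exists_point`.
(fill all `sorry`s, keep statements; helper files `R227/PointA.lean` etc. are welcome)
-/
set_option autoImplicit false
open IsLocalRing

namespace Crest.Agent.R227
noncomputable section

/-- (PA) PLAN: `P'` maximal among primes `⊇ P` not containing `a` (Noetherian).  Every prime strictly above `P'` contains `a`,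
so for `b ∉ P'` all primes over `P' + (b)` contain `a` (radical = inf of primes): third clause.  Second clause: in the domain
`R' = R ⧸ P'` let `Q_i` be the (finitely many) minimal primes over `(a)`.  If `m ∉ {Q_i}`, prime avoidance gives `b ∈ m`, `b ∉ ⋃ Q_i`
(so `b ≠ 0`); a minimal prime `Q` over `(b)` has height `≤ 1` (`Ideal.height_le_one_of_isPrincipal_of_mem_minimalPrimes`), is `≠ 0`, so
contains `a`, so contains some `Q_i ≠ 0`, so equals `Q_i ∋ b`: contradiction.  Hence `m` is minimal over `(a)`, so it is the only prime over `(a)`. -/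
theorem point_PA (R : Type) [CommRing R] [IsLocalRing R] [IsNoetherianRing R] (P : Ideal R) [P.IsPrime]
    (a : R) (ha : a ∈ maximalIdeal R) (haP : a ∉ P) :
    ∃ P' : Ideal R, P'.IsPrime ∧ P ≤ P' ∧ a ∉ P' ∧
      (∀ f ∈ maximalIdeal R, ∃ N : ℕ, f ^ N ∈ P' ⊔ Ideal.span {a}) ∧
      (∀ b ∉ P', ∃ N : ℕ, a ^ N ∈ P' ⊔ Ideal.span {b}) :=
  PA.pointA R P a ha haP

/-- (PB) PLAN: `K = AlgebraicClosure (FractionRing R)`; a valuation subring `V` of `K` dominating the image of `R`
(`LocalSubring.exists_le_valuationSubring`), `v = V.valuation`, `0 < v a < 1`.  Every `x ≠ 0` in `K` satisfies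
`v(a)^N ≤ v(x) ≤ v(a)^(-N)` for some `N` (true on `R \ 0` by `h2`, then on `Frac R`, then for algebraic `x`: upper bound from a monic
equation, lower bound from `x⁻¹`).  Define the real absolute value by the Hölder cut
`ν(x) = sSup {i/j | j ≥ 1, v(x)^j ≤ v(a)^i}`, `‖x‖ = 2^(-ν x)`; or coarsen `V` at the prime `√(a)` (`ValuationSubring.ofPrime`) and use
`Valuation.nonempty_rankOne_iff_mulArchimedean` + `Valued.toNormedField`; or map the group `Γˣ` (where `v a` generates a cofinal subgroup)
to `ℝ` by an order-preserving hom.  `AbsoluteValue.toNormedField` turns the absolute value into the instance. -/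
theorem point_PB (R : Type) [CommRing R] [IsDomain R] [IsLocalRing R] (a : R) (ha : a ∈ maximalIdeal R)
    (ha0 : a ≠ 0) (h1 : ∀ f ∈ maximalIdeal R, ∃ N : ℕ, a ∣ f ^ N) (h2 : ∀ b : R, b ≠ 0 → ∃ N : ℕ, b ∣ a ^ N) :
    ∃ (K : Type) (_ : NormedField K) (_ : IsUltrametricDist K) (_ : IsAlgClosed K) (z : R →+* K),
      (∀ f, ‖z f‖ ≤ 1) ∧ z a ≠ 0 ∧ ∀ f ∈ maximalIdeal R, ‖z f‖ < 1 :=
  PB.pointB R a ha ha0 h1 h2

/-- (PC) the completion of an algebraically closed normed field is algebraically closed, any characteristic.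
PLAN: `f` monic of degree `d ≥ 1` over `L`.  Choose monic `f_n` over `K` of degree `d` with coefficients within `ε_n` of those of `f`
(`Polynomial.exists_monic_and_natDegree_eq_and_norm_map_algebraMap_coeff_sub_lt`), and roots `α_n` of `f_n` inductively with
`‖α_{n+1} - α_n‖^d ≤ ‖f_{n+1}(α_n)‖` (`exists_roots_norm_sub_lt_of_norm_coeff_sub_lt` in Analysis/Normed/Field/Approximation);
roots are uniformly bounded; `α_n` is Cauchy for fast `ε_n`, its limit is a root.  (Alternative: `‖f(x)‖` has infimum `0`, …) -/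
theorem point_PC {K L : Type} [Field K] [NormedField L] [IsUltrametricDist L] [CompleteSpace L] [Algebra K L]
    (hi : DenseRange (algebraMap K L)) [IsAlgClosed K] : IsAlgClosed L :=
  PC.pointC hi

/-- assembly: PA, PB for `R ⧸ P'`, `C = UniformSpace.Completion K`, PC. -/
theorem exists_point (R : Type) [CommRing R] [IsLocalRing R] [IsNoetherianRing R] (P : Ideal R) [P.IsPrime]
    (a : R) (ha : a ∈ maximalIdeal R) (haP : a ∉ P) :
    ∃ (C : Type) (_ : NormedField C) (_ : IsUltrametricDist C) (_ : CompleteSpace C) (_ : IsAlgClosed C)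
      (z : R →+* Ob C), (∀ f ∈ P, z f = 0) ∧ z a ≠ 0 ∧ ∀ f ∈ maximalIdeal R, ‖z f‖ < 1 := by
  obtain ⟨P', h1, h2, h3, h4, h5⟩ := point_PA R P a ha haP
  have : Nontrivial (R ⧸ P') := Ideal.Quotient.nontrivial_iff.2 h1.ne_top
  have : IsLocalRing (R ⧸ P') := IsLocalRing.of_surjective' _ Ideal.Quotient.mk_surjective
  have : IsLocalHom (Ideal.Quotient.mk P') :=
    IsLocalHom.of_surjective _ Ideal.Quotient.mk_surjective
  have key : ∀ (x y : R) (N : ℕ), x ^ N ∈ P' ⊔ Ideal.span {y} →
      Ideal.Quotient.mk P' y ∣ Ideal.Quotient.mk P' x ^ N := by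
    intro x y N h
    obtain ⟨u, hu, w, hw, e⟩ := Submodule.mem_sup.1 h
    obtain ⟨c, rfl⟩ := Ideal.mem_span_singleton'.1 hw
    refine ⟨Ideal.Quotient.mk P' c, ?_⟩
    rw [← map_pow, ← e, map_add, Ideal.Quotient.eq_zero_iff_mem.2 hu, zero_add, map_mul, mul_comm]
  obtain ⟨K, _, _, _, z, z1, z2, z3⟩ := point_PB (R ⧸ P') (Ideal.Quotient.mk P' a)
    (map_nonunit _ _ ha) (fun h => h3 (Ideal.Quotient.eq_zero_iff_mem.1 h))
    (fun f hf => by
      obtain ⟨f, rfl⟩ := Ideal.Quotient.mk_surjective f
      obtain ⟨N, hN⟩ := h4 f (fun hu => hf (hu.map _))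
      exact ⟨N, key _ _ _ hN⟩)
    (fun b hb => by
      obtain ⟨b, rfl⟩ := Ideal.Quotient.mk_surjective b
      obtain ⟨N, hN⟩ := h5 b (fun h => hb (Ideal.Quotient.eq_zero_iff_mem.2 h))
      exact ⟨N, key _ _ _ hN⟩)
  let C := UniformSpace.Completion K
  let j : K →+* C := UniformSpace.Completion.coeRingHom
  have hj : ∀ x, ‖j x‖ = ‖x‖ := fun x => UniformSpace.Completion.norm_coe x
  have hU : IsUltrametricDist C :=
    IsUltrametricDist.isUltrametricDist_of_forall_norm_add_le_max_norm fun x y => by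
      induction x, y using UniformSpace.Completion.induction_on₂ with
      | hp => exact isClosed_le (by fun_prop) (by fun_prop)
      | ih x y =>
        rw [← UniformSpace.Completion.coe_add, UniformSpace.Completion.norm_coe,
          UniformSpace.Completion.norm_coe, UniformSpace.Completion.norm_coe]
        exact IsUltrametricDist.norm_add_le_max x y
  have hC : IsAlgClosed C := by
    let _ : Algebra K C := j.toAlgebra
    exact point_PC (K := K) (L := C) UniformSpace.Completion.denseRange_coe
  refine ⟨C, inferInstance, inferInstance, inferInstance, hC,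
    ((j.comp z).comp (Ideal.Quotient.mk P')).codRestrict (Ob C) (fun f => ?_), fun f hf => ?_, ?_,
    fun f hf => ?_⟩
  · rw [Ob.mem_iff]; exact (hj _).trans_le (z1 _)
  · apply Subtype.ext
    show j (z (Ideal.Quotient.mk P' f)) = 0
    rw [Ideal.Quotient.eq_zero_iff_mem.2 (h2 hf), map_zero, map_zero]
  · intro h
    have h6 : j (z (Ideal.Quotient.mk P' a)) = 0 := congrArg Subtype.val h
    exact z2 (j.injective (by rw [h6, map_zero]))
  · exact (hj _).trans_lt (z3 _ (map_nonunit _ _ hf))

end
end Crest.Agent.R227
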