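import Crest.Agent.R227.Defs

/-!
# 227-MOD: the module argument (pure algebra).
-/
set_option autoImplicit false

namespace Crest.Agent.R227
noncomputable section

namespace MOD
variable {O Y : Type*} [CommRing O] [AddCommGroup Y] [Module O Y]

theorem span_eig (Z : Module.End O Y) (T : Submodule O Y) (s : Finset O)
    (hs : ∀ a ∈ s, ∀ b ∈ s, a ≠ b → IsUnit (a - b))
    (hT : ∀ a ∈ s, ∀ w, Z w = a • w → w ∈ T) :
    LinearMap.ker (Polynomial.aeval Z (∏ a ∈ s, (Polynomial.X - Polynomial.C a))) ≤ T := by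
  classical
  induction s using Finset.induction_on with
  | empty =>
    intro y hy
    have : y = 0 := by simpa using hy
    rw [this]; exact T.zero_mem
  | insert a s ha ih =>
    have hc : IsCoprime (Polynomial.X - Polynomial.C a)
        (∏ b ∈ s, (Polynomial.X - Polynomial.C b)) :=
      IsCoprime.prod_right fun b hb => Polynomial.isCoprime_X_sub_C_of_isUnit_sub
        (hs a (Finset.mem_insert_self a s) b (Finset.mem_insert_of_mem hb)
          fun h => ha (h ▸ hb))
    rw [Finset.prod_insert ha, ← Polynomial.sup_ker_aeval_eq_ker_aeval_mul_of_coprime Z hc]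
    refine sup_le (fun w hw => hT a (Finset.mem_insert_self a s) w ?_)
      (ih (fun x hx y hy => hs x (Finset.mem_insert_of_mem hx) y (Finset.mem_insert_of_mem hy))
        fun x hx => hT x (Finset.mem_insert_of_mem hx))
    rw [← sub_eq_zero]
    simpa using hw

theorem sep {ι : Type*} (Z : Module.End O Y) (c : ι → O) (s : Finset ι)
    (hc : ∀ i ∈ s, ∀ j ∈ s, i ≠ j → IsUnit (c i - c j)) (v : ι → Y)
    (hv : ∀ i ∈ s, Z (v i) = c i • v i) (h0 : ∑ i ∈ s, v i = 0) : ∀ i ∈ s, v i = 0 := by
  classical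
  induction s using Finset.induction_on generalizing v with
  | empty => simp
  | insert a s ha ih =>
    rw [Finset.sum_insert ha] at h0
    have h1 : ∑ i ∈ s, (c i - c a) • v i = 0 := by
      have h2 := congrArg Z h0
      rw [map_add, map_sum, map_zero, hv a (Finset.mem_insert_self a s),
        Finset.sum_congr rfl fun i hi => hv i (Finset.mem_insert_of_mem hi)] at h2
      have h3 := congrArg (fun y => c a • y) h0
      simp only [smul_add, Finset.smul_sum, smul_zero] at h3
      simp only [sub_smul, Finset.sum_sub_distrib]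
      rw [eq_neg_of_add_eq_zero_right h2, eq_neg_of_add_eq_zero_right h3, sub_self]
    have h4 := ih (fun x hx y hy => hc x (Finset.mem_insert_of_mem hx) y
      (Finset.mem_insert_of_mem hy)) (fun i => (c i - c a) • v i) (fun i hi => by
        rw [map_smul, hv i (Finset.mem_insert_of_mem hi), smul_comm]) h1
    have h5 : ∀ i ∈ s, v i = 0 := fun i hi =>
      (hc i (Finset.mem_insert_of_mem hi) a (Finset.mem_insert_self a s)
        fun h => ha (h ▸ hi)).smul_eq_zero.1 (h4 i hi)
    intro i hi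
    rcases Finset.mem_insert.1 hi with rfl | hi
    · rwa [Finset.sum_eq_zero h5, add_zero] at h0
    · exact h5 i hi

theorem pow_eig (Z : Module.End O Y) (a : O) (w : Y) (h : Z w = a • w) (k : ℕ) :
    (Z ^ k) w = a ^ k • w := by
  induction k with
  | zero => simp
  | succ k ih => rw [pow_succ', Module.End.mul_apply, ih, map_smul, h, smul_smul, pow_succ]

end MOD

/-- PLAN: `Φ = cyclotomic (q-1) O = ∏_{λ primitive} (T - λ)` (`cyclotomic_eq_prod_X_sub_primitiveRoots`), the factors are pairwise coprime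
(`hu`), so every `y` is a sum of eigenvectors `w` of `Z` with primitive eigenvalue `λ` (`Polynomial.sup_ker_aeval_eq_ker_aeval_mul_of_coprime`
+ induction, or Lagrange idempotents).  For such `w`: `Z (S^j w) = λ^(p^j) S^j w`; the `λ^(p^j)`, `j < n`, are distinct
(`0 < |p^i - p^j| < q - 1`).  Apply `∏_{j ≠ j₀} (Z - λ^(p^j))` to the relation `∑ γ_j S^j w = 0` with `γ_{j₀}` a unit: `S^{j₀} w = 0`, so
`p w = S^n w = 0`. -/
theorem mod_arg {O Y : Type*} [CommRing O] [IsDomain O] [AddCommGroup Y] [Module O Y] (p n : ℕ) [Fact p.Prime]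
    (hn : 1 ≤ n) (μ : O) (hμ : IsPrimitiveRoot μ (p ^ n - 1))
    (hu : ∀ a b : O, a ^ (p ^ n - 1) = 1 → b ^ (p ^ n - 1) = 1 → a ≠ b → IsUnit (a - b))
    (Z S : Module.End O Y) (hZS : Z * S = S * Z ^ p)
    (hΦ : Polynomial.aeval Z (Polynomial.cyclotomic (p ^ n - 1) O) = 0) (hS : ∀ y, (S ^ n) y = (p : O) • y)
    (hrel : ∀ w : Fin n → Y, ∃ γ : Fin n → O, (∃ j, IsUnit (γ j)) ∧ ∑ j, γ j • w j = 0) (y : Y) :
    (p : O) • y = 0 := by
  have hp : 2 ≤ p := (Fact.out : p.Prime).two_le
  have hq : 2 ≤ p ^ n := le_trans hp (Nat.le_self_pow (by omega) p)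
  have hN : 0 < p ^ n - 1 := by omega
  rw [Polynomial.cyclotomic_eq_prod_X_sub_primitiveRoots hμ] at hΦ
  have key := MOD.span_eig Z (LinearMap.ker ((p : O) • (LinearMap.id : Y →ₗ[O] Y)))
    (primitiveRoots (p ^ n - 1) O)
    (fun a ha b hb hab => hu a b ((mem_primitiveRoots hN).1 ha).pow_eq_one
      ((mem_primitiveRoots hN).1 hb).pow_eq_one hab) (fun a ha w hw => by
      have ha' := (mem_primitiveRoots hN).1 ha
      have heig : ∀ j : ℕ, Z ((S ^ j) w) = a ^ (p ^ j) • (S ^ j) w := by
        intro j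
        induction j with
        | zero => simpa using hw
        | succ j ih =>
          rw [pow_succ' S, Module.End.mul_apply, ← Module.End.mul_apply Z S, hZS,
            Module.End.mul_apply, MOD.pow_eig Z _ _ ih, map_smul, ← pow_mul, ← pow_succ]
      obtain ⟨γ, ⟨j₀, hj₀⟩, hγ⟩ := hrel fun j => (S ^ (j : ℕ)) w
      have hlt : ∀ i j : Fin n, i ≠ j → p ^ (i : ℕ) < p ^ n - 1 := by
        intro i j hij
        have h1 := i.isLt
        have h2 := j.isLt
        have h3 : (i : ℕ) ≠ j := fun h => hij (Fin.ext h)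
        obtain ⟨k, rfl⟩ : ∃ k, n = k + 2 := ⟨n - 2, by omega⟩
        have h4 : p ^ (i : ℕ) ≤ p ^ (k + 1) := Nat.pow_le_pow_right (by omega) (by omega)
        have h5 : 2 ≤ p ^ (k + 1) := le_trans hp (Nat.le_self_pow (by omega) p)
        have h6 : p ^ (k + 1) * 2 ≤ p ^ (k + 2) := by
          rw [pow_succ p (k + 1)]; exact Nat.mul_le_mul_left _ hp
        omega
      have hz := MOD.sep Z (fun j : Fin n => a ^ (p ^ (j : ℕ))) Finset.univ
        (fun i _ j _ hij => hu _ _
          (by rw [← pow_mul, mul_comm, pow_mul, ha'.pow_eq_one, one_pow])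
          (by rw [← pow_mul, mul_comm, pow_mul, ha'.pow_eq_one, one_pow])
          fun h => hij (Fin.ext (Nat.pow_right_injective hp
            (ha'.pow_inj (hlt i j hij) (hlt j i (Ne.symm hij)) h))))
        (fun j => γ j • (S ^ (j : ℕ)) w) (fun j _ => by rw [map_smul, heig, smul_comm]) hγ j₀
        (Finset.mem_univ _)
      have hz' : (S ^ (j₀ : ℕ)) w = 0 := hj₀.smul_eq_zero.1 hz
      have h7 : (S ^ n) w = 0 := by
        have h8 : n = (n - j₀) + j₀ := by have := j₀.isLt; omega
        rw [h8, pow_add, Module.End.mul_apply, hz', map_zero]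
      rw [hS] at h7
      simpa using h7)
  have hy := key (x := y) (by rw [hΦ]; simp)
  simpa using hy

variable {C : Type} [NormedField C] [IsUltrametricDist C]

/-- roots of unity of order prime to `p` in `O`.  PLAN: `‖N‖ = 1` for `p ∤ N` (Bezout, `‖p‖ < 1`); `ξ = b/a ≠ 1`, `∑_{i<N} ξ^i = 0`;
if `‖ξ - 1‖ < 1` then `‖∑ ξ^i - N‖ < 1`.  Existence: `HasEnoughRootsOfUnity`/`IsAlgClosed` in char 0; a root of unity has norm 1. -/
theorem roots_Ob [IsAlgClosed C] [CharZero C] (p : ℕ) [Fact p.Prime] (hp : ‖(p : C)‖ < 1) (N : ℕ) (hN : ¬ p ∣ N) :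
    (∃ μ : Ob C, IsPrimitiveRoot μ N) ∧ ∀ a b : Ob C, a ^ N = 1 → b ^ N = 1 → a ≠ b → IsUnit (a - b) := by
  have hN0 : N ≠ 0 := by rintro rfl; exact hN (dvd_zero p)
  have hone : ∀ x : C, x ^ N = 1 → ‖x‖ = 1 := fun x hx => by
    have := congrArg norm hx
    rw [norm_pow, norm_one] at this
    exact (pow_eq_one_iff_of_nonneg (norm_nonneg x) hN0).1 this
  have hnorm : ‖(N : C)‖ = 1 := by
    refine le_antisymm (IsUltrametricDist.norm_natCast_le_one C N) ?_
    by_contra hlt
    push Not at hlt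
    have hcop : IsCoprime (p : ℤ) (N : ℤ) :=
      Nat.isCoprime_iff_coprime.2 ((Nat.Prime.coprime_iff_not_dvd Fact.out).2 hN)
    obtain ⟨u, v, huv⟩ := hcop
    have h1 : (u : C) * p + (v : C) * N = 1 := by exact_mod_cast congrArg (Int.cast : ℤ → C) huv
    have h2 := IsUltrametricDist.norm_add_le_max ((u : C) * p) ((v : C) * N)
    rw [h1, norm_one, norm_mul, norm_mul] at h2
    have hu := IsUltrametricDist.norm_intCast_le_one C u
    have hv := IsUltrametricDist.norm_intCast_le_one C v
    have h3 : ‖(u : C)‖ * ‖(p : C)‖ < 1 := mul_lt_one_of_nonneg_of_lt_one_right hu (norm_nonneg _) hp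
    have h4 : ‖(v : C)‖ * ‖(N : C)‖ < 1 :=
      mul_lt_one_of_nonneg_of_lt_one_right hv (norm_nonneg _) hlt
    exact absurd h2 (not_le.2 (max_lt h3 h4))
  constructor
  · have : NeZero N := ⟨hN0⟩
    have : NeZero (N : C) := ⟨Nat.cast_ne_zero.2 hN0⟩
    obtain ⟨ζ, hζ⟩ := HasEnoughRootsOfUnity.exists_primitiveRoot C N
    refine ⟨⟨ζ, (hone ζ hζ.pow_eq_one).le⟩, ?_⟩
    exact IsPrimitiveRoot.of_map_of_injective (f := (Ob C).subtype) hζ Subtype.val_injective
  · intro a b ha hb hab
    rw [Ob.isUnit_iff]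
    refine le_antisymm (Ob.norm_le_one _) ?_
    by_contra hlt
    push Not at hlt
    have h1 := Commute.geom_sum₂_mul (Commute.all a b) N
    rw [ha, hb, sub_self] at h1
    have h2 : ∑ i ∈ Finset.range N, a ^ i * b ^ (N - 1 - i) = 0 :=
      (mul_eq_zero.1 h1).resolve_right (sub_ne_zero.2 hab)
    have h3 : Ideal.Quotient.mk (Ob.mO C) a = Ideal.Quotient.mk (Ob.mO C) b :=
      Ideal.Quotient.eq.2 hlt
    have h4 : Ideal.Quotient.mk (Ob.mO C) ((N : Ob C) * b ^ (N - 1)) = 0 := by
      have h5 := congrArg (Ideal.Quotient.mk (Ob.mO C)) h2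
      rw [map_sum, map_zero, Finset.sum_congr rfl (g := fun _ =>
        Ideal.Quotient.mk (Ob.mO C) b ^ (N - 1)) fun i hi => by
          rw [map_mul, map_pow, map_pow, h3, ← pow_add]
          congr 1
          have := Finset.mem_range.1 hi
          omega] at h5
      simpa using h5
    rw [Ideal.Quotient.eq_zero_iff_mem, Ob.mem_mO, norm_mul, norm_pow] at h4
    have h6 : ‖b‖ = 1 := hone (b : C) (by exact_mod_cast congrArg Subtype.val hb)
    have h7 : ‖(N : Ob C)‖ = 1 := by rw [← Ob.norm_coe]; simpa using hnorm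
    rw [h6, h7] at h4
    simp at h4

/-- `m + 1` vectors in the span of `m` vectors satisfy a unimodular `O`-relation.
PLAN: linear dependence over `C` (`finrank_span_le_card`/`LinearIndependent.fintype_card_le_finrank`), divide by a coefficient of maximal norm. -/
theorem unimod_rel {V : Type*} [AddCommGroup V] [Module C V] {m : ℕ} (v : Fin m → V) (w : Fin (m + 1) → V)
    (hw : ∀ j, w j ∈ Submodule.span C (Set.range v)) :
    ∃ γ : Fin (m + 1) → Ob C, (∃ j, IsUnit (γ j)) ∧ ∑ j, (γ j : C) • w j = 0 := by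
  have hdep : ¬ LinearIndependent C w := by
    intro hli
    have h1 : LinearIndependent C
        (fun j => (⟨w j, hw j⟩ : Submodule.span C (Set.range v))) :=
      LinearIndependent.of_comp (Submodule.span C (Set.range v)).subtype hli
    have : Module.Finite C (Submodule.span C (Set.range v)) :=
      Module.Finite.span_of_finite C (Set.finite_range v)
    have h2 := h1.fintype_card_le_finrank
    have h3 := finrank_range_le_card (R := C) v
    simp only [Fintype.card_fin, Set.finrank] at h2 h3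
    omega
  obtain ⟨g, hg, j, hj⟩ := Fintype.not_linearIndependent_iff.1 hdep
  obtain ⟨k, hk⟩ := Finite.exists_max fun i => ‖g i‖
  have hk0 : g k ≠ 0 := by
    intro h
    have := hk j
    rw [h, norm_zero] at this
    exact hj (norm_le_zero_iff.1 this)
  refine ⟨fun i => ⟨g i / g k, ?_⟩, ⟨k, ?_⟩, ?_⟩
  · rw [Ob.mem_iff, norm_div]
    exact div_le_one_of_le₀ (hk i) (norm_nonneg _)
  · rw [Ob.isUnit_iff, ← Ob.norm_coe]
    simp [hk0]
  · have h := congrArg (fun x => (g k)⁻¹ • x) hg
    simp only [Finset.smul_sum, smul_smul, smul_zero] at h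
    simp only [div_eq_inv_mul]
    exact h

end
end Crest.Agent.R227
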