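import Crest.Agent.R227.ZeroB
import Crest.Agent.R227.Std
import Crest.Agent.R227.Mod

/-!
# 227-ZC: the quasi-logarithms span `n` dimensions; the characteristic zero case.
-/
set_option autoImplicit false
open Crest.LubinTate MvPowerSeries

namespace Crest.Agent.R227
noncomputable section
variable {C : Type} [NormedField C] [IsUltrametricDist C] [CharZero C] [IsAlgClosed C] {p : ℕ} [Fact p.Prime] {n : ℕ}

namespace ZC
open FGA

omit [CharZero C] [IsAlgClosed C] in
theorem osmul (c : Ob C) (x : PowerSeries C) : c • x = (c : C) • x := by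
  ext d; rfl

/-- series whose first `D` coefficients are bounded by `t`. -/
def NN (C : Type) [NormedField C] [IsUltrametricDist C] (D : ℕ) (t : ℝ) (ht : 0 ≤ t) :
    Submodule (Ob C) (PowerSeries C) where
  carrier := {A | ∀ d < D, ‖PowerSeries.coeff d A‖ ≤ t}
  add_mem' := fun {a b} ha hb d hd => by
    rw [map_add]
    exact (IsUltrametricDist.norm_add_le_max _ _).trans (max_le (ha d hd) (hb d hd))
  zero_mem' := fun d _ => by simpa using ht
  smul_mem' := fun c x hx d hd => by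
    have : PowerSeries.coeff d (c • x) = (c : C) * PowerSeries.coeff d x := by
      rw [osmul, PowerSeries.coeff_smul, smul_eq_mul]
    rw [this, norm_mul]
    exact (mul_le_of_le_one_left (norm_nonneg _) (Ob.norm_le_one c)).trans (hx d hd)

omit [CharZero C] [IsAlgClosed C] in
theorem mem_NN {D : ℕ} {t : ℝ} {ht : 0 ≤ t} {A : PowerSeries C} :
    A ∈ NN C D t ht ↔ ∀ d < D, ‖PowerSeries.coeff d A‖ ≤ t := Iff.rfl

theorem cmap {R S : Type*} [CommRing R] [CommRing S] (f : R →+* S) {θ : PowerSeries R}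
    (h : PowerSeries.constantCoeff θ = 0) : PowerSeries.constantCoeff (θ.map f) = 0 := by
  rw [← PowerSeries.coeff_zero_eq_constantCoeff_apply, PowerSeries.coeff_map,
    PowerSeries.coeff_zero_eq_constantCoeff_apply, h, map_zero]

theorem map_sub' {R S : Type*} [CommRing R] [CommRing S] (f : R →+* S) (η : PowerSeries R) {θ : PowerSeries R}
    (h : PowerSeries.constantCoeff θ = 0) :
    PowerSeries.map f (η.subst θ) = (η.map f).subst (θ.map f) :=
  PowerSeries.map_subst (hs0 h) (h := f) η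

/-- composition with a series. -/
def TT {θ : PowerSeries C} (h : PowerSeries.constantCoeff θ = 0) : PowerSeries C →ₗ[Ob C] PowerSeries C :=
  ((PowerSeries.substAlgHom (R := C) (hs0 h)).toLinearMap).restrictScalars (Ob C)

omit [CharZero C] [IsAlgClosed C] in
theorem TT_apply {θ : PowerSeries C} (h : PowerSeries.constantCoeff θ = 0) (A : PowerSeries C) :
    TT h A = A.subst θ := by
  simp [TT, PowerSeries.coe_substAlgHom]

omit [CharZero C] [IsAlgClosed C] in
theorem TT_le {θ : PowerSeries (Ob C)} (h : PowerSeries.constantCoeff (θ.map (Ob C).subtype) = 0)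
    (D : ℕ) (t : ℝ) (ht : 0 ≤ t) : NN C D t ht ≤ (NN C D t ht).comap (TT h) := by
  intro A hA d hd
  rw [TT_apply, coeff_subst_eq_sum _ _ h D d hd]
  refine IsUltrametricDist.norm_sum_le_of_forall_le_of_nonneg ht fun i hi => ?_
  rw [norm_mul, ← map_pow, PowerSeries.coeff_map]
  exact (mul_le_of_le_one_right (norm_nonneg _) (Ob.norm_le_one _)).trans (hA i (Finset.mem_range.1 hi))

/-- admissible series: lifts of endomorphisms of `Γ`. -/
def Adm (c : Ctx p n) (η : PowerSeries (LTRing p n)) : Prop :=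
  PowerSeries.constantCoeff η = 0 ∧ IsFGHom c.Γ c.Γ (η.map (LTRing.residue p n))

theorem Adm.comp {c : Ctx p n} {η θ : PowerSeries (LTRing p n)} (h1 : Adm c η) (h2 : Adm c θ) :
    Adm c (η.subst θ) :=
  ⟨constps h2.1 h1.1, by rw [map_sub' _ _ h2.1]; exact hom_comp h2.2 h1.2⟩

theorem Adm.itr {c : Ctx p n} {θ : PowerSeries (LTRing p n)} (h : Adm c θ) (i : ℕ) : Adm c (itr θ i) :=
  ⟨itr_const h.1 i, by rw [itr_map h.1]; exact hom_itr h.2 i⟩

theorem adm_X (c : Ctx p n) : Adm c PowerSeries.X :=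
  ⟨PowerSeries.constantCoeff_X, by rw [PowerSeries.map_X]; exact hom_X _⟩

/-- the quasi-logarithm of `η`. -/
def ql (c : Ctx p n) (z : LTRing p n →+* Ob C) (η : PowerSeries (LTRing p n)) : PowerSeries C :=
  (flog (c.H.map ((Ob C).subtype.comp z))).subst (η.map ((Ob C).subtype.comp z))

omit [CharZero C] [IsAlgClosed C] in
theorem map_map' (z : LTRing p n →+* Ob C) (η : PowerSeries (LTRing p n)) :
    (η.map z).map (Ob C).subtype = η.map ((Ob C).subtype.comp z) := by
  ext d; simp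

omit [CharZero C] [IsAlgClosed C] in
theorem ql_comp (c : Ctx p n) (z : LTRing p n →+* Ob C) {η θ : PowerSeries (LTRing p n)}
    (hη : PowerSeries.constantCoeff η = 0) (hθ : PowerSeries.constantCoeff θ = 0) :
    (ql c z η).subst ((θ.map z).map (Ob C).subtype) = ql c z (η.subst θ) := by
  rw [ql, ql, map_map', map_sub' _ _ hθ]
  exact comp (hs0 (cmap _ hθ)) (hs0 (cmap _ hη)) _

omit [IsAlgClosed C] in
theorem ql_mul (c : Ctx p n) (z : LTRing p n →+* Ob C) {η : PowerSeries (LTRing p n)}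
    (hη : PowerSeries.constantCoeff η = 0) (m : ℕ) :
    ql c z ((mulSeries c.H m).subst η) = (m : C) • ql c z η := by
  rw [ql, ql, map_sub' _ _ hη, mul_map, ← comp (hs0 (cmap _ hη)) (hs0 (mul_const _ m)),
    flog_hom (hom_mul _ m), mul_coeff_one, ← PowerSeries.smul_eq_C_mul,
    ← PowerSeries.coe_substAlgHom (hs0 (cmap _ hη)), map_smul]

omit [CharZero C] [IsAlgClosed C] in
theorem hp_lt (z : LTRing p n →+* Ob C) (zm : ∀ f ∈ mm p n, ‖z f‖ < 1) : ‖(p : C)‖ < 1 := by
  have := zm _ (p_mem_mm p n)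
  rw [map_natCast] at this
  simpa [← Ob.norm_coe] using this

omit [IsAlgClosed C] in
theorem ql_bdd (c : Ctx p n) (z : LTRing p n →+* Ob C) (zm : ∀ f ∈ mm p n, ‖z f‖ < 1) :
    ∃ R₀ : ℝ, ∀ η η' : PowerSeries (LTRing p n), PowerSeries.constantCoeff η = 0 →
      PowerSeries.constantCoeff η' = 0 → η.map (LTRing.residue p n) = η'.map (LTRing.residue p n) →
      ∀ d, ‖PowerSeries.coeff d (ql c z η - ql c z η')‖ ≤ R₀ := by
  obtain ⟨δ, hδ0, hδ1, hδ⟩ := exists_delta z zm
  obtain ⟨R₀, hR⟩ := log_bdd p (hp_lt z zm) hδ0 hδ1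
  refine ⟨R₀, fun η η' h h' he d => ?_⟩
  have := hR (c.H.map z) (η.map z) (η'.map z) (cmap _ h) (cmap _ h') (fun e => by
    rw [← map_sub, PowerSeries.coeff_map]
    refine hδ _ ?_
    rw [mm, RingHom.mem_ker, ← PowerSeries.coeff_map, map_sub, he, sub_self, map_zero]) d
  rwa [fg_map_map, map_map', map_map'] at this

omit [IsAlgClosed C] in
theorem exists_qlPt (c : Ctx p n) (z : LTRing p n →+* Ob C) :
    ∃ Ψ : c.H.Point Unit →+ PowerSeries C, ∀ A, Ψ A = ql c z A.val := by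
  obtain ⟨Φ₁, h₁⟩ := exists_mapPt c.H ((Ob C).subtype.comp z) Unit
  obtain ⟨Φ₂, h₂⟩ := exists_logPt (c.H.map ((Ob C).subtype.comp z)) Unit
  exact ⟨Φ₂.comp Φ₁, fun A => by rw [AddMonoidHom.comp_apply, h₂, h₁]; rfl⟩

theorem pt_const (c : Ctx p n) (A : c.H.Point Unit) :
    PowerSeries.constantCoeff (A.val : PowerSeries (LTRing p n)) = 0 :=
  IsNilpotent.eq_zero A.prop

omit [CharZero C] [IsAlgClosed C] in
theorem rel_n (hn : 1 ≤ n) {V : Type*} [AddCommGroup V] [Module C V] (v : Fin (n - 1) → V) (w : Fin n → V)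
    (hw : ∀ j, w j ∈ Submodule.span C (Set.range v)) :
    ∃ γ : Fin n → Ob C, (∃ j, IsUnit (γ j)) ∧ ∑ j, (γ j : C) • w j = 0 := by
  obtain ⟨m, rfl⟩ : ∃ m, n = m + 1 := ⟨n - 1, by omega⟩
  exact unimod_rel (m := m) v w hw

theorem key (c : Ctx p n) (z : LTRing p n →+* Ob C) (zm : ∀ f ∈ mm p n, ‖z f‖ < 1) (R : ℝ)
    (v : Fin (n - 1) → PowerSeries C) (hQ : Quasi c z R v) (t : ℝ) (ht : 0 ≤ t) (hRt : R ≤ t)
    (hb : ∀ η η' : PowerSeries (LTRing p n), PowerSeries.constantCoeff η = 0 →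
      PowerSeries.constantCoeff η' = 0 → η.map (LTRing.residue p n) = η'.map (LTRing.residue p n) →
      ∀ d, ‖PowerSeries.coeff d (ql c z η - ql c z η')‖ ≤ t) (D : ℕ) :
    ((p : Ob C) • ql c z PowerSeries.X) ∈ NN C D t ht := by
  classical
  set N := NN C D t ht with hN
  set g : PowerSeries (LTRing p n) → PowerSeries C ⧸ N := fun η => N.mkQ (ql c z η) with hg
  have geq : ∀ η η' : PowerSeries (LTRing p n), PowerSeries.constantCoeff η = 0 →
      PowerSeries.constantCoeff η' = 0 → η.map (LTRing.residue p n) = η'.map (LTRing.residue p n) →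
      g η = g η' := fun η η' h h' he =>
    (Submodule.Quotient.eq N).2 fun d _ => hb η η' h h' he d
  set Y : Submodule (Ob C) (PowerSeries C ⧸ N) := Submodule.span (Ob C) (g '' {η | Adm c η}) with hY
  have gY : ∀ η, Adm c η → g η ∈ Y := fun η h => Submodule.subset_span ⟨η, h, rfl⟩
  -- composition operators
  have hop : ∀ θ, Adm c θ → ∃ T : Module.End (Ob C) Y, ∀ η (h : Adm c η),
      (T ⟨g η, gY η h⟩ : PowerSeries C ⧸ N) = g (η.subst θ) := by
    intro θ hθ
    have h0 : PowerSeries.constantCoeff ((θ.map z).map (Ob C).subtype) = 0 := cmap _ (cmap _ hθ.1)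
    set T := N.mapQ N (TT h0) (TT_le h0 D t ht) with hT
    have hTg : ∀ η, Adm c η → T (g η) = g (η.subst θ) := fun η h => by
      simp only [hT, hg, Submodule.mkQ_apply, Submodule.mapQ_apply, TT_apply]
      rw [ql_comp c z h.1 hθ.1]
    have hTY : ∀ y ∈ Y, T y ∈ Y := by
      intro y hy
      have : Y ≤ Y.comap T := Submodule.span_le.2 (by
        rintro _ ⟨η, h, rfl⟩
        change T (g η) ∈ Y
        rw [hTg η h]
        exact gY _ (Adm.comp h hθ))
      exact this hy
    exact ⟨T.restrict hTY, fun η h => hTg η h⟩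
  -- extensionality on generators
  have hext : ∀ A B : Module.End (Ob C) Y, (∀ η (h : Adm c η), A ⟨g η, gY η h⟩ = B ⟨g η, gY η h⟩) → A = B := by
    intro A B hAB
    ext1 ⟨y, hy⟩
    induction hy using Submodule.span_induction with
    | mem x hx => obtain ⟨η, h, rfl⟩ := hx; exact hAB η h
    | zero => exact (map_zero A).trans (map_zero B).symm
    | add x y hx hy ihx ihy =>
      have : (⟨x + y, Submodule.add_mem _ hx hy⟩ : Y) = ⟨x, hx⟩ + ⟨y, hy⟩ := rfl
      rw [this, map_add, map_add, ihx, ihy]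
    | smul a x hx ih =>
      have : (⟨a • x, Submodule.smul_mem _ a hx⟩ : Y) = a • ⟨x, hx⟩ := rfl
      rw [this, map_smul, map_smul, ih]
  have hpow : ∀ θ (hθ : Adm c θ) (T : Module.End (Ob C) Y), (∀ η (h : Adm c η),
      (T ⟨g η, gY η h⟩ : PowerSeries C ⧸ N) = g (η.subst θ)) → ∀ i η (h : Adm c η),
      (T ^ i) ⟨g η, gY η h⟩ = ⟨g (η.subst (itr θ i)), gY _ (h.comp (hθ.itr i))⟩ := by
    intro θ hθ T hT i η h
    induction i with
    | zero =>
      refine Subtype.ext ?_
      simp only [pow_zero, Module.End.one_apply, itr]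
      rw [PowerSeries.X_subst]
    | succ i ih =>
      rw [pow_succ', Module.End.mul_apply, ih]
      refine Subtype.ext ?_
      rw [hT _ (h.comp (hθ.itr i))]
      simp only [itr]
      rw [comp (hs0 hθ.1) (hs0 (itr_const hθ.1 i))]
  obtain ⟨eZ, eS, hZ, hS, hZS, hSn, P, hP, hΦ⟩ := std0 c
  obtain ⟨ηZ, hZ0, hZr⟩ := exists_lift eZ hZ.1
  obtain ⟨ηS, hS0, hSr⟩ := exists_lift eS hS.1
  have aZ : Adm c ηZ := ⟨hZ0, hZr ▸ hZ⟩
  have aS : Adm c ηS := ⟨hS0, hSr ▸ hS⟩
  obtain ⟨Z, hZg⟩ := hop ηZ aZ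
  obtain ⟨S, hSg⟩ := hop ηS aS
  have hq1 : 1 < p ^ n := Honda.one_lt_q c.hn
  have hnd : ¬ p ∣ p ^ n - 1 := fun h => by
    have h2 : p ∣ p ^ n := dvd_pow_self p (by have := c.hn; omega)
    have := (Nat.dvd_sub_iff_right hq1.le h2).1 h
    exact (Fact.out : p.Prime).one_lt.ne' (Nat.dvd_one.1 this)
  obtain ⟨⟨μ, hμ⟩, hu⟩ := roots_Ob (C := C) p (hp_lt z zm) (p ^ n - 1) hnd
  have main := mod_arg (O := Ob C) (Y := Y) p n c.hn μ hμ hu Z S ?_ ?_ ?_ ?_ ⟨g PowerSeries.X, gY _ (adm_X c)⟩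
  · have h1 : (p : Ob C) • g PowerSeries.X = 0 := congrArg Subtype.val main
    rw [hg, ← map_smul, Submodule.mkQ_apply, Submodule.Quotient.mk_eq_zero] at h1
    exact h1
  · refine hext _ _ fun η h => ?_
    rw [Module.End.mul_apply, Module.End.mul_apply, hpow ηZ aZ Z hZg p η h]
    refine Subtype.ext ?_
    have e1 : S ⟨g η, gY η h⟩ = ⟨g (η.subst ηS), gY _ (h.comp aS)⟩ := Subtype.ext (hSg η h)
    rw [e1, hZg _ (h.comp aS), hSg _ (h.comp (aZ.itr p))]
    refine geq _ _ ((h.comp aS).comp aZ).1 ((h.comp (aZ.itr p)).comp aS).1 ?_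
    rw [map_sub' _ _ hZ0, map_sub' _ _ hS0, map_sub' _ _ hS0, map_sub' _ _ (itr_const hZ0 p), itr_map hZ0,
      hZr, hSr, comp (hs0 hZ.1) (hs0 hS.1), comp (hs0 hS.1) (hs0 (itr_const hZ.1 p)), hZS]
  · refine hext _ _ fun η h => ?_
    have hdeg : (Polynomial.cyclotomic (p ^ n - 1) (Ob C)).natDegree < p ^ n := by
      rw [Polynomial.natDegree_cyclotomic]
      exact lt_of_le_of_lt (Nat.totient_le _) (by omega)
    rw [Polynomial.aeval_eq_sum_range' hdeg, LinearMap.sum_apply, LinearMap.zero_apply]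
    refine Subtype.ext ?_
    rw [Submodule.coe_sum, Submodule.coe_zero]
    obtain ⟨Ψ, hΨ⟩ := exists_qlPt c z
    have hres := exists_mapPt c.H (LTRing.residue p n) Unit
    rw [H_res c] at hres
    obtain ⟨ρ, hρ⟩ := hres
    obtain ⟨κ, hκ⟩ := exists_homPt h.2 Unit
    set Q : ℕ → c.H.Point Unit := fun i => ⟨η.subst (itr ηZ i), hs0 (h.comp (aZ.itr i)).1⟩ with hQ'
    have hρQ : ∀ i, ρ (Q i) = κ (P i) := fun i => Subtype.ext (by
      rw [hρ, hκ, hP]
      have := map_sub' (LTRing.residue p n) η (itr_const hZ0 i)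
      rw [itr_map hZ0, hZr] at this
      exact this)
    have hsum : ∀ a : ℕ → ℕ, g (∑ i ∈ Finset.range (p ^ n), a i • Q i).val =
        ∑ i ∈ Finset.range (p ^ n), a i • g (η.subst (itr ηZ i)) := fun a => by
      simp only [hg]
      rw [← hΨ, map_sum, map_sum]
      refine Finset.sum_congr rfl fun i _ => ?_
      rw [map_nsmul, map_nsmul, hΨ]
    have hE := geq _ _ (pt_const c (∑ i ∈ Finset.range (p ^ n),
        ((Polynomial.cyclotomic (p ^ n - 1) ℤ).coeff i).toNat • Q i))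
      (pt_const c (∑ i ∈ Finset.range (p ^ n),
        (-(Polynomial.cyclotomic (p ^ n - 1) ℤ).coeff i).toNat • Q i)) (by
        have e : ∀ A : c.H.Point Unit, PowerSeries.map (LTRing.residue p n) A.val = (ρ A).val :=
          fun A => (hρ A).symm
        rw [e, e, map_sum, map_sum]
        simp only [map_nsmul, hρQ]
        have := congrArg κ hΦ
        rw [map_sum, map_sum] at this
        simp only [map_nsmul] at this
        rw [this])
    rw [hsum, hsum, ← sub_eq_zero, ← Finset.sum_sub_distrib] at hE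
    rw [← hE]
    refine Finset.sum_congr rfl fun i _ => ?_
    rw [LinearMap.smul_apply, hpow ηZ aZ Z hZg i η h, Submodule.coe_smul,
      ← Polynomial.map_cyclotomic_int, Polynomial.coeff_map, eq_intCast, Int.cast_smul_eq_zsmul,
      ← natCast_zsmul, ← natCast_zsmul, ← sub_smul, Int.toNat_sub_toNat_neg]
  · have : S ^ n = (p : Ob C) • (1 : Module.End (Ob C) Y) := by
      refine hext _ _ fun η h => ?_
      rw [hpow ηS aS S hSg n η h]
      refine Subtype.ext ?_
      rw [LinearMap.smul_apply, Module.End.one_apply, Submodule.coe_smul]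
      have e1 : g (η.subst (itr ηS n)) = g ((mulSeries c.H p).subst η) := by
        refine geq _ _ (h.comp (aS.itr n)).1 (constps h.1 (mul_const _ _)) ?_
        rw [map_sub' _ _ (itr_const hS0 n), map_sub' _ _ h.1, itr_map hS0, hSr, hSn, mul_map, H_res c,
          ← hom_mul_comm h.2, c.hΓ]
      refine e1.trans ?_
      simp only [hg]
      rw [ql_mul c z h.1, ← map_smul, osmul]
      simp
    intro y
    rw [this]; rfl
  · intro w
    have hw : ∀ y ∈ Y, ∃ u ∈ Submodule.span C (Set.range v), N.mkQ u = y := by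
      have : Y ≤ ((Submodule.span C (Set.range v)).restrictScalars (Ob C)).map N.mkQ := by
        refine Submodule.span_le.2 ?_
        rintro _ ⟨η, h, rfl⟩
        obtain ⟨γ, hγ⟩ := hQ η h.1 h.2 D
        refine ⟨∑ j, γ j • v j, Submodule.sum_mem _ fun j _ =>
          Submodule.smul_mem (Submodule.span C (Set.range v)) _ (Submodule.subset_span ⟨j, rfl⟩), ?_⟩
        exact ((Submodule.Quotient.eq N).2 fun d hd => (hγ d hd).trans hRt).symm
      exact fun y hy => this hy
    choose u hu1 hu2 using fun j => hw (w j).1 (w j).2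
    obtain ⟨γ, hγ1, hγ2⟩ := rel_n c.hn v u hu1
    refine ⟨γ, hγ1, Subtype.ext ?_⟩
    rw [Submodule.coe_sum, Submodule.coe_zero, ← map_zero N.mkQ, ← hγ2, map_sum]
    refine Finset.sum_congr rfl fun j _ => ?_
    rw [Submodule.coe_smul, ← hu2, ← map_smul, osmul]

end ZC

/-- the quasi-logarithms do not lie in an `(n-1)`-dimensional space up to a bounded error. -/
theorem no_quasi (c : Ctx p n) (z : LTRing p n →+* Ob C) (zm : ∀ f ∈ mm p n, ‖z f‖ < 1) (R : ℝ)
    (v : Fin (n - 1) → PowerSeries C) : ¬ Quasi c z R v := by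
  intro hQ
  obtain ⟨R₀, hR₀⟩ := ZC.ql_bdd c z zm
  obtain ⟨δ, hδ0, hδ1, hδ⟩ := exists_delta z zm
  have hp0 : 0 < ‖(p : C)‖ := norm_pos_iff.2 (Nat.cast_ne_zero.2 (Fact.out : p.Prime).ne_zero)
  set t := max 0 (max R R₀) with ht
  refine log_unbdd p (p ^ n) (pow_ne_zero n (Fact.out : p.Prime).ne_zero) (ZC.hp_lt z zm) hδ1 (c.H.map z)
    (fun d => ?_) (t / ‖(p : C)‖) fun d => ?_
  · have := hδ _ (mul_sub_mem_mm c d)
    rwa [← PowerSeries.coeff_map, map_sub, mul_map, map_pow, PowerSeries.map_X] at this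
  · have := ZC.key c z zm R v hQ t (le_max_left _ _) ((le_max_left _ _).trans (le_max_right _ _))
      (fun η η' h h' he e => (hR₀ η η' h h' he e).trans ((le_max_right _ _).trans (le_max_right _ _)))
      (d + 1) d (Nat.lt_succ_self d)
    rw [ZC.osmul, PowerSeries.coeff_smul, smul_eq_mul, norm_mul, ZC.ql, PowerSeries.map_X,
      PowerSeries.X_subst] at this
    rw [fg_map_map, le_div_iff₀ hp0, mul_comm]
    simpa using this

/-- the characteristic zero case. -/
theorem char0 (c : Ctx p n) {M : ℕ} {J : Ideal (LTRing p n)} (hJ : IsStableIdeal p n c.Γ c.H M J)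
    (z : LTRing p n →+* Ob C) (zm : ∀ f ∈ mm p n, ‖z f‖ < 1) (zJ : ∀ f ∈ J, z f = 0) : J = ⊥ := by
  set Jt : Ideal (LTRing p n) := ⨅ z' : {z' : LTRing p n →+* Ob C //
    (∀ g ∈ mm p n, ‖z' g‖ < 1) ∧ ∀ g ∈ J, z' g = 0}, RingHom.ker z'.1 with hJt
  have hmem : ∀ f, f ∈ Jt ↔ ∀ z' : LTRing p n →+* Ob C, (∀ g ∈ mm p n, ‖z' g‖ < 1) →
      (∀ g ∈ J, z' g = 0) → z' f = 0 := fun f => by
    rw [hJt, Ideal.mem_iInf]
    exact ⟨fun h z' h1 h2 => h ⟨z', h1, h2⟩, fun h z' => h z'.1 z'.2.1 z'.2.2⟩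
  have h0 : Jt = ⊥ := by
    refine euler z zm Jt (fun f hf l => ?_) fun f hf => (hmem f).1 hf z zm zJ
    refine (hmem _).2 fun z' h1 h2 => ?_
    by_contra hne
    obtain ⟨R, v, hQ⟩ := quasi c hJ z' h1 h2 f ((hmem f).1 hf) l hne
    exact no_quasi c z' h1 R v hQ
  rw [eq_bot_iff, ← h0]
  exact fun f hf => (hmem f).2 fun z' _ h2 => h2 f hf

end
end Crest.Agent.R227
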