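import Crest.Agent.R227.CharP
import Crest.Agent.R227.ZeroC
import Crest.Agent.R227.Point

/-!
# Row 227: the main lemma and the classification.
-/
set_option autoImplicit false
open Crest.LubinTate IsLocalRing

namespace Crest.Agent.R227
noncomputable section
variable {p : ℕ} [Fact p.Prime] {n : ℕ}

theorem hI_succ (c : Ctx p n) (h : ℕ) :
    heightIdeal p n c.H (h + 1) = heightIdeal p n c.H h ⊔ Ideal.span {aa c h} := rfl

theorem hIE_mono (c : Ctx p n) : Monotone (heightIdeal p n c.H) := by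
  intro a b hab
  rw [heightIdeal_eq, heightIdeal_eq]
  exact hI_mono p c.H hab

/-- main lemma -/
theorem main_le (c : Ctx p n) {M : ℕ} (hM : 1 ≤ M) {J : Ideal (LTRing p n)}
    (hJ : IsStableIdeal p n c.Γ c.H M J) (P : Ideal (LTRing p n)) [P.IsPrime] (hJP : J ≤ P) {h : ℕ}
    (hh : h < n) (hI : heightIdeal p n c.H h ≤ P) (ha : aa c h ∉ P) : J ≤ heightIdeal p n c.H h := by
  obtain ⟨C, i1, i2, i3, i4, z, zP, za, zm⟩ :=
    exists_point (LTRing p n) P (aa c h) (mm_eq_max p n ▸ aa_mem_mm c hh) ha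
  have zm' : ∀ f ∈ mm p n, ‖z f‖ < 1 := fun f hf => zm f (mm_eq_max p n ▸ hf)
  rcases Nat.eq_zero_or_pos h with rfl | h1
  · rw [aa_zero] at za
    have := charZero_of_point z za
    rw [char0 c hJ z zm' fun f hf => zP f (hJP hf)]
    exact bot_le
  · have hp : z (p : LTRing p n) = 0 := by
      apply zP
      apply hI
      rw [heightIdeal_eq]
      exact p_mem_hI p c.H h1
    have := charP_of_point z hp
    obtain ⟨ι, hι⟩ := exists_iota z hp
    exact charp h1 hh hM hJ (ι := ι) ⟨z, hι, zm', fun f hf => zP f (hI hf)⟩ za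
      fun f hf => zP f (hJP hf)

/-- the height of a prime -/
theorem exists_height (c : Ctx p n) (P : Ideal (LTRing p n)) :
    ∃ h ≤ n, heightIdeal p n c.H h ≤ P ∧ (h < n → aa c h ∉ P) := by
  classical
  have key : ∀ m, (∀ h < m, aa c h ∈ P) → heightIdeal p n c.H m ≤ P := by
    intro m
    induction m with
    | zero => intro _; exact bot_le
    | succ m ih =>
      intro hm
      rw [hI_succ]
      refine sup_le (ih fun h hh => hm h (by omega)) ?_
      rw [Ideal.span_le, Set.singleton_subset_iff]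
      exact hm m (by omega)
  by_cases hex : ∃ h, h < n ∧ aa c h ∉ P
  · refine ⟨Nat.find hex, (Nat.find_spec hex).1.le, key _ fun h hh => ?_, fun _ => (Nat.find_spec hex).2⟩
    by_contra hc
    exact Nat.find_min hex hh ⟨hh.trans (Nat.find_spec hex).1, hc⟩
  · refine ⟨n, le_rfl, key _ fun h hh => ?_, fun h => absurd h (lt_irrefl _)⟩
    by_contra hc
    exact hex ⟨h, hh, hc⟩

theorem le_height (c : Ctx p n) {M : ℕ} (hM : 1 ≤ M) {J : Ideal (LTRing p n)}
    (hJ : IsStableIdeal p n c.Γ c.H M J) (P : Ideal (LTRing p n)) [hP : P.IsPrime] (hJP : J ≤ P) {h : ℕ}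
    (hh : h ≤ n) (hI : heightIdeal p n c.H h ≤ P) (ha : h < n → aa c h ∉ P) :
    J ≤ heightIdeal p n c.H h := by
  rcases hh.lt_or_eq with hlt | rfl
  · exact main_le c hM hJ P hJP hlt hI (ha hlt)
  · rw [hI_top, mm_eq_max]
    exact hJP.trans (le_maximalIdeal hP.ne_top)

theorem classify (c : Ctx p n) {M : ℕ} (hM : 1 ≤ M) :
    (∀ P : Ideal (LTRing p n),
        (P.IsPrime ∧ IsStableIdeal p n c.Γ c.H M P) ↔ ∃ h : ℕ, h ≤ n ∧ P = heightIdeal p n c.H h) ∧
    (∀ J : Ideal (LTRing p n),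
        (J.IsRadical ∧ IsStableIdeal p n c.Γ c.H M J) ↔
          (∃ h : ℕ, h ≤ n ∧ J = heightIdeal p n c.H h) ∨ J = ⊤) := by
  classical
  refine ⟨fun P => ⟨?_, ?_⟩, fun J => ⟨?_, ?_⟩⟩
  · rintro ⟨hP, hS⟩
    obtain ⟨h, hh, h1, h2⟩ := exists_height c P
    exact ⟨h, hh, le_antisymm (le_height c hM hS P le_rfl hh h1 h2) h1⟩
  · rintro ⟨h, hh, rfl⟩
    exact ⟨hI_prime c hh, hI_stable c M h⟩
  · rintro ⟨hR, hS⟩
    by_cases hT : J = ⊤
    · exact Or.inr hT
    left
    have hex : ∃ h, ∃ P : Ideal (LTRing p n), P.IsPrime ∧ J ≤ P ∧ h ≤ n ∧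
        heightIdeal p n c.H h ≤ P ∧ (h < n → aa c h ∉ P) := by
      obtain ⟨m, hm, hJm⟩ := Ideal.exists_le_maximal J hT
      obtain ⟨h, hh, h1, h2⟩ := exists_height c m
      exact ⟨h, m, hm.isPrime, hJm, hh, h1, h2⟩
    obtain ⟨P, hP, hJP, hh, h1, h2⟩ := Nat.find_spec hex
    refine ⟨Nat.find hex, hh, le_antisymm (le_height c hM hS P hJP hh h1 h2) ?_⟩
    refine le_trans ?_ hR
    rw [Ideal.radical_eq_sInf]
    refine le_sInf fun Q hQ => ?_
    obtain ⟨h', hh', h1', h2'⟩ := exists_height c Q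
    exact (hIE_mono c (Nat.find_min' hex ⟨Q, hQ.2, hQ.1, hh', h1', h2'⟩)).trans h1'
  · rintro (⟨h, hh, rfl⟩ | rfl)
    · exact ⟨(hI_prime c hh).isRadical, hI_stable c M h⟩
    · exact ⟨fun _ _ => Submodule.mem_top, fun g φ _ _ _ => Ideal.comap_top⟩

end
end Crest.Agent.R227
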