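import Crest.Agent.R227.Defs

set_option autoImplicit false
set_option linter.style.haveILetI false
open IsLocalRing

namespace Crest.Agent.R227.PA
noncomputable section

theorem dom (D : Type) [CommRing D] [IsDomain D] [IsLocalRing D] [IsNoetherianRing D] (a : D)
    (ha : a ∈ maximalIdeal D) (ha0 : a ≠ 0) (h : ∀ Q : Ideal D, Q.IsPrime → Q ≠ ⊥ → a ∈ Q) :
    maximalIdeal D ≤ (Ideal.span {a}).radical := by
  have hle : Ideal.span {a} ≤ maximalIdeal D := (Ideal.span_singleton_le_iff_mem _).2 ha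
  by_cases hc : ∃ Q ∈ (Ideal.span {a}).minimalPrimes, maximalIdeal D ≤ Q
  · obtain ⟨Q, hQ, hmQ⟩ := hc
    rw [Ideal.radical_eq_sInf, le_sInf_iff]
    rintro J ⟨hJ, hJ'⟩
    exact hmQ.trans (hQ.2 ⟨hJ', hJ⟩ ((le_maximalIdeal hJ'.ne_top).trans hmQ))
  exfalso
  have hfin := Ideal.finite_minimalPrimes_of_isNoetherianRing D (Ideal.span {a})
  have := (Ideal.subset_union_prime_finite hfin (f := id) ⊥ ⊥ (fun i hi _ _ => hi.1.1)
    (I := maximalIdeal D)).not.2 hc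
  obtain ⟨b, hbm, hb⟩ := Set.not_subset.1 this
  simp only [id, Set.mem_iUnion, not_exists] at hb
  obtain ⟨Q0, hQ0, -⟩ := Ideal.exists_minimalPrimes_le hle
  have hb0 : b ≠ 0 := by rintro rfl; exact hb Q0 hQ0 Q0.zero_mem
  obtain ⟨Q, hQ, -⟩ := Ideal.exists_minimalPrimes_le
    ((Ideal.span_singleton_le_iff_mem _).2 hbm : Ideal.span {b} ≤ maximalIdeal D)
  haveI := hQ.1.1
  have hbQ : b ∈ Q := hQ.1.2 (Ideal.mem_span_singleton_self b)
  have haQ : a ∈ Q := h Q hQ.1.1 (fun h0 => hb0 (by rw [h0] at hbQ; simpa using hbQ))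
  obtain ⟨Q1, hQ1, hQ1Q⟩ := Ideal.exists_minimalPrimes_le
    ((Ideal.span_singleton_le_iff_mem _).2 haQ : Ideal.span {a} ≤ Q)
  haveI := hQ1.1.1
  have hlt : Q1 < Q := lt_of_le_of_ne hQ1Q (fun e => hb Q1 hQ1 (e ▸ hbQ))
  have h1 := Ideal.height_add_one_le_of_lt_of_isPrime hlt
  have h2 := Ideal.height_le_one_of_isPrincipal_of_mem_minimalPrimes _ Q hQ
  have h3 : Q1.height ≠ 0 := fun h0 => by
    have := Ideal.height_eq_zero_iff_eq_bot.1 h0
    have h4 : a ∈ Q1 := hQ1.1.2 (Ideal.mem_span_singleton_self a)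
    rw [this] at h4
    exact ha0 (by simpa using h4)
  have h4 : (1 : ℕ∞) + 1 ≤ 1 :=
    (add_le_add_left (Order.one_le_iff_ne_zero.2 h3) 1).trans (h1.trans h2)
  exact absurd h4 (by decide)

theorem pointA (R : Type) [CommRing R] [IsLocalRing R] [IsNoetherianRing R] (P : Ideal R) [P.IsPrime]
    (a : R) (ha : a ∈ maximalIdeal R) (haP : a ∉ P) :
    ∃ P' : Ideal R, P'.IsPrime ∧ P ≤ P' ∧ a ∉ P' ∧
      (∀ f ∈ maximalIdeal R, ∃ N : ℕ, f ^ N ∈ P' ⊔ Ideal.span {a}) ∧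
      (∀ b ∉ P', ∃ N : ℕ, a ^ N ∈ P' ⊔ Ideal.span {b}) := by
  obtain ⟨P', ⟨h1, h2, h3⟩, hmax⟩ := set_has_maximal_iff_noetherian.2
    (inferInstance : IsNoetherian R R) {Q : Ideal R | Q.IsPrime ∧ P ≤ Q ∧ a ∉ Q}
    ⟨P, inferInstance, le_rfl, haP⟩
  have hup : ∀ Q : Ideal R, Q.IsPrime → P' < Q → a ∈ Q := fun Q hQ hlt => by
    by_contra hc
    exact hmax Q ⟨hQ, h2.trans hlt.le, hc⟩ hlt
  refine ⟨P', h1, h2, h3, fun f hf => ?_, fun b hb => ?_⟩
  · haveI := h1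
    haveI : Nontrivial (R ⧸ P') := Ideal.Quotient.nontrivial_iff.2 h1.ne_top
    haveI : IsLocalRing (R ⧸ P') := IsLocalRing.of_surjective' _ Ideal.Quotient.mk_surjective
    haveI : IsLocalHom (Ideal.Quotient.mk P') :=
      IsLocalHom.of_surjective _ Ideal.Quotient.mk_surjective
    have hd := dom (R ⧸ P') (Ideal.Quotient.mk P' a) (map_nonunit _ _ ha)
      (fun h => h3 (Ideal.Quotient.eq_zero_iff_mem.1 h)) (fun Q hQ hQ0 => by
        refine hup (Q.comap (Ideal.Quotient.mk P')) (Ideal.comap_isPrime _ _) ?_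
        refine lt_of_le_of_ne (fun x hx => ?_) (fun e => hQ0 ?_)
        · rw [Ideal.mem_comap, Ideal.Quotient.eq_zero_iff_mem.2 hx]; exact Q.zero_mem
        · rw [eq_bot_iff]
          intro x hx
          obtain ⟨y, rfl⟩ := Ideal.Quotient.mk_surjective x
          have : y ∈ P' := e ▸ (Ideal.mem_comap.2 hx)
          simpa using Ideal.Quotient.eq_zero_iff_mem.2 this)
    obtain ⟨N, hN⟩ := hd (map_nonunit (Ideal.Quotient.mk P') f hf)
    obtain ⟨c, hc⟩ := Ideal.mem_span_singleton'.1 hN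
    obtain ⟨c, rfl⟩ := Ideal.Quotient.mk_surjective c
    refine ⟨N, ?_⟩
    have : f ^ N - c * a ∈ P' := by
      rw [← Ideal.Quotient.eq_zero_iff_mem, map_sub, map_mul, map_pow, hc, sub_self]
    have e : f ^ N = (f ^ N - c * a) + c * a := by ring
    rw [e]
    exact Submodule.add_mem_sup this (Ideal.mul_mem_left _ _ (Ideal.mem_span_singleton_self a))
  · have : a ∈ Ideal.radical (P' ⊔ Ideal.span {b}) := by
      rw [Ideal.radical_eq_sInf, Ideal.mem_sInf]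
      rintro J ⟨hJ, hJ'⟩
      refine hup J hJ' (lt_of_le_of_ne (le_sup_left.trans hJ) fun e => hb ?_)
      rw [e]
      exact hJ (Ideal.mem_sup_right (Ideal.mem_span_singleton_self b))
    exact this

end
end Crest.Agent.R227.PA
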