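import Crest.Agent.R227.Defs2

/-!
# 227-TORS: torsion points on the height-`h` stratum.
-/
set_option autoImplicit false
open Crest.LubinTate

namespace Crest.Agent.R227
noncomputable section
variable {C : Type} [NormedField C] [IsUltrametricDist C] [CompleteSpace C] [IsAlgClosed C]

namespace TORS

omit [CompleteSpace C] [IsAlgClosed C] in
theorem root_lt_one (P : Polynomial (Ob C)) (hm : P.Monic) (hc : ∀ i < P.natDegree, ‖P.coeff i‖ < 1)
    (s : C) (hs : (P.map (Ob C).subtype).IsRoot s) : ‖s‖ < 1 := by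
  by_contra hlt
  have h1 : 1 ≤ ‖s‖ := not_lt.1 hlt
  have hm' := hm.map (Ob C).subtype
  have hdeg : (P.map (Ob C).subtype).natDegree = P.natDegree := hm.natDegree_map _
  have he := hs.eq_zero
  rw [Polynomial.eval_eq_sum_range, Finset.sum_range_succ, hdeg] at he
  have hl : (P.map (Ob C).subtype).coeff P.natDegree = 1 := by
    rw [← hdeg]; exact hm'.coeff_natDegree
  rw [hl, one_mul] at he
  have hpos : 0 < ‖s‖ ^ P.natDegree := pow_pos (by linarith) _
  have hsum : ‖∑ i ∈ Finset.range P.natDegree, (P.map (Ob C).subtype).coeff i * s ^ i‖ < ‖s‖ ^ P.natDegree := by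
    refine Finset.sum_induction _ (fun x => ‖x‖ < ‖s‖ ^ P.natDegree) ?_ (by simpa using hpos) ?_
    · intro a b ha hb
      exact (IsUltrametricDist.norm_add_le_max a b).trans_lt (max_lt ha hb)
    · intro i hi
      have hi' := Finset.mem_range.1 hi
      rw [norm_mul, norm_pow, Polynomial.coeff_map]
      have h2 : ‖(Ob C).subtype (P.coeff i)‖ < 1 := hc i hi'
      have h3 : ‖s‖ ^ i ≤ ‖s‖ ^ P.natDegree := pow_le_pow_right₀ h1 hi'.le
      have h4 : 0 < ‖s‖ ^ i := pow_pos (by linarith) _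
      nlinarith [norm_nonneg ((Ob C).subtype (P.coeff i))]
  rw [eq_neg_of_add_eq_zero_left he, norm_neg, norm_pow] at hsum
  exact lt_irrefl _ hsum

omit [IsAlgClosed C] in
theorem complete_span (ϖ : Ob C) (h1 : ‖ϖ‖ < 1) : IsAdicComplete (Ideal.span {ϖ}) (Ob C) := by
  have key : ∀ (k : ℕ) (x y : Ob C), x ≡ y [SMOD ((Ideal.span {ϖ}) ^ k • ⊤ : Submodule (Ob C) (Ob C))] ↔
      ‖x - y‖ ≤ ‖ϖ‖ ^ k := by
    intro k x y
    rw [SModEq.sub_mem, smul_eq_mul, Ideal.mul_top, Ideal.span_singleton_pow, Ideal.mem_span_singleton,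
      Ob.dvd_iff, norm_pow]
  have ht : Filter.Tendsto (fun k : ℕ => ‖ϖ‖ ^ k) Filter.atTop (nhds 0) :=
    tendsto_pow_atTop_nhds_zero_of_lt_one (norm_nonneg _) h1
  refine { haus' := fun x hx => ?_, prec' := fun f hf => ?_ }
  · have : ‖x‖ ≤ 0 := ge_of_tendsto' ht fun k => by simpa using (key k x 0).1 (hx k)
    exact norm_le_zero_iff.1 this
  · have hc : CauchySeq f := by
      refine cauchySeq_of_le_geometric ‖ϖ‖ 1 h1 fun k => ?_
      rw [dist_eq_norm, one_mul]
      exact (key k _ _).1 (hf (Nat.le_succ k))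
    obtain ⟨L, hL⟩ := cauchySeq_tendsto_of_complete hc
    refine ⟨L, fun k => (key k _ _).2 ?_⟩
    have h2 : Filter.Tendsto (fun m => ‖f k - f m‖) Filter.atTop (nhds ‖f k - L‖) :=
      (tendsto_const_nhds.sub hL).norm
    exact le_of_tendsto h2 (Filter.eventually_atTop.2 ⟨k, fun m hm => (key k _ _).1 (hf hm)⟩)

omit [IsAlgClosed C] in
theorem norm_ev1_unit {s : Ob C} (hs : ‖s‖ < 1) {q : PowerSeries (Ob C)}
    (hq : ‖PowerSeries.coeff 0 q‖ = 1) : ev1 s q ≠ 0 := by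
  intro h0
  have := norm_ev1_sub_sum hs q 1
  simp only [Finset.range_one, Finset.sum_singleton, pow_zero, mul_one, pow_one, h0, zero_sub, norm_neg] at this
  linarith

omit [CompleteSpace C] in
theorem exists_root_pow (m : ℕ) (hm : 0 < m) (s : Ob C) (hs : ‖s‖ < 1) : ∃ t : Ob C, ‖t‖ < 1 ∧ t ^ m = s := by
  obtain ⟨y, hy⟩ := IsAlgClosed.exists_pow_nat_eq (s : C) hm
  have h1 : ‖y‖ < 1 := by
    have h2 : ‖y‖ ^ m < 1 := by rw [← norm_pow, hy]; exact hs
    exact (pow_lt_one_iff_of_nonneg (norm_nonneg _) hm.ne').1 h2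
  exact ⟨⟨y, h1.le⟩, h1, Subtype.ext hy⟩

end TORS

/-- (ROOT) PLAN: `d` least with `‖f_d‖ = 1` (`d ≥ 1`); `ϖ` a coefficient of maximal norm among `f_0..f_{d-1}` (if `f_0 = 0` take `s = 0`); `O` is
`(ϖ)`-adically complete (`Ob.dvd_iff`, completeness); Weierstrass preparation at `I = (ϖ)` (`PowerSeries.IsWeierstrassDivisorAt`, divide `X^d` by `f`:
`X^d = f q + r`, see `IsWeierstrassDivisionAt.isWeierstrassFactorizationAt` / `isWeierstrassDivisionAt_div_mod`); the distinguished polynomial has a root in `C`,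
of norm `< 1`; `ev1_coe`. -/
theorem root_exists (f : PowerSeries (Ob C)) (h0 : ‖PowerSeries.constantCoeff f‖ < 1)
    (h1 : ∃ d, ‖PowerSeries.coeff d f‖ = 1) : ∃ s : Ob C, ‖s‖ < 1 ∧ ev1 s f = 0 := by
  classical
  have hd1 := Nat.find_spec h1
  set d := Nat.find h1 with hd
  have hlt : ∀ i < d, ‖PowerSeries.coeff i f‖ < 1 := fun i hi =>
    lt_of_le_of_ne (Ob.norm_le_one _) (Nat.find_min h1 hi)
  have hd0 : 0 < d := by
    rcases Nat.eq_zero_or_pos d with h | h
    · rw [h, PowerSeries.coeff_zero_eq_constantCoeff] at hd1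
      linarith
    · exact h
  obtain ⟨i₀, hi₀, hmax⟩ := Finset.exists_max_image (Finset.range d) (fun i => ‖PowerSeries.coeff i f‖)
    ⟨0, Finset.mem_range.2 hd0⟩
  set ϖ := PowerSeries.coeff i₀ f
  have hϖ : ‖ϖ‖ < 1 := hlt _ (Finset.mem_range.1 hi₀)
  haveI := TORS.complete_span ϖ hϖ
  have hmem : ∀ x : Ob C, x ∈ Ideal.span {ϖ} ↔ ‖x‖ ≤ ‖ϖ‖ := fun x => by
    rw [Ideal.mem_span_singleton, Ob.dvd_iff]
  have hord : (f.map (Ideal.Quotient.mk (Ideal.span {ϖ}))).order.toNat = d := by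
    have : (f.map (Ideal.Quotient.mk (Ideal.span {ϖ}))).order = d := by
      rw [PowerSeries.order_eq_nat]
      refine ⟨?_, fun i hi => ?_⟩
      · rw [PowerSeries.coeff_map, Ne, Ideal.Quotient.eq_zero_iff_mem, hmem, hd1]
        linarith
      · rw [PowerSeries.coeff_map, Ideal.Quotient.eq_zero_iff_mem, hmem]
        exact hmax i (Finset.mem_range.2 hi)
    rw [this]; rfl
  have hW : f.IsWeierstrassDivisorAt (Ideal.span {ϖ}) := by
    rw [PowerSeries.IsWeierstrassDivisorAt, hord, Ob.isUnit_iff]; exact hd1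
  have hD := hW.isWeierstrassDivisionAt_div_mod (PowerSeries.X ^ d)
  set q := hW.div (PowerSeries.X ^ d)
  set r := hW.mod (PowerSeries.X ^ d)
  have hr : r.degree < d := by have := hD.degree_lt; rwa [hord] at this
  have hrc : ∀ i < d, ‖r.coeff i‖ < 1 := fun i hi => by
    have := hD.coeff_f_sub_r_mem (i := i) (by rwa [hord])
    rw [map_sub, PowerSeries.coeff_X_pow, if_neg hi.ne, zero_sub, neg_mem_iff, Polynomial.coeff_coe, hmem] at this
    linarith
  have hq : ‖PowerSeries.coeff 0 q‖ = 1 := by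
    have h2 := congrArg (PowerSeries.coeff d) hD.eq_mul_add
    rw [PowerSeries.coeff_X_pow_self, map_add, Polynomial.coeff_coe, Polynomial.coeff_eq_zero_of_degree_lt hr,
      add_zero, PowerSeries.coeff_mul] at h2
    by_contra hne
    have hq1 : ‖PowerSeries.coeff 0 q‖ < 1 := lt_of_le_of_ne (Ob.norm_le_one _) hne
    have : (1 : Ob C) ∈ Ob.mO C := by
      rw [h2]
      refine Ideal.sum_mem _ fun x hx => ?_
      have hx' := Finset.HasAntidiagonal.mem_antidiagonal.1 hx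
      rcases Nat.eq_zero_or_pos x.2 with h | h
      · exact Ideal.mul_mem_left _ _ (by rw [h]; exact hq1)
      · exact Ideal.mul_mem_right _ _ (hlt _ (by omega))
    simp at this
  have hr' : r.degree < (Polynomial.X ^ d : Polynomial (Ob C)).degree := by rwa [Polynomial.degree_X_pow]
  have hm : (Polynomial.X ^ d - r).Monic := (Polynomial.monic_X_pow d).sub_of_left hr'
  have hdeg : (Polynomial.X ^ d - r).natDegree = d := by
    apply Polynomial.natDegree_eq_of_degree_eq_some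
    rw [Polynomial.degree_sub_eq_left_of_degree_lt hr', Polynomial.degree_X_pow]
  obtain ⟨s, hs⟩ := IsAlgClosed.exists_root ((Polynomial.X ^ d - r).map (Ob C).subtype) (by
    rw [hm.degree_map, Polynomial.degree_eq_natDegree hm.ne_zero, hdeg]
    exact_mod_cast hd0.ne')
  have hs1 : ‖s‖ < 1 := TORS.root_lt_one _ hm (fun i hi => by
    rw [hdeg] at hi
    rw [Polynomial.coeff_sub, Polynomial.coeff_X_pow, if_neg hi.ne, zero_sub, norm_neg]
    exact hrc i hi) s hs
  let s' : Ob C := ⟨s, hs1.le⟩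
  have hs' : ‖s'‖ < 1 := hs1
  refine ⟨s', hs', ?_⟩
  have h3 : (Polynomial.X ^ d - r).eval s' = 0 := by
    apply Subtype.ext
    have := hs.eq_zero
    rw [show s = (Ob C).subtype s' from rfl, Polynomial.eval_map, Polynomial.eval₂_hom] at this
    exact this
  have h4 : ((Polynomial.X ^ d - r : Polynomial (Ob C)) : PowerSeries (Ob C)) = f * q := by
    rw [Polynomial.coe_sub, Polynomial.coe_pow, Polynomial.coe_X, hD.eq_mul_add]; ring
  rw [← ev1_coe hs', h4, map_mul] at h3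
  exact (mul_eq_zero.1 h3).resolve_right (TORS.norm_ev1_unit hs' hq)

variable {p : ℕ} [Fact p.Prime] [CharP C p] {n : ℕ} {c : Ctx p n} {h : ℕ} {ι : GaloisField p n →+* Ob C}

omit [IsAlgClosed C] [CharP C p] [CompleteSpace C] in
/-- `mul_map`, `mul_sub_mem_mm`. -/
theorem near_of_bound (z : LTRing p n →+* Ob C) {δ : ℝ} (hδ : ∀ f ∈ mm p n, ‖z f‖ ≤ δ) :
    Near (c.H.map z) p (p ^ n) δ := by
  intro d
  have := hδ _ (mul_sub_mem_mm c d)
  rwa [← PowerSeries.coeff_map, map_sub, map_pow, PowerSeries.map_X, mul_map] at this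

omit [IsAlgClosed C] [CharP C p] in
/-- `(p • t) = g̃(t^(p^h))`  (`mul_eq_gt`, `ev_subst1`). -/
theorem nsmul_eq_gt (ξ : ZPt c h ι) (t : GPt (c.H.map ξ.z)) :
    (p • t).1 = ev1 (t.1 ^ p ^ h) ((gt c h).map ξ.z) := by
  rw [GPt.nsmul_val, mul_eq_gt c h ξ.z ξ.zI]
  have hp0 : p ^ h ≠ 0 := pow_ne_zero _ (Fact.out : p.Prime).ne_zero
  have := ev_subst1 (a := fun _ : Unit => t.1) (fun _ => t.lt)
    (b := (PowerSeries.X ^ (p ^ h) : PowerSeries (Ob C))) (by
      change PowerSeries.constantCoeff (PowerSeries.X ^ (p ^ h) : PowerSeries (Ob C)) = 0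
      rw [map_pow, PowerSeries.constantCoeff_X, zero_pow hp0]) ((gt c h).map ξ.z)
  refine this.trans ?_
  congr 2
  change ev1 t.1 _ = _
  rw [map_pow, ev1_X t.lt]

namespace TORS
omit [IsAlgClosed C] [CharP C p] [CompleteSpace C] in
theorem gt_zero (z : LTRing p n →+* Ob C) : PowerSeries.coeff 0 ((gt c h).map z) = 0 := by
  rw [PowerSeries.coeff_map, gt, PowerSeries.coeff_mk, zero_mul, PowerSeries.coeff_zero_eq_constantCoeff,
    mul_const, map_zero]

omit [IsAlgClosed C] [CharP C p] [CompleteSpace C] in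
theorem gt_one (z : LTRing p n →+* Ob C) : PowerSeries.coeff 1 ((gt c h).map z) = z (aa c h) := by
  rw [PowerSeries.coeff_map, gt, PowerSeries.coeff_mk, one_mul, aa]
end TORS

/-- PLAN: `root_exists` for `g̃ - C t'` (its coefficient at `p^(n-h)` is a unit, `mul_sub_mem_mm`), then a `p^h`-th root. -/
theorem nsmul_surj (hh : h ≤ n) (ξ : ZPt c h ι) (t' : GPt (c.H.map ξ.z)) : ∃ t : GPt (c.H.map ξ.z), p • t = t' := by
  have hp := (Fact.out : p.Prime)
  obtain ⟨s, hs, hs0⟩ := root_exists ((gt c h).map ξ.z - PowerSeries.C t'.1) (by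
      rw [← PowerSeries.coeff_zero_eq_constantCoeff_apply, map_sub, TORS.gt_zero, PowerSeries.coeff_zero_C,
        zero_sub, norm_neg]
      exact t'.lt) ⟨p ^ (n - h), by
      rw [map_sub, PowerSeries.coeff_C, if_neg (pow_ne_zero _ hp.ne_zero), sub_zero, PowerSeries.coeff_map, gt,
        PowerSeries.coeff_mk, ← pow_add, Nat.sub_add_cancel hh]
      have h1 := ξ.zm _ (mul_sub_mem_mm c (p ^ n))
      rw [map_sub, PowerSeries.coeff_X_pow_self, map_sub, map_one] at h1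
      by_contra hne
      have h2 : ‖ξ.z (PowerSeries.coeff (p ^ n) (mulSeries c.H p))‖ < 1 := lt_of_le_of_ne (Ob.norm_le_one _) hne
      have h3 : (1 : Ob C) ∈ Ob.mO C := by
        have := (Ob.mO C).sub_mem (Ob.mem_mO.2 h2) (Ob.mem_mO.2 h1)
        rwa [sub_sub_cancel] at this
      simp at h3⟩
  obtain ⟨t, ht, hts⟩ := TORS.exists_root_pow (p ^ h) (pow_pos hp.pos _) s hs
  refine ⟨⟨t, ht⟩, Subtype.ext ?_⟩
  rw [nsmul_eq_gt]
  rw [map_sub, ev1_C, sub_eq_zero] at hs0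
  rw [← hs0]
  congr 2

/-- PLAN: `weier_gt`: `g̃ = P U`; `ev1 s U` is a unit, so `p • t = 0 ↔ P_z(t^(p^h)) = 0`; all roots of `P_z` (over `C`) have norm `< 1` and `t ↦ t^(p^h)` is a
bijection of `{‖·‖ < 1}`.  Roots are simple: if `s = t^(p^h)` were a double root then `‖g̃(s')‖ ≤ ‖s' - s‖²`; take `s' = (t + ε)^(p^h)` (group sum) with `ε` small, nonzero:
`‖s' - s‖ ≤ ‖ε‖^(p^h)` (`GPt.add_eq`) while `g̃(s') = (p • (t + ε)).1 = g̃(ε^(p^h))` has norm `‖z a_h‖ ‖ε‖^(p^h)`.  (Small `ε`: powers of `z a_h`.) -/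
theorem tors_card (hh1 : 1 ≤ h) (hh : h < n) (ξ : ZPt c h ι) (ha : ξ.z (aa c h) ≠ 0) :
    {t : GPt (c.H.map ξ.z) | p • t = 0}.ncard = p ^ (n - h) := by
  classical
  have hp := (Fact.out : p.Prime)
  have hp0 : 0 < p ^ h := pow_pos hp.pos _
  obtain ⟨P, U, hm, hdeg, hc, hU, hg⟩ := weier_gt c hh.le
  set Pz := P.map ξ.z with hPz
  have hmz : Pz.Monic := hm.map _
  have hdz : Pz.natDegree = p ^ (n - h) := by rw [hPz, hm.natDegree_map, hdeg]
  have hgz : (gt c h).map ξ.z = (Pz : PowerSeries (Ob C)) * U.map ξ.z := by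
    rw [hg, map_mul, hPz, Polynomial.polynomial_map_coe]
  have hev : ∀ s : Ob C, ‖s‖ < 1 → ev1 s ((gt c h).map ξ.z) = Pz.eval s * ev1 s (U.map ξ.z) := fun s hs => by
    rw [hgz, map_mul, ev1_coe hs]
  have hUz : ∀ s : Ob C, ev1 s (U.map ξ.z) ≠ 0 := fun s => ((hU.map _).map (ev1 s)).ne_zero
  have hpow : ∀ t : GPt (c.H.map ξ.z), ‖t.1 ^ p ^ h‖ < 1 := fun t => by
    rw [norm_pow]; exact pow_lt_one₀ (norm_nonneg _) t.lt hp0.ne'
  have hiff : ∀ t : GPt (c.H.map ξ.z), p • t = 0 ↔ Pz.eval (t.1 ^ p ^ h) = 0 := fun t => by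
    have : p • t = 0 ↔ (p • t).1 = (0 : GPt (c.H.map ξ.z)).1 := Subtype.ext_iff
    rw [this, nsmul_eq_gt, hev _ (hpow t), GPt.zero_val, mul_eq_zero, or_iff_left (hUz _)]
  set Q := Pz.map (Ob C).subtype with hQ
  have hQ0 : Q ≠ 0 := (hmz.map _).ne_zero
  have hroot : ∀ s : Ob C, Q.IsRoot (s : C) ↔ Pz.eval s = 0 := fun s => by
    rw [Polynomial.IsRoot, hQ, show (s : C) = (Ob C).subtype s from rfl, Polynomial.eval_map, Polynomial.eval₂_hom]
    exact ⟨fun h => Subtype.ext h, fun h => by rw [h, map_zero]⟩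
  have hlift : ∀ s : C, Q.IsRoot s → ∃ t : GPt (c.H.map ξ.z), p • t = 0 ∧ ((t.1 ^ p ^ h : Ob C) : C) = s := by
    intro s hs
    have hs1 : ‖s‖ < 1 := TORS.root_lt_one Pz hmz (fun i hi => by
      rw [hPz, Polynomial.coeff_map]; exact ξ.zm _ (hc i (by rwa [hdz] at hi))) s hs
    obtain ⟨t, ht, hts⟩ := TORS.exists_root_pow (p ^ h) hp0 (⟨s, hs1.le⟩ : Ob C) hs1
    refine ⟨⟨t, ht⟩, (hiff _).2 ?_, by rw [hts]⟩
    rw [← hroot]
    change Q.IsRoot ((t ^ p ^ h : Ob C) : C)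
    rw [hts]; exact hs
  have hnd : Q.roots.Nodup := by
    rw [Multiset.nodup_iff_count_le_one]
    intro s
    rw [Polynomial.count_roots]
    by_contra hlt
    obtain ⟨h1, h2⟩ := (Polynomial.one_lt_rootMultiplicity_iff_isRoot hQ0).1 (not_le.1 hlt)
    obtain ⟨t, ht, rfl⟩ := hlift s h1
    set s : Ob C := t.1 ^ p ^ h with hs
    have h3 : (Polynomial.derivative Pz).IsRoot s := by
      rw [hQ, Polynomial.derivative_map, Polynomial.IsRoot, show (s : C) = (Ob C).subtype s from rfl,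
        Polynomial.eval_map, Polynomial.eval₂_hom] at h2
      exact Subtype.ext h2
    have h4 := (Polynomial.one_lt_rootMultiplicity_iff_isRoot hmz.ne_zero).2 ⟨(hroot s).1 h1, h3⟩
    obtain ⟨P₂, hP₂⟩ := (Polynomial.le_rootMultiplicity_iff hmz.ne_zero).1 (Nat.succ_le_of_lt h4)
    set a := ξ.z (aa c h) with ha'
    have ha1 : ‖a‖ < 1 := ξ.zm _ (aa_mem_mm c hh)
    have ha0 : 0 < ‖a‖ := norm_pos_iff.2 ha
    let ε : GPt (c.H.map ξ.z) := ⟨a ^ 2, by rw [norm_pow]; exact pow_lt_one₀ ha0.le ha1 two_ne_zero⟩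
    set u : Ob C := ε.1 ^ p ^ h with hu
    have hu1 : ‖u‖ < ‖a‖ := by
      rw [hu, norm_pow]
      change ‖a ^ 2‖ ^ p ^ h < _
      rw [norm_pow, ← pow_mul]
      calc ‖a‖ ^ (2 * p ^ h) < ‖a‖ ^ 1 := pow_lt_pow_right_of_lt_one₀ ha0 ha1 (by omega)
        _ = ‖a‖ := pow_one _
    have hu0 : 0 < ‖u‖ := norm_pos_iff.2 (pow_ne_zero _ (pow_ne_zero 2 ha))
    have e1 : ‖(t + ε).1 ^ p ^ h - s‖ ≤ ‖u‖ := by
      rw [hs, ← sub_pow_char_pow, hu, norm_pow, norm_pow]
      refine pow_le_pow_left₀ (norm_nonneg _) ?_ _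
      obtain ⟨k, hk⟩ := GPt.add_eq t ε
      rw [hk, show t.1 + ε.1 + t.1 * ε.1 * k - t.1 = ε.1 * (1 + t.1 * k) by ring, norm_mul]
      exact mul_le_of_le_one_right (norm_nonneg _) (Ob.norm_le_one _)
    have e2 : ‖ev1 u ((gt c h).map ξ.z)‖ ≤ ‖u‖ ^ 2 := by
      have : p • (t + ε) = p • ε := by rw [nsmul_add, ht, zero_add]
      rw [hu, ← nsmul_eq_gt, ← this, nsmul_eq_gt, hev _ (hpow _), hP₂, Polynomial.eval_mul, Polynomial.eval_pow,
        Polynomial.eval_sub, Polynomial.eval_X, Polynomial.eval_C, mul_assoc, norm_mul, norm_pow]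
      exact (mul_le_of_le_one_right (by positivity) (Ob.norm_le_one _)).trans
        (pow_le_pow_left₀ (norm_nonneg _) e1 _)
    have e3 := norm_ev1_sub_sum (hpow ε) ((gt c h).map ξ.z) 2
    rw [Finset.sum_range_succ, Finset.sum_range_one, TORS.gt_zero, TORS.gt_one, zero_mul, zero_add, pow_one,
      ← hu, ← ha'] at e3
    have e4 : ‖a * u‖ ≤ ‖u‖ ^ 2 := by
      rw [show a * u = ev1 u ((gt c h).map ξ.z) + -(ev1 u ((gt c h).map ξ.z) - a * u) by ring]
      exact (IsUltrametricDist.norm_add_le_max _ _).trans (max_le e2 (by rwa [norm_neg]))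
    rw [norm_mul] at e4
    nlinarith
  have hcard : Q.roots.toFinset.card = p ^ (n - h) := by
    rw [Multiset.toFinset_card_of_nodup hnd, IsAlgClosed.card_roots_eq_natDegree, hQ, hmz.natDegree_map, hdz]
  rw [← hcard, ← Set.ncard_coe_finset]
  refine Set.ncard_congr (fun t _ => ((t.1 ^ p ^ h : Ob C) : C)) ?_ ?_ ?_
  · intro t ht
    simp only [Finset.mem_coe, Multiset.mem_toFinset, Polynomial.mem_roots hQ0]
    exact (hroot _).2 ((hiff t).1 ht)
  · intro t t' _ _ he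
    have h1 : t.1 ^ p ^ h = t'.1 ^ p ^ h := Subtype.ext he
    rw [← sub_eq_zero, ← sub_pow_char_pow, pow_eq_zero_iff hp0.ne', sub_eq_zero] at h1
    exact Subtype.ext h1
  · intro s hs
    simp only [Finset.mem_coe, Multiset.mem_toFinset, Polynomial.mem_roots hQ0] at hs
    obtain ⟨t, ht, hts⟩ := hlift s hs
    exact ⟨t, ht, hts⟩

/-- PLAN: induction on `i`; the fibres of `p • ·` on `G[p^(i+1)]` inject into `G[p]` by `t ↦ t + (p^(i+1) - 1) • t₀`. -/
theorem tors_finite (hh1 : 1 ≤ h) (hh : h < n) (ξ : ZPt c h ι) (ha : ξ.z (aa c h) ≠ 0) (i : ℕ) :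
    {t : GPt (c.H.map ξ.z) | p ^ i • t = 0}.Finite := by
  have hp := (Fact.out : p.Prime)
  have h1 : {t : GPt (c.H.map ξ.z) | p • t = 0}.Finite :=
    Set.finite_of_ncard_ne_zero (by rw [tors_card hh1 hh ξ ha]; exact pow_ne_zero _ hp.ne_zero)
  induction i with
  | zero => simp
  | succ i ih =>
    refine Set.Finite.of_finite_fibers (fun t => p • t) (ih.subset ?_) ?_
    · rintro _ ⟨t, ht, rfl⟩
      simp only [Set.mem_ofPred_eq] at ht ⊢
      rw [← mul_nsmul', ← pow_succ, ht]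
    · rintro _ ⟨t₀, ht₀, rfl⟩
      simp only [Set.mem_ofPred_eq] at ht₀
      obtain ⟨m, hm⟩ : ∃ m, p ^ (i + 1) = m + 1 := Nat.exists_eq_succ_of_ne_zero (pow_ne_zero _ hp.ne_zero)
      rw [hm] at ht₀
      refine Set.Finite.of_finite_image (f := fun t => t + m • t₀) (h1.subset ?_) ?_
      · rintro _ ⟨t, ⟨-, ht⟩, rfl⟩
        simp only [Set.mem_preimage, Set.mem_singleton_iff] at ht
        simp only [Set.mem_ofPred_eq]
        rw [nsmul_add, ht, ← nsmul_add, ← succ_nsmul', ht₀, nsmul_zero]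
      · intro t _ t' _ he
        have := congrArg (· + t₀) he
        simp only [add_assoc] at this
        rwa [← succ_nsmul, ht₀, add_zero, add_zero] at this

/-- PLAN: greedy: for `j ≤ r` there are `j` independent torsion points; the set `{∑ c • t | c : Fin j → Fin p}` has `≤ p^j < p^r` elements; a torsion point `t*`
outside can be added: if `c* t* + ∑ c t = 0`, `p ∤ c*`, `b c* ≡ 1 mod p`, then `t* = ∑ (p-1) b c t`. -/
theorem exists_indep {M : Type*} [AddCommMonoid M] (p : ℕ) [Fact p.Prime] (r : ℕ)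
    (hM : {t : M | p • t = 0}.ncard = p ^ r) :
    ∃ t : Fin r → M, (∀ j, p • t j = 0) ∧ ∀ c : Fin r → ℕ, ∑ j, c j • t j = 0 → ∀ j, p ∣ c j := by
  classical
  have hp := (Fact.out : p.Prime)
  suffices H : ∀ j ≤ r, ∃ t : Fin j → M, (∀ i, p • t i = 0) ∧
      ∀ c : Fin j → ℕ, ∑ i, c i • t i = 0 → ∀ i, p ∣ c i from H r le_rfl
  intro j
  induction j with
  | zero => exact fun _ => ⟨Fin.elim0, fun i => i.elim0, fun _ _ i => i.elim0⟩
  | succ j ih =>
    intro hj
    obtain ⟨t, ht, hind⟩ := ih (by omega)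
    have hmod : ∀ (x : M), p • x = 0 → ∀ a : ℕ, a • x = (a % p) • x := fun x hx a => by
      conv_lhs => rw [← Nat.mod_add_div a p, add_nsmul, mul_nsmul, hx, nsmul_zero, add_zero]
    let S : Finset M := Finset.univ.image fun c : Fin j → Fin p => ∑ i, (c i : ℕ) • t i
    have hS : S.card < p ^ r := by
      refine Finset.card_image_le.trans_lt ?_
      simp only [Finset.card_univ, Fintype.card_fun, Fintype.card_fin]
      exact Nat.pow_lt_pow_right hp.one_lt (by omega)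
    obtain ⟨x, hx, hxS⟩ : ∃ x, p • x = 0 ∧ x ∉ S := by
      by_contra hne
      push Not at hne
      have := Set.ncard_le_ncard (s := {t : M | p • t = 0}) (t := (S : Set M)) (fun x hx => hne x hx)
        S.finite_toSet
      rw [hM, Set.ncard_coe_finset] at this
      omega
    refine ⟨Fin.cons x t, fun i => Fin.cases hx ht i, fun c hc => ?_⟩
    rw [Fin.sum_univ_succ] at hc
    simp only [Fin.cons_zero, Fin.cons_succ] at hc
    have h0 : p ∣ c 0 := by
      by_contra hnd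
      obtain ⟨b, -, hb⟩ := Nat.exists_mul_mod_eq_one_of_coprime
        ((Nat.coprime_comm.1 ((hp.coprime_iff_not_dvd).2 hnd))) hp.one_lt
      apply hxS
      refine Finset.mem_image.2 ⟨fun i => ⟨((p - 1) * b * c i.succ) % p, Nat.mod_lt _ hp.pos⟩, Finset.mem_univ _, ?_⟩
      have e1 : ∑ i : Fin j, (((p - 1) * b * c i.succ) % p) • t i = ((p - 1) * b) • ∑ i : Fin j, c i.succ • t i := by
        rw [Finset.smul_sum]
        refine Finset.sum_congr rfl fun i _ => ?_
        rw [← hmod _ (ht i), mul_nsmul']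
      simp only
      rw [e1]
      set y := ∑ i : Fin j, c i.succ • t i
      have e2 : x + b • y = 0 := by
        have := congrArg (b • ·) hc
        simp only [nsmul_add, nsmul_zero] at this
        rwa [← mul_nsmul', hmod x hx, mul_comm, hb, one_nsmul] at this
      have e3 : p • y = 0 := by
        simp only [y, Finset.smul_sum]
        exact Finset.sum_eq_zero fun i _ => by rw [smul_comm, ht i, nsmul_zero]
      obtain ⟨m, hm⟩ : ∃ m, p = m + 1 := Nat.exists_eq_succ_of_ne_zero hp.ne_zero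
      have e4 : b • y + ((p - 1) * b) • y = 0 := by
        rw [← add_nsmul, show b + (p - 1) * b = p * b by rw [hm]; simp; ring, mul_nsmul, e3, nsmul_zero]
      calc ((p - 1) * b) • y = (x + b • y) + ((p - 1) * b) • y := by rw [e2, zero_add]
        _ = x := by rw [add_assoc, e4, add_zero]
    have hc0 : c 0 • x = 0 := by rw [hmod x hx, Nat.mod_eq_zero_of_dvd h0, zero_nsmul]
    rw [hc0, zero_add] at hc
    exact fun i => Fin.cases h0 (hind _ hc) i

theorem exists_systems (hh1 : 1 ≤ h) (hh : h < n) (ξ : ZPt c h ι) (ha : ξ.z (aa c h) ≠ 0) :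
    ∃ τ : Fin (n - h) → ℕ → GPt (c.H.map ξ.z), (∀ j, IsSys p (τ j)) ∧ Indep p fun j => τ j 1 := by
  obtain ⟨t, ht, hind⟩ := exists_indep p (n - h) (tors_card hh1 hh ξ ha)
  choose σ hσ using nsmul_surj hh.le ξ
  let τ : Fin (n - h) → ℕ → GPt (c.H.map ξ.z) := fun j i => Nat.casesOn i 0 fun i => σ^[i] (t j)
  refine ⟨τ, fun j => ⟨rfl, fun i => ?_⟩, hind⟩
  cases i with
  | zero => exact ht j
  | succ i =>
    change p • σ^[i + 1] (t j) = σ^[i] (t j)
    rw [Function.iterate_succ_apply', hσ]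

omit [IsAlgClosed C] in
/-- any admissible family gives a point of the tower (`ρ = max ‖τ j 1‖`, or `0`). -/
theorem exists_xpt (ξ : ZPt c h ι) (τ : Fin (n - h) → ℕ → GPt (c.H.map ξ.z)) (h0 : ∀ j, IsSys p (τ j))
    (h1 : Indep p fun j => τ j 1) :
    ∃ ρ : ℝ, ρ < 1 ∧ ∀ j, ‖(τ j 1).1‖ ≤ ρ := by
  rcases isEmpty_or_nonempty (Fin (n - h)) with he | he
  · exact ⟨0, zero_lt_one, fun j => he.elim j⟩
  · obtain ⟨j₀, hj₀⟩ := Finite.exists_max fun j => ‖(τ j 1).1‖
    exact ⟨_, (τ j₀ 1).lt, hj₀⟩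

end
end Crest.Agent.R227
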