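import Crest.Agent.R227.Tate
import Crest.Agent.R227.Tors

/-!
# 227-REP: functions on the stratum are uniform limits of polynomials over `k` in the `yy`.  (fill the `sorry`s, keep statements)
-/
set_option autoImplicit false
open Crest.LubinTate

namespace Crest.Agent.R227
noncomputable section
variable {C : Type} [NormedField C] [IsUltrametricDist C] [CompleteSpace C]
variable {p : ℕ} [Fact p.Prime] [CharP C p] {n : ℕ} {c : Ctx p n} {h : ℕ} {ι : GaloisField p n →+* Ob C}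


namespace REP

theorem prod_eq {R ι' : Type*} [CommRing R] [IsDomain R] [Fintype ι'] {P : Polynomial R} (hP : P.Monic)
    (hd : P.natDegree = Fintype.card ι') {s : ι' → R} (hs : Function.Injective s)
    (h0 : ∀ e, P.eval (s e) = 0) : P = ∏ e, (Polynomial.X - Polynomial.C (s e)) := by
  have hQ : (∏ e, (Polynomial.X - Polynomial.C (s e))).Monic :=
    Polynomial.monic_prod_of_monic _ _ fun e _ => Polynomial.monic_X_sub_C _
  have hQd : (∏ e, (Polynomial.X - Polynomial.C (s e))).natDegree = Fintype.card ι' := by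
    rw [Polynomial.natDegree_prod_of_monic _ _ fun e _ => Polynomial.monic_X_sub_C _]
    simp
  refine Polynomial.eq_of_degree_le_of_eval_index_eq Finset.univ hs.injOn ?_ ?_ ?_ fun e _ => ?_
  · rw [Polynomial.degree_eq_natDegree hP.ne_zero, hd]; simp
  · rw [Polynomial.degree_eq_natDegree hP.ne_zero, Polynomial.degree_eq_natDegree hQ.ne_zero, hd, hQd]
  · rw [hP.leadingCoeff, hQ.leadingCoeff]
  · rw [h0, Polynomial.eval_prod]
    exact (Finset.prod_eq_zero (Finset.mem_univ e) (by simp)).symm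

theorem coeff_prod_mem {R ι' : Type*} [CommRing R] [Fintype ι'] (I : Ideal R) {s : ι' → R}
    (hs : ∀ e, s e ∈ I) {i : ℕ} (hi : i < Fintype.card ι') :
    (∏ e, (Polynomial.X - Polynomial.C (s e))).coeff i ∈ I := by
  rw [← Ideal.Quotient.eq_zero_iff_mem, ← Polynomial.coeff_map, Polynomial.map_prod]
  have : ∀ e, (Polynomial.X - Polynomial.C (s e)).map (Ideal.Quotient.mk I) = Polynomial.X := by
    intro e
    simp [Ideal.Quotient.eq_zero_iff_mem.2 (hs e)]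
  simp only [this, Finset.prod_const, Finset.card_univ, Polynomial.coeff_X_pow, hi.ne, if_false]

theorem coeff_prod_mem_subring {R ι' : Type*} [CommRing R] [Fintype ι'] (S : Subring R) {s : ι' → R}
    (hs : ∀ e, s e ∈ S) (i : ℕ) : (∏ e, (Polynomial.X - Polynomial.C (s e))).coeff i ∈ S := by
  have : (∏ e, (Polynomial.X - Polynomial.C (s e))) =
      (∏ e, (Polynomial.X - Polynomial.C (⟨s e, hs e⟩ : S))).map S.subtype := by
    simp [Polynomial.map_prod]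
  rw [this, Polynomial.coeff_map]
  exact Subtype.property _

theorem mm_le (c : Ctx p n) {h : ℕ} (hh : h ≤ n) {P : Polynomial (LTRing p n)} {U : PowerSeries (LTRing p n)}
    (hg : gt c h = (P : PowerSeries (LTRing p n)) * U) (𝔞 : Ideal (LTRing p n))
    (h1 : heightIdeal p n c.H h ≤ 𝔞) (h2 : ∀ i < p ^ (n - h), P.coeff i ∈ 𝔞) : mm p n ≤ 𝔞 := by
  have key : ∀ l, h ≤ l → l ≤ n → heightIdeal p n c.H l ≤ 𝔞 := by
    intro l hl
    induction l, hl using Nat.le_induction with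
    | base => exact fun _ => h1
    | succ l hl ih =>
      intro hln
      refine sup_le (ih (by omega)) ((Ideal.span_singleton_le_iff_mem _).2 ?_)
      have e : PowerSeries.coeff (p ^ l) (mulSeries c.H p) = PowerSeries.coeff (p ^ (l - h)) (gt c h) := by
        rw [gt, PowerSeries.coeff_mk, ← pow_add, Nat.sub_add_cancel hl]
      rw [e, hg, PowerSeries.coeff_mul]
      refine Ideal.sum_mem _ fun x hx => Ideal.mul_mem_right _ _ ?_
      rw [Polynomial.coeff_coe]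
      refine h2 _ ?_
      have := Finset.HasAntidiagonal.mem_antidiagonal.1 hx
      have h3 : p ^ (l - h) < p ^ (n - h) :=
        Nat.pow_lt_pow_right (Fact.out : p.Prime).one_lt (by omega)
      omega
  rw [← hI_top c]
  exact key n hh le_rfl

end REP

/-- PLAN: the points `t_e = ∑ e j • τ j 1`, `e : Fin r → Fin p`, are killed by `p` and pairwise distinct (`Indep`: add `∑ (p - e' j) • τ j 1`), so the
`t_e^(p^h)` are `p^r` distinct roots of the monic polynomial `P.map z` of degree `p^r` (`nsmul_eq_gt`, `ev1_coe`, `ev1 s U` a unit);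
`Polynomial.eq_prod_roots_of_monic_of_splits_id`-like: the monic product divides, or `Polynomial.eq_of_degree_sub_lt_of_eval_index_eq`. -/
theorem weier_prod (ξ : XPt c h ι) {P : Polynomial (LTRing p n)} {U : PowerSeries (LTRing p n)} (hP : P.Monic)
    (hd : P.natDegree = p ^ (n - h)) (hU : IsUnit U) (hg : gt c h = (P : PowerSeries (LTRing p n)) * U) :
    P.map ξ.z = ∏ e : Fin (n - h) → Fin p,
      (Polynomial.X - Polynomial.C ((∑ j, (e j : ℕ) • ξ.τ j 1).1 ^ p ^ h)) := by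
  have hp := (Fact.out : p.Prime).pos
  have hkill : ∀ j, p • ξ.τ j 1 = 0 := fun j => ((ξ.sys j).2 0).trans (ξ.sys j).1
  refine REP.prod_eq (hP.map _) (by rw [hP.natDegree_map, hd]; simp) (fun e e' he => ?_) (fun e => ?_)
  · have h1 : (∑ j, (e j : ℕ) • ξ.τ j 1).1 = (∑ j, (e' j : ℕ) • ξ.τ j 1).1 := by
      have : ((∑ j, (e j : ℕ) • ξ.τ j 1).1 - (∑ j, (e' j : ℕ) • ξ.τ j 1).1) ^ p ^ h = 0 := by
        rw [sub_pow_char_pow]; exact sub_eq_zero.2 he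
      exact sub_eq_zero.1 (pow_eq_zero_iff (pow_pos hp h).ne' |>.1 this)
    have h2 : ∑ j, (e j : ℕ) • ξ.τ j 1 = ∑ j, (e' j : ℕ) • ξ.τ j 1 := Subtype.ext h1
    have h3 : ∑ j, ((e j : ℕ) + (p - e' j)) • ξ.τ j 1 = 0 := by
      simp only [add_nsmul, Finset.sum_add_distrib]
      rw [h2, ← Finset.sum_add_distrib]
      refine Finset.sum_eq_zero fun j _ => ?_
      rw [← add_nsmul, Nat.add_sub_cancel' (e' j).2.le, hkill]
    funext j
    obtain ⟨k, hk⟩ := ξ.ind _ h3 j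
    have a1 := (e j).2
    have a2 := (e' j).2
    have a3 : k = 1 := by
      rcases k with _ | _ | k
      · omega
      · rfl
      · exfalso; nlinarith [Nat.zero_le (p * k), Nat.sub_le p (e' j)]
    subst a3
    exact Fin.ext (by omega)
  · have h1 : p • (∑ j, (e j : ℕ) • ξ.τ j 1) = 0 := by
      rw [Finset.smul_sum]
      exact Finset.sum_eq_zero fun j _ => by rw [smul_comm, hkill, smul_zero]
    have h2 := nsmul_eq_gt ξ.toZPt (∑ j, (e j : ℕ) • ξ.τ j 1)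
    have hs : ‖(∑ j, (e j : ℕ) • ξ.τ j 1).1 ^ p ^ h‖ < 1 := by
      rw [norm_pow]; exact pow_lt_one₀ (norm_nonneg _) (GPt.lt _) (pow_pos hp h).ne'
    rw [h1, hg, map_mul, map_mul, ← Polynomial.polynomial_map_coe, ev1_coe hs] at h2
    exact ((hU.map (PowerSeries.map ξ.z)).map (ev1 _)).mul_left_eq_zero.1 h2.symm

/-- PLAN: lower coefficients of the product have norm `≤ ρ^(p^h) ≤ ρ²` (reduce mod `ball`: the product becomes `X^(p^r)`); `a_l` (`h ≤ l < n`) is the coefficient of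
`T^(p^(l-h))` of `P U`; `mm = I_n = I_h + (a_h, …, a_{n-1})` (`hI_top`). -/
theorem rho_bound (hh1 : 1 ≤ h) (hh : h < n) (ξ : XPt c h ι) : 0 ≤ ξ.ρ ∧ ∀ f ∈ mm p n, ‖ξ.z f‖ ≤ ξ.ρ ^ 2 := by
  have h0 : 0 ≤ ξ.ρ := (norm_nonneg _).trans (ξ.ρge ⟨0, by omega⟩)
  refine ⟨h0, ?_⟩
  obtain ⟨P, U, hP, hd, -, hU, hg⟩ := weier_gt c hh.le
  have hw := weier_prod ξ hP hd hU hg
  have := REP.mm_le c hh.le hg ((Ob.ball (ξ.ρ ^ 2) (by positivity)).comap ξ.z)
    (fun f hf => by rw [Ideal.mem_comap, ξ.zI f hf]; exact Ideal.zero_mem _) (fun i hi => by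
      rw [Ideal.mem_comap, ← Polynomial.coeff_map, hw]
      refine REP.coeff_prod_mem _ (fun e => ?_) (by simpa using hi)
      rw [Ob.mem_ball, norm_pow]
      have h1 : ‖(∑ j, (e j : ℕ) • ξ.τ j 1).1‖ ≤ ξ.ρ :=
        GPt.norm_sum_le _ _ h0 fun j _ => (GPt.norm_nsmul_le _ _).trans (ξ.ρge j)
      refine (pow_le_pow_left₀ (norm_nonneg _) h1 _).trans (pow_le_pow_of_le_one h0 ξ.ρlt.le ?_)
      exact (Fact.out : p.Prime).two_le.trans (Nat.le_self_pow (by omega) p))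
  exact fun f hf => this hf

namespace REP

variable (c h ι) in
/-- functions bounded by `ρ^B`. -/
def Fil (B : ℕ) : Ideal (XPt c h ι → Ob C) where
  carrier := {s | ∀ ξ, ‖s ξ‖ ≤ |ξ.ρ| ^ B}
  add_mem' := fun {a b} ha hb ξ =>
    (IsUltrametricDist.norm_add_le_max (a ξ) (b ξ)).trans (max_le (ha ξ) (hb ξ))
  zero_mem' := fun ξ => by simp
  smul_mem' := fun a s hs ξ => by
    simp only [smul_eq_mul, Pi.mul_apply, norm_mul]
    exact (mul_le_of_le_one_left (norm_nonneg _) (Ob.norm_le_one _)).trans (hs ξ)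

theorem mem_Fil (hh1 : 1 ≤ h) (hh : h < n) {B : ℕ} {s : XPt c h ι → Ob C} :
    s ∈ Fil c h ι B ↔ ∀ ξ, ‖s ξ‖ ≤ ξ.ρ ^ B :=
  forall_congr' fun ξ => by rw [abs_of_nonneg (rho_bound hh1 hh ξ).1]

theorem Fil_mono (hh1 : 1 ≤ h) (hh : h < n) {B B' : ℕ} (hB : B ≤ B') : Fil c h ι B' ≤ Fil c h ι B := by
  intro s hs
  rw [mem_Fil hh1 hh] at hs ⊢
  exact fun ξ => (hs ξ).trans (pow_le_pow_of_le_one (rho_bound hh1 hh ξ).1 ξ.ρlt.le hB)

omit [CharP C p] in
theorem Fil_mul {B B' : ℕ} {s t : XPt c h ι → Ob C} (hs : s ∈ Fil c h ι B) (ht : t ∈ Fil c h ι B') :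
    s * t ∈ Fil c h ι (B + B') := fun ξ => by
  rw [Pi.mul_apply, norm_mul, pow_add]
  exact mul_le_mul (hs ξ) (ht ξ) (norm_nonneg _) (by positivity)

omit [CharP C p] in
theorem Fil_pow {B : ℕ} {s : XPt c h ι → Ob C} (hs : s ∈ Fil c h ι B) (k : ℕ) :
    s ^ k ∈ Fil c h ι (B * k) := fun ξ => by
  rw [Pi.pow_apply, norm_pow, pow_mul]
  exact pow_le_pow_left₀ (norm_nonneg _) (hs ξ) k

/-- `Pol + Fil B`. -/
def Rp (Pol : Subring (XPt c h ι → Ob C)) (B : ℕ) : Subring (XPt c h ι → Ob C) :=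
  (Pol.map (Ideal.Quotient.mk (Fil c h ι B))).comap (Ideal.Quotient.mk (Fil c h ι B))

omit [CharP C p] in
theorem mem_Rp {Pol : Subring (XPt c h ι → Ob C)} {B : ℕ} {s : XPt c h ι → Ob C} :
    s ∈ Rp Pol B ↔ ∃ P ∈ Pol, s - P ∈ Fil c h ι B := by
  simp only [Rp, Subring.mem_comap, Subring.mem_map]
  refine exists_congr fun P => and_congr Iff.rfl ?_
  rw [eq_comm, Ideal.Quotient.eq]

omit [CharP C p] in
theorem pol_le {Pol : Subring (XPt c h ι → Ob C)} {B : ℕ} {s : XPt c h ι → Ob C} (hs : s ∈ Pol) :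
    s ∈ Rp Pol B := mem_Rp.2 ⟨s, hs, by simp⟩

omit [CharP C p] in
theorem fil_le {Pol : Subring (XPt c h ι → Ob C)} {B : ℕ} {s : XPt c h ι → Ob C} (hs : s ∈ Fil c h ι B) :
    s ∈ Rp Pol B := mem_Rp.2 ⟨0, Pol.zero_mem, by simpa using hs⟩

omit [CharP C p] in
theorem Rp_of_sub {Pol : Subring (XPt c h ι → Ob C)} {B : ℕ} {s t : XPt c h ι → Ob C} (ht : t ∈ Rp Pol B)
    (hs : s - t ∈ Fil c h ι B) : s ∈ Rp Pol B := by
  have := add_mem ht (fil_le (Pol := Pol) hs)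
  simpa using this

omit [CharP C p] in
theorem Rp_mul {Pol : Subring (XPt c h ι → Ob C)} {B : ℕ} {s k : XPt c h ι → Ob C} (hs : s ∈ Rp Pol B)
    (hk : k ∈ Rp Pol (B + 1)) (hk1 : k ∈ Fil c h ι 1) : s * k ∈ Rp Pol (B + 1) := by
  obtain ⟨P, hP, he⟩ := mem_Rp.1 hs
  refine Rp_of_sub (mul_mem (pol_le hP) hk) ?_
  rw [← sub_mul]
  exact Fil_mul he hk1

theorem sub_pow' (s t : XPt c h ι → Ob C) (k : ℕ) : (s - t) ^ p ^ k = s ^ p ^ k - t ^ p ^ k := by
  funext ξ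
  simp only [Pi.pow_apply, Pi.sub_apply, sub_pow_char_pow]

variable (c h ι) in
/-- the functions `ξ ↦ z f`. -/
def Z : LTRing p n →+* (XPt c h ι → Ob C) := RingHom.pi fun ξ => ξ.z

/-- the functions `ξ ↦ τ j i`. -/
def T (j : Fin (n - h)) (i : ℕ) : XPt c h ι → Ob C := fun ξ => (ξ.τ j i).1

/-- families of points in `Rp B ⊓ Fil 1`. -/
def Gm (hh1 : 1 ≤ h) (hh : h < n) (Pol : Subring (XPt c h ι → Ob C)) (B : ℕ)
    (hZ : ∀ f, Z c h ι f ∈ Rp Pol B) : AddSubmonoid (∀ ξ : XPt c h ι, GPt (c.H.map ξ.z)) where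
  carrier := {x | (fun ξ => (x ξ).1) ∈ Rp Pol B ∧ (fun ξ => (x ξ).1) ∈ Fil c h ι 1}
  zero_mem' := ⟨zero_mem _, zero_mem _⟩
  add_mem' := fun {x y} hx hy => by
    have hx2 := (mem_Fil hh1 hh).1 hx.2
    have hy2 := (mem_Fil hh1 hh).1 hy.2
    refine ⟨Rp_of_sub (t := MvPolynomial.eval₂ (Z c h ι) ![fun ξ => (x ξ).1, fun ξ => (y ξ).1]
      (MvPowerSeries.truncTotal B c.H.toPowerSeries)) ?_ ?_, ?_⟩
    · refine MvPolynomial.eval₂_mem (fun i _ => hZ _) fun i => ?_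
      fin_cases i
      · exact hx.1
      · exact hy.1
    · rw [mem_Fil hh1 hh]
      intro ξ
      have h1 := norm_ev_sub_trunc (GPt.pair (x ξ) (y ξ)) (rho_bound hh1 hh ξ).1 (θ := ξ.ρ)
        (fun i => by
          fin_cases i
          · simpa using hx2 ξ
          · simpa using hy2 ξ) (c.H.map ξ.z).toPowerSeries B
      have h2 : MvPowerSeries.truncTotal B (c.H.map ξ.z).toPowerSeries =
          MvPolynomial.map ξ.z (MvPowerSeries.truncTotal B c.H.toPowerSeries) := by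
        ext d
        simp only [MvPolynomial.coeff_map, MvPowerSeries.coeff_truncTotal_eq_ite,
          FormalGroup.map_toPowerSeries, MvPowerSeries.coeff_map]
        split_ifs <;> simp
      have h3 : MvPolynomial.eval₂ (Z c h ι) ![fun ξ => (x ξ).1, fun ξ => (y ξ).1]
          (MvPowerSeries.truncTotal B c.H.toPowerSeries) ξ = MvPolynomial.eval₂ ξ.z
            ![(x ξ).1, (y ξ).1] (MvPowerSeries.truncTotal B c.H.toPowerSeries) := by
        have := MvPolynomial.eval₂_comp_left (Pi.evalRingHom (fun _ : XPt c h ι => Ob C) ξ) (Z c h ι)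
          ![fun ξ => (x ξ).1, fun ξ => (y ξ).1] (MvPowerSeries.truncTotal B c.H.toPowerSeries)
        refine this.trans ?_
        congr 1
        funext i
        fin_cases i <;> rfl
      rw [h2, MvPolynomial.eval_map] at h1
      rw [Pi.sub_apply, h3]
      exact h1
    · rw [mem_Fil hh1 hh]
      exact fun ξ => (GPt.norm_add_le _ _).trans (max_le (hx2 ξ) (hy2 ξ))

theorem near (hh1 : 1 ≤ h) (hh : h < n) (ξ : XPt c h ι) : Near (c.H.map ξ.z) p (p ^ n) (ξ.ρ ^ 2) :=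
  near_of_bound ξ.z (rho_bound hh1 hh ξ).2

theorem rho2_lt (hh1 : 1 ≤ h) (hh : h < n) (ξ : XPt c h ι) : ξ.ρ ^ 2 < 1 :=
  pow_lt_one₀ (rho_bound hh1 hh ξ).1 ξ.ρlt two_ne_zero

theorem T_bound (hh1 : 1 ≤ h) (hh : h < n) (ξ : XPt c h ι) (j : Fin (n - h)) (i : ℕ) :
    ‖(ξ.τ j i).1‖ ^ (p ^ n) ^ i ≤ ξ.ρ := by
  have h0 := (rho_bound hh1 hh ξ).1
  induction i with
  | zero => rw [(ξ.sys j).1]; simpa using h0
  | succ i ih =>
    have h1 := near_nsmul c.hn (near hh1 hh ξ) (ξ.τ j (i + 1))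
    rw [(ξ.sys j).2] at h1
    have h2 : ‖(ξ.τ j i).1 - (ξ.τ j (i + 1)).1 ^ p ^ n‖ ≤ ξ.ρ ^ 2 :=
      h1.trans (mul_le_of_le_one_right (by positivity) (Ob.norm_le_one _))
    have h3 : ‖(ξ.τ j (i + 1)).1‖ ^ p ^ n ≤ max ‖(ξ.τ j i).1‖ (ξ.ρ ^ 2) := by
      rw [← norm_pow]
      have e : (ξ.τ j (i + 1)).1 ^ p ^ n = (ξ.τ j i).1 + -((ξ.τ j i).1 - (ξ.τ j (i + 1)).1 ^ p ^ n) := by
        ring
      rw [e]
      refine (IsUltrametricDist.norm_add_le_max _ _).trans (max_le_max le_rfl ?_)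
      rwa [norm_neg]
    rw [pow_succ', pow_mul]
    refine (pow_le_pow_left₀ (by positivity) h3 _).trans ?_
    have hq : (p ^ n) ^ i ≠ 0 := by have := (Fact.out : p.Prime).pos; positivity
    rcases le_total ‖(ξ.τ j i).1‖ (ξ.ρ ^ 2) with h | h
    · rw [max_eq_right h, ← pow_mul]
      exact pow_le_of_le_one h0 ξ.ρlt.le (by positivity)
    · rw [max_eq_left h]; exact ih

theorem Y_close (hh1 : 1 ≤ h) (hh : h < n) (j : Fin (n - h)) (i l : ℕ) :
    (fun ξ : XPt c h ι => yy (p ^ n) (ξ.τ j) i) - T j (i + l) ^ (p ^ n) ^ l ∈ Fil c h ι (l + 1) := by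
  rw [mem_Fil hh1 hh]
  intro ξ
  have h1 := yy_close c.hn (by positivity) (rho2_lt hh1 hh ξ) (near hh1 hh ξ) (ξ.sys j) i l
  refine le_trans h1 ?_
  rw [← pow_mul]
  refine pow_le_pow_of_le_one (rho_bound hh1 hh ξ).1 ξ.ρlt.le ?_
  have h2 : l < (p ^ n) ^ l :=
    Nat.lt_pow_self (Nat.one_lt_pow (by omega) (Fact.out : p.Prime).one_lt)
  omega

omit [CharP C p] in
theorem Z_of_mm {Pol : Subring (XPt c h ι → Ob C)} (hι : ∀ a, (fun _ => ι a) ∈ Pol) {B : ℕ}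
    (hm : ∀ f ∈ mm p n, Z c h ι f ∈ Rp Pol B) (f : LTRing p n) : Z c h ι f ∈ Rp Pol B := by
  have h1 := hm _ (RING.sub_C_mem p n f)
  have h2 : Z c h ι (MvPowerSeries.C (MvPowerSeries.constantCoeff f)) ∈ Pol := by
    have : Z c h ι (MvPowerSeries.C (MvPowerSeries.constantCoeff f)) =
        fun _ => ι (WittVector.constantCoeff (MvPowerSeries.constantCoeff f)) :=
      funext fun ξ => ξ.zW _
    rw [this]; exact hι _
  have := add_mem h1 (pol_le (B := B) h2)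
  simpa using this

theorem stepZ (hh1 : 1 ≤ h) (hh : h < n) {Pol : Subring (XPt c h ι → Ob C)} {B : ℕ} (hB : 1 ≤ B)
    (hZ : ∀ f, Z c h ι f ∈ Rp Pol B) (hT : ∀ j i, T j i ∈ Rp Pol B) :
    ∀ f ∈ mm p n, Z c h ι f ∈ Rp Pol (B + 1) ∧ Z c h ι f ∈ Fil c h ι 1 := by
  obtain ⟨P, U, hP, hd, -, hU, hg⟩ := weier_gt c hh.le
  let S : (Fin (n - h) → Fin p) → XPt c h ι → Ob C := fun e ξ => (∑ j, (e j : ℕ) • ξ.τ j 1).1
  have hS : ∀ e, S e ∈ Rp Pol B ∧ S e ∈ Fil c h ι 1 := by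
    intro e
    have h1 : (∑ j, (e j : ℕ) • (fun ξ : XPt c h ι => ξ.τ j 1)) ∈ Gm hh1 hh Pol B hZ :=
      sum_mem fun j _ => nsmul_mem (show (fun ξ : XPt c h ι => ξ.τ j 1) ∈ Gm hh1 hh Pol B hZ from
        ⟨hT j 1, (mem_Fil hh1 hh).2 fun ξ => by simpa using ξ.ρge j⟩) _
    have h2 : S e = fun ξ => ((∑ j, (e j : ℕ) • (fun ξ : XPt c h ι => ξ.τ j 1)) ξ).1 := by
      funext ξ
      simp only [S, Finset.sum_apply, Pi.smul_apply]
    rw [h2]
    exact h1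
  have hp2 : 2 ≤ p ^ h := (Fact.out : p.Prime).two_le.trans (Nat.le_self_pow (by omega) p)
  have hS' : ∀ e, S e ^ p ^ h ∈ Rp Pol (B + 1) ∧ S e ^ p ^ h ∈ Fil c h ι 1 := by
    intro e
    refine ⟨?_, Ideal.pow_mem_of_mem _ (hS e).2 _ (by omega)⟩
    obtain ⟨Q, hQ, he⟩ := mem_Rp.1 (hS e).1
    refine mem_Rp.2 ⟨Q ^ p ^ h, pow_mem hQ _, ?_⟩
    rw [← sub_pow']
    exact Fil_mono hh1 hh (by nlinarith) (Fil_pow he _)
  have hPQ : P.map (Z c h ι) = ∏ e, (Polynomial.X - Polynomial.C (S e ^ p ^ h)) := by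
    ext i ξ : 2
    have h1 := congrArg (fun Q => Polynomial.coeff Q i) (weier_prod ξ hP hd hU hg)
    have h2 : (∏ e, (Polynomial.X - Polynomial.C (S e ^ p ^ h))).map
        (Pi.evalRingHom (fun _ : XPt c h ι => Ob C) ξ) = ∏ e : Fin (n - h) → Fin p,
        (Polynomial.X - Polynomial.C ((∑ j, (e j : ℕ) • ξ.τ j 1).1 ^ p ^ h)) := by
      simp [Polynomial.map_prod, S]
    simp only [← h2, Polynomial.coeff_map] at h1
    rw [Polynomial.coeff_map]
    exact h1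
  let 𝔞 : Ideal (LTRing p n) :=
    { carrier := {f | Z c h ι f ∈ Rp Pol (B + 1) ∧ Z c h ι f ∈ Fil c h ι 1}
      add_mem' := fun {a b} ha hb => by
        simp only [Set.mem_ofPred_eq, map_add]
        exact ⟨add_mem ha.1 hb.1, add_mem ha.2 hb.2⟩
      zero_mem' := by
        simp only [Set.mem_ofPred_eq, map_zero]
        exact ⟨zero_mem _, zero_mem _⟩
      smul_mem' := fun a f hf => by
        simp only [Set.mem_ofPred_eq, smul_eq_mul, map_mul]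
        exact ⟨Rp_mul (hZ a) hf.1 hf.2, Ideal.mul_mem_left _ _ hf.2⟩ }
  refine mm_le c hh.le hg 𝔞 (fun f hf => ?_) (fun i hi => ?_)
  · have : Z c h ι f = 0 := funext fun ξ => ξ.zI f hf
    show Z c h ι f ∈ Rp Pol (B + 1) ∧ Z c h ι f ∈ Fil c h ι 1
    rw [this]
    exact ⟨zero_mem _, zero_mem _⟩
  · show Z c h ι (P.coeff i) ∈ Rp Pol (B + 1) ∧ Z c h ι (P.coeff i) ∈ Fil c h ι 1
    rw [← Polynomial.coeff_map, hPQ]
    exact ⟨coeff_prod_mem_subring _ (fun e => (hS' e).1) i,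
      coeff_prod_mem _ (fun e => (hS' e).2) (by simpa using hi)⟩

theorem stepT (hh1 : 1 ≤ h) (hh : h < n) {Pol : Subring (XPt c h ι → Ob C)}
    (hY : ∀ j i, (fun ξ : XPt c h ι => yy (p ^ n) (ξ.τ j) i) ∈ Pol) {B : ℕ}
    (hT : ∀ j i, T j i ∈ Rp Pol B)
    (hm : ∀ f ∈ mm p n, Z c h ι f ∈ Rp Pol (B + 1) ∧ Z c h ι f ∈ Fil c h ι 1) (j : Fin (n - h)) (i : ℕ) :
    T j i ∈ Rp Pol (B + 1) := by
  have hε : ∀ i, T j i - T j (i + 1) ^ p ^ n ∈ Rp Pol (B + 1) := by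
    intro i
    refine Rp_of_sub (t := ∑ d ∈ Finset.range ((p ^ n) ^ (i + 1) * (B + 1)), T j (i + 1) ^ d *
      Z c h ι (PowerSeries.coeff d (mulSeries c.H p - PowerSeries.X ^ (p ^ n)))) ?_ ?_
    · exact sum_mem fun d _ => Rp_mul (pow_mem (hT j _) d) (hm _ (mul_sub_mem_mm c d)).1
        (hm _ (mul_sub_mem_mm c d)).2
    · rw [mem_Fil hh1 hh]
      intro ξ
      have h1 := norm_ev1_sub_sum (GPt.lt (ξ.τ j (i + 1)))
        ((mulSeries c.H p - PowerSeries.X ^ (p ^ n)).map ξ.z) ((p ^ n) ^ (i + 1) * (B + 1))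
      have h2 : ev1 (ξ.τ j (i + 1)).1 ((mulSeries c.H p - PowerSeries.X ^ (p ^ n)).map ξ.z) =
          (ξ.τ j i).1 - (ξ.τ j (i + 1)).1 ^ p ^ n := by
        rw [map_sub, map_sub, map_pow, map_pow, PowerSeries.map_X, ev1_X (GPt.lt _), mul_map,
          ← GPt.nsmul_val, (ξ.sys j).2]
      rw [h2, pow_mul] at h1
      refine le_trans (le_of_eq ?_) (h1.trans (pow_le_pow_left₀ (by positivity)
        (T_bound hh1 hh ξ j (i + 1)) _))
      congr 1
      simp only [Pi.sub_apply, Pi.pow_apply, Finset.sum_apply, Pi.mul_apply, T, PowerSeries.coeff_map]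
      congr 1
      exact Finset.sum_congr rfl fun d _ => mul_comm _ _
  have key : ∀ l, T j i - T j (i + l) ^ (p ^ n) ^ l ∈ Rp Pol (B + 1) := by
    intro l
    induction l with
    | zero => simp
    | succ l ih =>
      have h1 := add_mem ih (pow_mem (hε (i + l)) ((p ^ n) ^ l))
      rw [← pow_mul p n l, sub_pow', pow_mul p n l, ← pow_mul _ (p ^ n), ← pow_succ'] at h1
      simpa [add_assoc] using h1
  have h1 := sub_mem (add_mem (key B) (pol_le (B := B + 1) (hY j i)))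
    (fil_le (Pol := Pol) (Y_close hh1 hh j i B))
  convert h1 using 1
  ring

theorem claim (hh1 : 1 ≤ h) (hh : h < n) {Pol : Subring (XPt c h ι → Ob C)}
    (hι : ∀ a, (fun _ => ι a) ∈ Pol) (hY : ∀ j i, (fun ξ : XPt c h ι => yy (p ^ n) (ξ.τ j) i) ∈ Pol)
    (B : ℕ) : (∀ f, Z c h ι f ∈ Rp Pol (B + 1)) ∧ ∀ j i, T j i ∈ Rp Pol (B + 1) := by
  induction B with
  | zero =>
    refine ⟨Z_of_mm hι fun f hf => fil_le (Fil_mono hh1 hh (by norm_num : 0 + 1 ≤ 2)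
      ((mem_Fil hh1 hh).2 fun ξ => (rho_bound hh1 hh ξ).2 f hf)), fun j i => ?_⟩
    have h1 := sub_mem (pol_le (B := 0 + 1) (hY j i)) (fil_le (Pol := Pol) (Y_close hh1 hh j i 0))
    simpa using h1
  | succ B ih =>
    have hm := stepZ hh1 hh (by omega) ih.1 ih.2
    exact ⟨Z_of_mm hι fun f hf => (hm f hf).1, stepT hh1 hh hY ih.2 hm⟩

variable (c h ι) in
/-- eventually polynomial in the `yy (I + m j)`. -/
def Pl (m : Fin (n - h) → ℕ) : Subring (XPt c h ι → Ob C) where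
  carrier := {s | ∃ I₀ : ℕ, ∀ I, I₀ ≤ I → ∃ P : MvPolynomial (Fin (n - h)) (GaloisField p n), ∀ ξ : XPt c h ι,
    s ξ = MvPolynomial.eval₂ ι (fun j => yy (p ^ n) (ξ.τ j) (I + m j)) P}
  mul_mem' := fun ⟨I, hI⟩ ⟨J, hJ⟩ => ⟨max I J, fun K hK => by
    obtain ⟨P, hP⟩ := hI K (le_of_max_le_left hK)
    obtain ⟨Q, hQ⟩ := hJ K (le_of_max_le_right hK)
    exact ⟨P * Q, fun ξ => by rw [Pi.mul_apply, hP, hQ, MvPolynomial.eval₂_mul]⟩⟩
  add_mem' := fun ⟨I, hI⟩ ⟨J, hJ⟩ => ⟨max I J, fun K hK => by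
    obtain ⟨P, hP⟩ := hI K (le_of_max_le_left hK)
    obtain ⟨Q, hQ⟩ := hJ K (le_of_max_le_right hK)
    exact ⟨P + Q, fun ξ => by rw [Pi.add_apply, hP, hQ, MvPolynomial.eval₂_add]⟩⟩
  one_mem' := ⟨0, fun _ _ => ⟨1, fun ξ => by simp⟩⟩
  zero_mem' := ⟨0, fun _ _ => ⟨0, fun ξ => by simp⟩⟩
  neg_mem' := fun ⟨I, hI⟩ => ⟨I, fun K hK => by
    obtain ⟨P, hP⟩ := hI K hK
    exact ⟨-P, fun ξ => by rw [Pi.neg_apply, hP, MvPolynomial.eval₂_neg]⟩⟩

end REP

/-- (REP) PLAN.  Work in the ring `𝓕 = XPt c h ι → O`.  `Fil B = {s | ∀ ξ, ‖s ξ‖ ≤ ξ.ρ^B}` (ideal), `Pol` = image of `MvPolynomial (Fin r × ℕ) k` under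
`eval₂ ι (yy ..)`, `Rep B = Pol + Fil B` (subring).  Claim(B): all `ξ ↦ ξ.z f` and all `ξ ↦ (ξ.τ j i).1` lie in `Rep B`.  `B = 0` trivial, `B = 1`: `ZPt.sub_mem`, `rho_bound`, `yy_close`.
Step (`B ≥ 1`): `𝒦 = Rep (B+1) ⊓ Fil 1` is stable under multiplication by `Rep B`.  Group sums of the `τ j 1` are in `Rep B ⊓ Fil 1` (`norm_ev_sub_trunc` at degree `B`);
their `p^h`-th powers are in `𝒦` (`(P+e)^(p^h) = P^(p^h) + e^(p^h)`); so the lower coefficients of `P.map z` (`weier_prod`; coefficients of `∏ (X - C s)` lie in `Rep (B+1)`: induct on the product) and the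
`z a_l` are in `𝒦`; so `z(mm) ⊆ 𝒦` (`mm = I_h + (a_l)`), `z(E) ⊆ Rep (B+1)`.  Next `‖τ j i‖^(q^i) ≤ ρ` for `i ≥ 1` uniformly (`near_nsmul`), so
`ε_i = τ_i - τ_{i+1}^q = ∑_d z(c'_d) τ_{i+1}^d` (`c'_d ∈ mm`, `norm_ev1_sub_sum`, truncate at `D = (B+1) q^(i+1)`) lies in `Rep (B+1)`, and
`τ_i = τ_{i+l}^(q^l) + ∑_{l' < l} ε_{i+l'}^(q^l')`, `τ_{i+l}^(q^l) ≡ yy i mod Fil (B+1)` for `l` large (`yy_close`).
Finally rewrite `yy (τ j) i = yy (τ j) (I + m j)^(q^(I + m j - i))` (`yy_pow`) with `I` ≥ all levels occurring in the polynomial. -/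
theorem rep (hh1 : 1 ≤ h) (hh : h < n) (f : LTRing p n) (B : ℕ) (m : Fin (n - h) → ℕ) :
    ∃ (I : ℕ) (P : MvPolynomial (Fin (n - h)) (GaloisField p n)), ∀ ξ : XPt c h ι,
      ‖ξ.z f - MvPolynomial.eval₂ ι (fun j => yy (p ^ n) (ξ.τ j) (I + m j)) P‖ ≤ ξ.ρ ^ B := by
  have hc := (REP.claim (c := c) (ι := ι) hh1 hh (Pol := REP.Pl c h ι m)
    (fun a => ⟨0, fun _ _ => ⟨MvPolynomial.C a, fun ξ => by simp⟩⟩)
    (fun j i => ⟨i, fun I hI => ⟨MvPolynomial.X j ^ (p ^ n) ^ (I + m j - i), fun ξ => by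
      have h1 := yy_pow c.hn (by positivity) (REP.rho2_lt hh1 hh ξ) (REP.near hh1 hh ξ) (ξ.sys j) i
        (I + m j - i)
      rw [show i + (I + m j - i) = I + m j by omega] at h1
      rw [MvPolynomial.eval₂_pow, MvPolynomial.eval₂_X, h1]⟩⟩) B).1 f
  obtain ⟨Q, ⟨I, hI⟩, hQ⟩ := REP.mem_Rp.1 hc
  obtain ⟨P, hP⟩ := hI I le_rfl
  refine ⟨I, P, fun ξ => ?_⟩
  rw [← hP]
  exact (REP.mem_Fil hh1 hh).1 (REP.Fil_mono hh1 hh (Nat.le_succ B) hQ) ξ

end
end Crest.Agent.R227
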