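import Crest.Agent.R227.Defs2

/-!
# 227-TATE: the limits `yy` and an orthogonal basis of the Tate module.
-/
set_option autoImplicit false
open Crest.LubinTate Filter

namespace Crest.Agent.R227
noncomputable section
variable {C : Type} [NormedField C] [IsUltrametricDist C] [CompleteSpace C]
variable {p : ℕ} [Fact p.Prime] [CharP C p] {n : ℕ} {G : FormalGroup (Ob C)} [G.IsComm] {δ : ℝ}

omit [CharP C p] in
/-- `‖[p] t - t^q‖ ≤ δ ‖t‖`  (`GPt.nsmul_val`, `norm_ev1_le_of_order` with `D = 1`). -/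
theorem near_nsmul (hn : 1 ≤ n) (hG : Near G p (p ^ n) δ) (t : GPt G) :
    ‖(p • t).1 - t.1 ^ p ^ n‖ ≤ δ * ‖t.1‖ := by
  have hq : p ^ n ≠ 0 := pow_ne_zero _ (Fact.out : p.Prime).ne_zero
  have h := norm_ev1_le_of_order t.lt (f := mulSeries G p - PowerSeries.X ^ p ^ n) (D := 1) (s := δ)
    (fun d hd => by
      obtain rfl : d = 0 := by omega
      rw [map_sub, PowerSeries.coeff_zero_eq_constantCoeff_apply, mul_const, PowerSeries.coeff_X_pow,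
        if_neg hq.symm, sub_zero]) hG
  rwa [map_sub, map_pow, ev1_X t.lt, ← GPt.nsmul_val, pow_one] at h

namespace TATE

theorem sub_q (x y : Ob C) (l : ℕ) : (x - y) ^ (p ^ n) ^ l = x ^ (p ^ n) ^ l - y ^ (p ^ n) ^ l := by
  rw [← pow_mul, sub_pow_char_pow]

theorem add_q (x y : Ob C) (l : ℕ) : (x + y) ^ (p ^ n) ^ l = x ^ (p ^ n) ^ l + y ^ (p ^ n) ^ l := by
  rw [← pow_mul, add_pow_char_pow]

omit [CharP C p] in
theorem two_le (hn : 1 ≤ n) : 2 ≤ p ^ n :=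
  (Fact.out : p.Prime).two_le.trans (Nat.le_self_pow (by omega) p)

omit [CompleteSpace C] in
theorem um_sub (a b : Ob C) : ‖a - b‖ ≤ max ‖a‖ ‖b‖ := by
  simpa [sub_eq_add_neg] using IsUltrametricDist.norm_add_le_max a (-b)

theorem step (hn : 1 ≤ n) (hδ0 : 0 ≤ δ) (hG : Near G p (p ^ n) δ) {τ : ℕ → GPt G} (hτ : IsSys p τ) (i l : ℕ) :
    ‖(τ (i + l)).1 ^ (p ^ n) ^ l - (τ (i + (l + 1))).1 ^ (p ^ n) ^ (l + 1)‖ ≤ δ ^ (p ^ n) ^ l := by
  have h := near_nsmul hn hG (τ (i + l + 1))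
  rw [hτ.2] at h
  rw [pow_succ' (p ^ n) l, pow_mul, ← sub_q, norm_pow, ← add_assoc]
  exact pow_le_pow_left₀ (norm_nonneg _)
    (h.trans (mul_le_of_le_one_right hδ0 (Ob.norm_le_one _))) _

omit [CharP C p] in
theorem dpow (hn : 1 ≤ n) (hδ0 : 0 ≤ δ) (hδ : δ < 1) (l : ℕ) : δ ^ (p ^ n) ^ l ≤ δ ^ l :=
  pow_le_pow_of_le_one hδ0 hδ.le (Nat.lt_pow_self (two_le hn)).le

omit [CharP C p] in
theorem dlim (hn : 1 ≤ n) (hδ0 : 0 ≤ δ) (hδ : δ < 1) :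
    Tendsto (fun l => δ ^ (p ^ n) ^ l) atTop (nhds 0) :=
  squeeze_zero (fun _ => pow_nonneg hδ0 _) (dpow hn hδ0 hδ) (tendsto_pow_atTop_nhds_zero_of_lt_one hδ0 hδ)

end TATE
open TATE

/-- PLAN: consecutive terms differ by `(τ_{i+l} - τ_{i+l+1}^q)^(q^l)` (`sub_pow_char_pow`), of norm `≤ δ^(q^l)`; ultrametric Cauchy
(`cauchySeq_of_le_geometric` or `IsUltrametricDist.cauchySeq_iff`-type), `tendsto_nhds_limUnder`. -/
theorem yy_tendsto (hn : 1 ≤ n) (hδ0 : 0 ≤ δ) (hδ : δ < 1) (hG : Near G p (p ^ n) δ) {τ : ℕ → GPt G} (hτ : IsSys p τ)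
    (i : ℕ) : Tendsto (fun l => (τ (i + l)).1 ^ (p ^ n) ^ l) atTop (nhds (yy (p ^ n) τ i)) := by
  have hc : CauchySeq fun l => (τ (i + l)).1 ^ (p ^ n) ^ l :=
    cauchySeq_of_le_geometric δ 1 hδ fun l => by
      rw [dist_eq_norm, one_mul]
      exact (step hn hδ0 hG hτ i l).trans (dpow hn hδ0 hδ l)
  exact tendsto_nhds_limUnder (cauchySeq_tendsto_of_complete hc)

theorem yy_close (hn : 1 ≤ n) (hδ0 : 0 ≤ δ) (hδ : δ < 1) (hG : Near G p (p ^ n) δ) {τ : ℕ → GPt G} (hτ : IsSys p τ)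
    (i l : ℕ) : ‖yy (p ^ n) τ i - (τ (i + l)).1 ^ (p ^ n) ^ l‖ ≤ δ ^ (p ^ n) ^ l := by
  have key : ∀ m, ‖(τ (i + (m + l))).1 ^ (p ^ n) ^ (m + l) - (τ (i + l)).1 ^ (p ^ n) ^ l‖ ≤ δ ^ (p ^ n) ^ l := by
    intro m
    induction m with
    | zero => simpa using pow_nonneg hδ0 _
    | succ m ih =>
      have h1 := step hn hδ0 hG hτ i (m + l)
      have h2 : δ ^ (p ^ n) ^ (m + l) ≤ δ ^ (p ^ n) ^ l :=
        pow_le_pow_of_le_one hδ0 hδ.le (Nat.pow_le_pow_right (by have := two_le (p := p) hn; omega) (by omega))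
      have := um_sub ((τ (i + (m + l))).1 ^ (p ^ n) ^ (m + l) - (τ (i + l)).1 ^ (p ^ n) ^ l)
        ((τ (i + (m + l))).1 ^ (p ^ n) ^ (m + l) - (τ (i + (m + l + 1))).1 ^ (p ^ n) ^ (m + l + 1))
      rw [sub_sub_sub_cancel_left] at this
      rw [show m + 1 + l = m + l + 1 by ring]
      exact this.trans (max_le ih (h1.trans h2))
  have ht := (tendsto_add_atTop_iff_nat l).2 (yy_tendsto hn hδ0 hδ hG hτ i)
  exact le_of_tendsto' ((ht.sub_const _).norm) key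

theorem yy_lt_one (hn : 1 ≤ n) (hδ0 : 0 ≤ δ) (hδ : δ < 1) (hG : Near G p (p ^ n) δ) {τ : ℕ → GPt G} (hτ : IsSys p τ)
    (i : ℕ) : ‖yy (p ^ n) τ i‖ < 1 := by
  have h := yy_close hn hδ0 hδ hG hτ i 0
  simp only [pow_zero, pow_one, add_zero] at h
  have := IsUltrametricDist.norm_add_le_max (yy (p ^ n) τ i - (τ i).1) (τ i).1
  rw [sub_add_cancel] at this
  exact this.trans_lt (max_lt (h.trans_lt hδ) (τ i).lt)

theorem yy_pow (hn : 1 ≤ n) (hδ0 : 0 ≤ δ) (hδ : δ < 1) (hG : Near G p (p ^ n) δ) {τ : ℕ → GPt G} (hτ : IsSys p τ)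
    (i j : ℕ) : yy (p ^ n) τ (i + j) ^ (p ^ n) ^ j = yy (p ^ n) τ i := by
  have h1 := (yy_tendsto hn hδ0 hδ hG hτ (i + j)).pow ((p ^ n) ^ j)
  have h2 := (tendsto_add_atTop_iff_nat j).2 (yy_tendsto hn hδ0 hδ hG hτ i)
  refine tendsto_nhds_unique h1 (h2.congr fun l => ?_)
  rw [show i + (l + j) = i + j + l by ring, pow_add (p ^ n) l j, pow_mul]

omit [CharP C p] in
theorem IsSys.add {τ τ' : ℕ → GPt G} (h : IsSys p τ) (h' : IsSys p τ') : IsSys p (τ + τ') := by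
  refine ⟨by simp [h.1, h'.1], fun i => ?_⟩
  simp only [Pi.add_apply, smul_add, h.2, h'.2]

omit [CharP C p] in
theorem IsSys.nsmul {τ : ℕ → GPt G} (h : IsSys p τ) (m : ℕ) : IsSys p (m • τ) := by
  refine ⟨by simp [h.1], fun i => ?_⟩
  simp only [Pi.smul_apply]
  rw [smul_comm, h.2]

/-- PLAN: `GPt.add_eq`, raise to the power `q^l` (`add_pow_char_pow`), pass to the limit. -/
theorem yy_add (hn : 1 ≤ n) (hδ0 : 0 ≤ δ) (hδ : δ < 1) (hG : Near G p (p ^ n) δ) {τ τ' : ℕ → GPt G} (hτ : IsSys p τ)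
    (hτ' : IsSys p τ') (i : ℕ) :
    ‖yy (p ^ n) (τ + τ') i - yy (p ^ n) τ i - yy (p ^ n) τ' i‖ ≤ ‖yy (p ^ n) τ i‖ * ‖yy (p ^ n) τ' i‖ := by
  have h1 := yy_tendsto hn hδ0 hδ hG hτ i
  have h2 := yy_tendsto hn hδ0 hδ hG hτ' i
  have h3 := yy_tendsto hn hδ0 hδ hG (hτ.add hτ') i
  refine le_of_tendsto_of_tendsto' ((h3.sub h1).sub h2).norm (h1.norm.mul h2.norm) fun l => ?_
  obtain ⟨c, hc⟩ := GPt.add_eq (τ (i + l)) (τ' (i + l))
  simp only [Pi.add_apply]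
  rw [hc, add_q, add_q, mul_pow, mul_pow, add_assoc, add_sub_cancel_left, add_sub_cancel_left, norm_mul, norm_mul]
  exact mul_le_of_le_one_right (by positivity) (Ob.norm_le_one _)

theorem yy_nsmul_p (hn : 1 ≤ n) (hδ0 : 0 ≤ δ) (hδ : δ < 1) (hG : Near G p (p ^ n) δ) {τ : ℕ → GPt G} (hτ : IsSys p τ)
    (i : ℕ) : yy (p ^ n) (p • τ) i = yy (p ^ n) τ i ^ p ^ n := by
  have h1 := (tendsto_add_atTop_iff_nat 1).2 (yy_tendsto hn hδ0 hδ hG (hτ.nsmul p) i)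
  have h2 := (yy_tendsto hn hδ0 hδ hG hτ i).pow (p ^ n)
  refine tendsto_nhds_unique h1 (h2.congr fun l => ?_)
  simp only [Pi.smul_apply]
  rw [← add_assoc, hτ.2, ← pow_mul, ← pow_succ]

/-- PLAN: `θ(τ)^(q^l) = g(τ)^(q^l) + O(δ^(q^l))`, `g(τ)^(q^l) = g(τ^(q^l))` (`ev_frob`, `hg` iterated), `ev1 · g` is 1-Lipschitz (`norm_ev_sub_le`). -/
theorem yy_hom (hn : 1 ≤ n) (hδ0 : 0 ≤ δ) (hδ : δ < 1) (hG : Near G p (p ^ n) δ) {G' : FormalGroup (Ob C)} [G'.IsComm]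
    (Φ : GPt G →+ GPt G') {θ g : PowerSeries (Ob C)} (hΦ : ∀ x, (Φ x).1 = ev1 x.1 θ)
    (hθ : ∀ d, ‖PowerSeries.coeff d (θ - g)‖ ≤ δ) (hg : g.map (iterateFrobenius (Ob C) p n) = g)
    {τ : ℕ → GPt G} (hτ : IsSys p τ) (i : ℕ) :
    yy (p ^ n) (fun l => Φ (τ l)) i = ev1 (yy (p ^ n) τ i) g := by
  have hgl : ∀ l, g.map (iterateFrobenius (Ob C) p (n * l)) = g := by
    intro l
    induction l with
    | zero => simp
    | succ l ih => rw [mul_add, mul_one, iterateFrobenius_add, PowerSeries.map_comp, RingHom.comp_apply, hg, ih]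
  refine Tendsto.limUnder_eq (tendsto_iff_norm_sub_tendsto_zero.2
    (squeeze_zero (fun _ => norm_nonneg _) (fun l => ?_) (dlim (p := p) hn hδ0 hδ)))
  set t := τ (i + l) with ht
  have e1 : ‖ev1 t.1 θ - ev1 t.1 g‖ ≤ δ := by
    rw [← map_sub]
    exact norm_ev_le (fun _ => t.lt) fun d => by
      have := hθ (d ())
      rwa [PowerSeries.coeff_def rfl] at this
  have e2 : ev1 t.1 g ^ (p ^ n) ^ l = ev1 (t.1 ^ (p ^ n) ^ l) g := by
    have := ev_frob p (a := fun _ : Unit => t.1) (fun _ => t.lt) (n * l) g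
    rw [← pow_mul]
    exact this.trans (congrArg (ev1 (t.1 ^ p ^ (n * l))) (hgl l))
  have hl : ‖t.1 ^ (p ^ n) ^ l‖ < 1 := by
    rw [norm_pow]
    exact pow_lt_one₀ (norm_nonneg _) t.lt (pow_ne_zero _ (by have := two_le (p := p) hn; omega))
  have e3 : ‖ev1 (t.1 ^ (p ^ n) ^ l) g - ev1 (yy (p ^ n) τ i) g‖ ≤ δ ^ (p ^ n) ^ l :=
    norm_ev_sub_le (fun _ => hl) (fun _ => yy_lt_one hn hδ0 hδ hG hτ i) (pow_nonneg hδ0 _)
      (fun _ => by rw [norm_sub_rev]; exact yy_close hn hδ0 hδ hG hτ i l) g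
  have e4 : ‖ev1 t.1 θ ^ (p ^ n) ^ l - ev1 t.1 g ^ (p ^ n) ^ l‖ ≤ δ ^ (p ^ n) ^ l := by
    rw [← sub_q, norm_pow]
    exact pow_le_pow_left₀ (norm_nonneg _) e1 _
  rw [hΦ]
  have := IsUltrametricDist.norm_add_le_max (ev1 t.1 θ ^ (p ^ n) ^ l - ev1 t.1 g ^ (p ^ n) ^ l)
    (ev1 t.1 g ^ (p ^ n) ^ l - ev1 (yy (p ^ n) τ i) g)
  rw [sub_add_sub_cancel] at this
  exact this.trans (max_le e4 (e2 ▸ e3))

namespace TATE

omit [CharP C p] in
theorem sys_tors {τ : ℕ → GPt G} (hτ : IsSys p τ) (i : ℕ) : p ^ i • τ i = 0 := by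
  induction i with
  | zero => simpa using hτ.1
  | succ i ih => rw [pow_succ, mul_smul, hτ.2, ih]

omit [CharP C p] in
theorem small (hn : 1 ≤ n) (hδ0 : 0 ≤ δ) (hG : Near G p (p ^ n) δ) {τ : ℕ → GPt G} (hτ : IsSys p τ)
    (k : ℕ) (h : ‖(τ (1 + k)).1‖ ≤ δ) : ‖(τ 1).1‖ ≤ δ ^ (k + 1) := by
  suffices H : ‖(τ 1).1‖ ≤ δ ^ k * ‖(τ (1 + k)).1‖ from
    H.trans (by rw [pow_succ]; exact mul_le_mul_of_nonneg_left h (pow_nonneg hδ0 _))
  induction k with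
  | zero => simp
  | succ k ih =>
    set t := τ (1 + (k + 1)) with ht
    have e : τ (1 + k) = p • t := (hτ.2 _).symm
    have h1 := near_nsmul hn hG t
    have h2 : ‖t.1 ^ p ^ n‖ ≤ δ * ‖t.1‖ := by
      rw [norm_pow]
      refine (pow_le_pow_of_le_one (norm_nonneg _) (Ob.norm_le_one _) (two_le hn)).trans ?_
      rw [sq]
      exact mul_le_mul_of_nonneg_right h (norm_nonneg _)
    have h3 := IsUltrametricDist.norm_add_le_max ((p • t).1 - t.1 ^ p ^ n) (t.1 ^ p ^ n)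
    rw [sub_add_cancel, ← e] at h3
    have h4 : ‖(τ (1 + k)).1‖ ≤ δ * ‖t.1‖ := h3.trans (max_le (e ▸ h1) h2)
    refine (ih (h4.trans (mul_le_of_le_one_right hδ0 (Ob.norm_le_one _)))).trans ?_
    rw [pow_succ, mul_assoc]
    exact mul_le_mul_of_nonneg_left h4 (pow_nonneg hδ0 _)

/-- finitely many, nonzero values. -/
theorem vals (hn : 1 ≤ n) (hδ0 : 0 ≤ δ) (hδ : δ < 1) (hG : Near G p (p ^ n) δ)
    (hfin : ∀ i, {t : GPt G | p ^ i • t = 0}.Finite) :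
    ∃ S : Set ℝ, S.Finite ∧ ∀ τ : ℕ → GPt G, IsSys p τ → τ 1 ≠ 0 →
      0 < ‖yy (p ^ n) τ 0‖ ∧ ‖yy (p ^ n) τ 0‖ ∈ S := by
  have hev : ∀ᶠ k : ℕ in atTop, ∀ t ∈ {t : GPt G | p ^ 1 • t = 0}, t ≠ 0 → δ ^ (k + 1) < ‖t.1‖ := by
    refine (eventually_all_finite (hfin 1)).2 fun t _ => ?_
    by_cases ht : t = 0
    · simp [ht]
    have : 0 < ‖t.1‖ := norm_pos_iff.2 fun h => ht (Subtype.ext h)
    filter_upwards [((tendsto_add_atTop_iff_nat 1).2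
      (tendsto_pow_atTop_nhds_zero_of_lt_one hδ0 hδ)).eventually (gt_mem_nhds this)] with k hk _ using hk
  obtain ⟨k, hk⟩ := hev.exists
  refine ⟨_, (hfin (1 + k)).image fun t => ‖t.1‖ ^ (p ^ n) ^ (1 + k), fun τ hτ h1 => ?_⟩
  have h2 : δ < ‖(τ (1 + k)).1‖ :=
    lt_of_not_ge fun h => (hk _ (sys_tors hτ 1) h1).not_ge (small hn hδ0 hG hτ k h)
  have h3 := yy_close hn hδ0 hδ hG hτ (1 + k) 0
  simp only [pow_zero, pow_one, add_zero] at h3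
  have h4 : ‖yy (p ^ n) τ (1 + k)‖ = ‖(τ (1 + k)).1‖ := by
    have := IsUltrametricDist.norm_add_eq_max_of_norm_ne_norm (h3.trans_lt h2).ne
    rwa [sub_add_cancel, max_eq_right (h3.trans h2.le)] at this
  have h5 := yy_pow hn hδ0 hδ hG hτ 0 (1 + k)
  rw [zero_add] at h5
  rw [← h5, norm_pow, h4]
  exact ⟨pow_pos (hδ0.trans_lt h2) _, _, sys_tors hτ _, rfl⟩

theorem yy_ppow (hn : 1 ≤ n) (hδ0 : 0 ≤ δ) (hδ : δ < 1) (hG : Near G p (p ^ n) δ) {τ : ℕ → GPt G}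
    (hτ : IsSys p τ) (k : ℕ) : yy (p ^ n) (p ^ k • τ) 0 = yy (p ^ n) τ 0 ^ (p ^ n) ^ k := by
  induction k with
  | zero => simp
  | succ k ih => rw [pow_succ', mul_smul, yy_nsmul_p hn hδ0 hδ hG (hτ.nsmul _), ih, ← pow_mul, ← pow_succ]

omit [CharP C p] in
theorem sys_zero : IsSys p (0 : ℕ → GPt G) := ⟨rfl, fun _ => by simp⟩

theorem yy_zero (hn : 1 ≤ n) (hδ0 : 0 ≤ δ) (hδ : δ < 1) (hG : Near G p (p ^ n) δ) :
    yy (p ^ n) (0 : ℕ → GPt G) 0 = 0 := by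
  refine tendsto_nhds_unique (yy_tendsto hn hδ0 hδ hG sys_zero 0) (tendsto_const_nhds.congr fun l => ?_)
  have := two_le (p := p) hn
  simp only [Pi.zero_apply, GPt.zero_val]
  exact (zero_pow (pow_ne_zero _ (by omega))).symm

/-- pairs (system, approximate value). -/
def rel (hn : 1 ≤ n) (hδ0 : 0 ≤ δ) (hδ : δ < 1) (hG : Near G p (p ^ n) δ) (ν : ℝ) (h0 : 0 ≤ ν) (h1 : ν ≤ 1) :
    AddSubmonoid ((ℕ → GPt G) × Ob C) where
  carrier := {z | IsSys p z.1 ∧ ‖z.2‖ ≤ ν ∧ ‖yy (p ^ n) z.1 0 - z.2‖ ≤ ν * ν}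
  zero_mem' := ⟨sys_zero, by simpa using h0, by
    simpa [yy_zero hn hδ0 hδ hG] using mul_nonneg h0 h0⟩
  add_mem' := by
    have key : ∀ y a : Ob C, ‖a‖ ≤ ν → ‖y - a‖ ≤ ν * ν → ‖y‖ ≤ ν := fun y a ha hy => by
      have := IsUltrametricDist.norm_add_le_max (y - a) a
      rw [sub_add_cancel] at this
      exact this.trans (max_le (hy.trans (mul_le_of_le_one_right h0 h1)) ha)
    rintro ⟨σ, a⟩ ⟨σ', a'⟩ ⟨s1, s2, s3⟩ ⟨t1, t2, t3⟩
    refine ⟨s1.add t1, (IsUltrametricDist.norm_add_le_max a a').trans (max_le s2 t2), ?_⟩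
    have e := yy_add hn hδ0 hδ hG s1 t1 0
    have e' := e.trans (mul_le_mul (key _ _ s2 s3) (key _ _ t2 t3) (norm_nonneg _) h0)
    dsimp only [Prod.fst_add, Prod.snd_add] at *
    rw [show yy (p ^ n) (σ + σ') 0 - (a + a') = (yy (p ^ n) (σ + σ') 0 - yy (p ^ n) σ 0 - yy (p ^ n) σ' 0) +
      ((yy (p ^ n) σ 0 - a) + (yy (p ^ n) σ' 0 - a')) by ring]
    exact (IsUltrametricDist.norm_add_le_max _ _).trans
      (max_le e' ((IsUltrametricDist.norm_add_le_max _ _).trans (max_le s3 t3)))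

omit [CharP C p] in
theorem indep_ne {r : ℕ} {t : Fin r → GPt G} (h : Indep p t) (j : Fin r) : t j ≠ 0 := fun h0 => by
  have := h (Pi.single j 1) (by
    rw [Finset.sum_eq_single j (fun i _ hi => by simp [hi]) (by simp)]
    simp [h0]) j
  simp only [Pi.single_eq_same, Nat.dvd_one] at this
  exact (Fact.out : p.Prime).ne_one this

omit [CharP C p] in
theorem indep_update {r : ℕ} {t : Fin r → GPt G} (h : Indep p t) (j₀ : Fin r) (f : Fin r → ℕ)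
    (hf : ¬ p ∣ f j₀) : Indep p (Function.update t j₀ (∑ i, f i • t i)) := by
  intro d hd
  have e : ∑ j, d j • Function.update t j₀ (∑ i, f i • t i) j =
      ∑ j, ((if j = j₀ then 0 else d j) + d j₀ * f j) • t j := by
    simp only [add_smul, mul_smul, Finset.sum_add_distrib, ← Finset.smul_sum]
    generalize ∑ i, f i • t i = u
    rw [← Finset.add_sum_erase _ _ (Finset.mem_univ j₀), ← Finset.add_sum_erase _ _ (Finset.mem_univ j₀),
      Function.update_self, if_pos rfl, zero_smul, zero_add, add_comm]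
    congr 1
    exact Finset.sum_congr rfl fun j hj => by
      rw [Function.update_of_ne (Finset.ne_of_mem_erase hj), if_neg (Finset.ne_of_mem_erase hj)]
  have h1 := h _ (e ▸ hd)
  have h2 : p ∣ d j₀ := by
    have := h1 j₀
    rw [if_pos rfl, zero_add] at this
    exact ((Fact.out : p.Prime).dvd_mul.1 this).resolve_right hf
  intro j
  by_cases hj : j = j₀
  · exact hj ▸ h2
  · have := h1 j
    rw [if_neg hj] at this
    exact (Nat.dvd_add_left (h2.mul_right _)).1 this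

/-- the exchange step. -/
theorem exch (hn : 1 ≤ n) (hδ0 : 0 ≤ δ) (hδ : δ < 1) (hG : Near G p (p ^ n) δ) {r : ℕ}
    (τ : Fin r → ℕ → GPt G) (h0 : ∀ j, IsSys p (τ j)) (m : Fin r → ℕ) (c : Fin r → ℤ) (j₁ : Fin r)
    (hj : ¬ (p : ℤ) ∣ c j₁)
    (hlt : ‖∑ i, (c i : Ob C) * yy (p ^ n) (τ i) 0 ^ (p ^ n) ^ m i‖ < ‖yy (p ^ n) (τ j₁) 0 ^ (p ^ n) ^ m j₁‖) :
    ∃ j₀, ∃ f : Fin r → ℕ, ¬ p ∣ f j₀ ∧ IsSys p (∑ i, f i • τ i) ∧
      ‖yy (p ^ n) (∑ i, f i • τ i) 0‖ < ‖yy (p ^ n) (τ j₀) 0‖ := by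
  classical
  have hp := (Fact.out : p.Prime)
  set x : Fin r → Ob C := fun i => yy (p ^ n) (τ i) 0 ^ (p ^ n) ^ m i with hx
  obtain ⟨j₂, hj₂, hmax⟩ := (Finset.univ.filter fun i => ¬ (p : ℤ) ∣ c i).exists_max_image (fun i => ‖x i‖)
    ⟨j₁, by simpa using hj⟩
  set ν := ‖x j₂‖ with hν
  set T := Finset.univ.filter fun i => ¬ (p : ℤ) ∣ c i ∧ ‖x i‖ = ν with hT
  obtain ⟨j₀, hj₀, hmin⟩ := T.exists_min_image m ⟨j₂, Finset.mem_filter.2 ⟨Finset.mem_univ _, (Finset.mem_filter.1 hj₂).2, rfl⟩⟩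
  have hlt' : ‖∑ i, (c i : Ob C) * x i‖ < ν := hlt.trans_le (hmax j₁ (by simpa using hj))
  have hν0 : 0 < ν := (norm_nonneg _).trans_lt hlt'
  have hν1 : ν < 1 := by
    rw [hν, hx, norm_pow]
    exact pow_lt_one₀ (norm_nonneg _) (yy_lt_one hn hδ0 hδ hG (h0 _) 0)
      (pow_ne_zero _ (pow_ne_zero _ hp.ne_zero))
  have hp0 : (p : ℤ) ≠ 0 := by exact_mod_cast hp.ne_zero
  set e : Fin r → ℕ := fun i => if i ∈ T then (c i % p).toNat else 0 with he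
  have hc : ∀ i, (((c i % p).toNat : ℕ) : ℤ) = c i % p := fun i => Int.toNat_of_nonneg (Int.emod_nonneg _ hp0)
  have hcO : ∀ i, (((c i % p).toNat : ℕ) : Ob C) = (c i : Ob C) := fun i => by
    rw [← Int.cast_natCast, hc, CharP.intCast_eq_intCast (Ob C) p]
    exact Int.mod_modEq _ _
  have hsys : ∀ (f : Fin r → ℕ), IsSys p (∑ i, f i • τ i) := fun f =>
    Finset.sum_induction _ (IsSys p) (fun _ _ => IsSys.add) sys_zero fun i _ => (h0 i).nsmul _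
  refine ⟨j₀, fun i => e i * p ^ (m i - m j₀), ?_, hsys _, ?_⟩
  · simp only [he, if_pos hj₀, Nat.sub_self, pow_zero, mul_one]
    intro h
    have h' : (p : ℤ) ∣ c j₀ % p := hc j₀ ▸ Int.natCast_dvd_natCast.2 h
    exact (Finset.mem_filter.1 hj₀).2.1 (by
      rw [← Int.emod_add_mul_ediv (c j₀) p]; exact dvd_add h' (dvd_mul_right _ _))
  have hσ : p ^ m j₀ • ∑ i, (e i * p ^ (m i - m j₀)) • τ i = ∑ i, e i • p ^ m i • τ i := by
    rw [Finset.smul_sum]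
    refine Finset.sum_congr rfl fun i _ => ?_
    by_cases hi : i ∈ T
    · rw [← mul_smul, ← mul_smul, mul_left_comm, ← pow_add, Nat.add_sub_cancel' (hmin i hi)]
    · simp [he, hi]
  have hmem : (∑ i, e i • ((p ^ m i • τ i, x i) : (ℕ → GPt G) × Ob C)) ∈ rel hn hδ0 hδ hG ν hν0.le hν1.le := by
    refine AddSubmonoid.sum_mem _ fun i _ => ?_
    by_cases hi : i ∈ T
    · refine AddSubmonoid.nsmul_mem _ ?_ _
      refine ⟨(h0 i).nsmul _, (Finset.mem_filter.1 hi).2.2.le, ?_⟩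
      dsimp only
      rw [yy_ppow hn hδ0 hδ hG (h0 i), sub_self, norm_zero]
      positivity
    · simp [he, hi]
  have h3 := hmem.2.2
  simp only [Prod.fst_sum, Prod.snd_sum, Prod.smul_fst, Prod.smul_snd] at h3
  have h4 : ‖∑ i, e i • x i‖ < ν := by
    have : ∑ i, e i • x i = ∑ i, (c i : Ob C) * x i - ∑ i, (if i ∈ T then 0 else (c i : Ob C) * x i) := by
      rw [← Finset.sum_sub_distrib]
      refine Finset.sum_congr rfl fun i _ => ?_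
      by_cases hi : i ∈ T
      · simp only [he, if_pos hi, nsmul_eq_mul, hcO, sub_zero]
      · simp [he, hi]
    rw [this]
    refine (um_sub _ _).trans_lt (max_lt hlt' ?_)
    refine Finset.sum_induction _ (fun y : Ob C => ‖y‖ < ν)
      (fun a b ha hb => (IsUltrametricDist.norm_add_le_max a b).trans_lt (max_lt ha hb)) (by simpa using hν0)
      fun i _ => ?_
    by_cases hi : i ∈ T
    · simpa [hi] using hν0
    rw [if_neg hi]
    by_cases hd : (p : ℤ) ∣ c i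
    · rw [(CharP.intCast_eq_zero_iff (Ob C) p _).2 hd]
      simpa using hν0
    · rw [norm_mul]
      refine (mul_le_of_le_one_left (norm_nonneg _) (Ob.norm_le_one _)).trans_lt
        (lt_of_le_of_ne (hmax i (by simpa using hd)) fun h => hi ?_)
      exact Finset.mem_filter.2 ⟨Finset.mem_univ _, hd, h⟩
  have h5 := IsUltrametricDist.norm_add_le_max
    (yy (p ^ n) (∑ i, e i • p ^ m i • τ i) 0 - ∑ i, e i • x i) (∑ i, e i • x i)
  rw [sub_add_cancel] at h5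
  have h6 := h5.trans_lt (max_lt (h3.trans_lt (mul_lt_of_lt_one_right hν0 hν1)) h4)
  rw [← hσ, yy_ppow hn hδ0 hδ hG (hsys _), ← (Finset.mem_filter.1 hj₀).2.2, hx, norm_pow, norm_pow] at h6
  exact lt_of_pow_lt_pow_left₀ _ (norm_nonneg _) h6

end TATE

/-- (ORTH) PLAN.  `x(τ) = yy τ 0`.  (1) For systems with `τ 1 ≠ 0`, `‖x(τ)‖` is nonzero and takes finitely many values: `‖[p]t‖ ≤ δ ‖t‖` if `‖t‖ ≤ δ`
(`near_nsmul`, `q ≥ 2`), so `‖τ_i‖ ≤ δ ⇒ ‖τ_1‖ ≤ δ^i`; pick `i₀` with `δ^i₀ < ‖t‖` for all nonzero `t` of the finite set `G[p]`; then `‖τ_{i₀}‖ > δ`, `‖yy τ i₀‖ = ‖τ_{i₀}‖`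
(`yy_close`, `l = 0`), `‖x(τ)‖ = ‖τ_{i₀}‖^(q^i₀)` with `τ_{i₀} ∈ G[p^i₀]` finite.  (2) Choose an admissible family (`IsSys`, `Indep`) minimising `∏ ‖x(τ j)‖`.
`μ = min ‖x_j‖`, `m j` maximal with `μ ≤ ‖x_j‖^(q^m)`; `x̂_j = x_j^(q^(m j)) = x(p^(m j) • τ j)`.  Then `‖x̂_i‖^q < μ ≤ ‖x̂_j‖`.
(3) Orthogonality: otherwise reduce `c` mod `p` to naturals, let `ν = max_{p ∤ c_j} ‖x̂_j‖`, `T` the set where it is attained; `‖∑_T c x̂‖ < ν`; `σ = ∑_T c_j p^(m j) • τ j` has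
`‖x(σ) - ∑_T c x̂‖ ≤ ν² < ν` (`yy_add` repeatedly); `j₀ ∈ T` with `m` minimal, `σ = p^(m j₀) • σ'`, `‖x(σ')‖ < ‖x_{j₀}‖`; replacing `τ j₀` by `σ'` keeps `Indep`
(`∑ c'_j t'_j = ∑_{j ≠ j₀} (c'_j + c'_{j₀} e_j) t_j + c'_{j₀} e_{j₀} t_{j₀}`, `p ∤ e_{j₀}`) and lowers the product.  (4) Sort with `Tuple.sort`. -/
theorem exists_orth (hn : 1 ≤ n) (hδ0 : 0 ≤ δ) (hδ : δ < 1) (hG : Near G p (p ^ n) δ)
    (hfin : ∀ i, {t : GPt G | p ^ i • t = 0}.Finite) {r : ℕ} (τ₀ : Fin r → ℕ → GPt G)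
    (h0 : ∀ j, IsSys p (τ₀ j)) (h1 : Indep p fun j => τ₀ j 1) :
    ∃ (τ : Fin r → ℕ → GPt G) (m : Fin r → ℕ), (∀ j, IsSys p (τ j)) ∧ (Indep p fun j => τ j 1) ∧
      OrthFam p (p ^ n) fun j => yy (p ^ n) (τ j) 0 ^ (p ^ n) ^ m j := by
  classical
  obtain ⟨S, hS, hv⟩ := vals hn hδ0 hδ hG hfin
  set Adm : Set (Fin r → ℕ → GPt G) := {τ | (∀ j, IsSys p (τ j)) ∧ Indep p fun j => τ j 1} with hAdm
  have hv' : ∀ τ ∈ Adm, ∀ j, 0 < ‖yy (p ^ n) (τ j) 0‖ ∧ ‖yy (p ^ n) (τ j) 0‖ ∈ S :=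
    fun τ hτ j => hv _ (hτ.1 j) (indep_ne hτ.2 j)
  have hV : ((fun τ : Fin r → ℕ → GPt G => ∏ j, ‖yy (p ^ n) (τ j) 0‖) '' Adm).Finite := by
    refine ((Set.Finite.pi' fun _ : Fin r => hS).image fun v => ∏ j, v j).subset ?_
    rintro _ ⟨τ, hτ, rfl⟩
    exact ⟨_, fun j => (hv' τ hτ j).2, rfl⟩
  obtain ⟨_, ⟨τ, hτ, rfl⟩, hmin⟩ := Set.exists_min_image _ id hV ⟨_, τ₀, ⟨h0, h1⟩, rfl⟩
  set μ := ∏ j, ‖yy (p ^ n) (τ j) 0‖ with hμ
  have hμ0 : 0 < μ := Finset.prod_pos fun j _ => (hv' τ hτ j).1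
  have hl := fun j => yy_lt_one hn hδ0 hδ hG (hτ.1 j) 0
  have hm : ∀ j, ∃ m, μ ≤ ‖yy (p ^ n) (τ j) 0‖ ^ (p ^ n) ^ m ∧ ‖yy (p ^ n) (τ j) 0‖ ^ (p ^ n) ^ (m + 1) < μ := by
    intro j
    have hex : ∃ m, ‖yy (p ^ n) (τ j) 0‖ ^ (p ^ n) ^ m < μ :=
      ((dlim (p := p) hn (norm_nonneg _) (hl j)).eventually (gt_mem_nhds hμ0)).exists
    have hle : μ ≤ ‖yy (p ^ n) (τ j) 0‖ := by
      rw [hμ, ← Finset.mul_prod_erase _ _ (Finset.mem_univ j)]
      exact mul_le_of_le_one_right (norm_nonneg _)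
        (Finset.prod_le_one (fun _ _ => norm_nonneg _) fun i _ => (hl i).le)
    have h0' : Nat.find hex ≠ 0 := fun h => by
      have := Nat.find_spec hex
      rw [h, pow_zero, pow_one] at this
      exact this.not_ge hle
    obtain ⟨m, hm⟩ := Nat.exists_eq_succ_of_ne_zero h0'
    exact ⟨m, le_of_not_gt (Nat.find_min hex (by omega)), by
      have := Nat.find_spec hex
      rwa [hm] at this⟩
  choose m hm1 hm2 using hm
  set x : Fin r → Ob C := fun i => yy (p ^ n) (τ i) 0 ^ (p ^ n) ^ m i with hx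
  have horth : ∀ c : Fin r → ℤ, ∀ j, ¬ (p : ℤ) ∣ c j → ‖x j‖ ≤ ‖∑ i, (c i : Ob C) * x i‖ := by
    intro c j hj
    by_contra hlt
    obtain ⟨j₀, f, hf, hs, hlt'⟩ := exch hn hδ0 hδ hG τ hτ.1 m c j hj (lt_of_not_ge hlt)
    have hA : Function.update τ j₀ (∑ i, f i • τ i) ∈ Adm := by
      refine ⟨fun i => ?_, ?_⟩
      · by_cases hi : i = j₀
        · rw [hi, Function.update_self]; exact hs
        · rw [Function.update_of_ne hi]; exact hτ.1 i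
      · convert indep_update hτ.2 j₀ f hf using 2 with i
        by_cases hi : i = j₀
        · rw [hi, Function.update_self, Function.update_self, Finset.sum_apply]; rfl
        · rw [Function.update_of_ne hi, Function.update_of_ne hi]
    refine (hmin _ ⟨_, hA, rfl⟩).not_gt (Finset.prod_lt_prod (fun i _ => (hv' _ hA i).1) (fun i _ => ?_)
      ⟨j₀, Finset.mem_univ _, by rwa [Function.update_self]⟩)
    by_cases hi : i = j₀
    · rw [hi, Function.update_self]; exact hlt'.le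
    · rw [Function.update_of_ne hi]
  set s := Tuple.sort fun j => -‖x j‖ with hs
  refine ⟨fun j => τ (s j), fun j => m (s j), fun j => hτ.1 _, fun c hc j => ?_, fun j => ?_, fun j => ?_, ?_,
    fun i j => ?_, fun c j hj => ?_⟩
  · have := hτ.2 (fun i => c (s.symm i)) (by
      rw [← hc, ← Equiv.sum_comp s]
      simp) (s j)
    simpa using this
  · exact pow_ne_zero _ (norm_pos_iff.1 (hv' τ hτ _).1)
  · rw [norm_pow]
    exact pow_lt_one₀ (norm_nonneg _) (hl _) (pow_ne_zero _ (pow_ne_zero _ (Fact.out : p.Prime).ne_zero))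
  · intro i j hij
    exact neg_le_neg_iff.1 (Tuple.monotone_sort (fun j => -‖x j‖) hij)
  · rw [norm_pow, norm_pow, ← pow_mul, ← pow_succ]
    exact (hm2 _).trans_le (hm1 _)
  · have := horth (fun i => c (s.symm i)) (s j) (by simpa using hj)
    rw [← Equiv.sum_comp s] at this
    simpa only [Equiv.symm_apply_apply] using this

end
end Crest.Agent.R227
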