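import Crest.Agent.R227.Univ
import Crest.Agent.R227.Log

/-!
# 227-ZA: small automorphisms move a characteristic-zero point by `O(p^i)`.
-/
set_option autoImplicit false
open Crest.LubinTate MvPowerSeries

namespace Crest.Agent.R227
noncomputable section
variable {C : Type} [NormedField C] [IsUltrametricDist C] [CharZero C] {p : ℕ} [Fact p.Prime] {n : ℕ}

namespace ZA

/-- the ideal `{‖z f‖ ≤ s}`. -/
def idl (z : LTRing p n →+* Ob C) (s : ℝ) (hs : 0 ≤ s) : Ideal (LTRing p n) := (Ob.ball s hs).comap z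

omit [CharZero C] in
theorem mem_idl {z : LTRing p n →+* Ob C} {s : ℝ} {hs : 0 ≤ s} {f : LTRing p n} :
    f ∈ idl z s hs ↔ ‖z f‖ ≤ s := Iff.rfl

omit [CharZero C] in
theorem idl_mul (z : LTRing p n →+* Ob C) {s t u : ℝ} (hs : 0 ≤ s) (ht : 0 ≤ t) (hu : 0 ≤ u) (h : s * t ≤ u) :
    idl z s hs * idl z t ht ≤ idl z u hu := by
  refine Ideal.mul_le.2 fun a ha b hb => ?_
  rw [mem_idl] at *
  rw [map_mul, norm_mul]
  exact (mul_le_mul ha hb (norm_nonneg _) hs).trans h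

omit [CharZero C] in
theorem norm_p (z : LTRing p n →+* Ob C) : ‖z (p : LTRing p n)‖ = ‖(p : C)‖ := by
  rw [map_natCast, ← Ob.norm_coe]; simp

omit [CharZero C] in
theorem step (z : LTRing p n →+* Ob C) {s u : ℝ} (hs : 0 ≤ s) (hu : 0 ≤ u) (h : s * max ‖(p : C)‖ s ≤ u) :
    Ideal.span {(p : LTRing p n)} * idl z s hs ⊔ idl z s hs ^ 2 ≤ idl z u hu := by
  refine sup_le ?_ ?_
  · refine (Ideal.mul_mono_left (K := idl z s hs) (J := idl z ‖(p : C)‖ (norm_nonneg _)) ?_).trans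
      (idl_mul z _ _ _ ?_)
    · rw [Ideal.span_singleton_le_iff_mem, mem_idl, norm_p]
    · rw [mul_comm]; exact (mul_le_mul_of_nonneg_left (le_max_left _ _) hs).trans h
  · rw [pow_two]
    exact idl_mul z _ _ _ ((mul_le_mul_of_nonneg_left (le_max_right _ _) hs).trans h)

theorem dvd_mul_pow (c : Ctx p n) (i : ℕ) :
    (PowerSeries.X : PowerSeries (GaloisField p n)) ^ (p ^ n) ^ i ∣ mulSeries c.Γ (p ^ i) := by
  induction i with
  | zero => simpa using PowerSeries.X_dvd_iff.2 (mul_const c.Γ 1)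
  | succ i ih =>
    rw [pow_succ' p i, mul_mul, c.hΓ, PowerSeries.subst_pow (FGA.hs0 (mul_const _ _)),
      PowerSeries.subst_X (FGA.hs0 (mul_const _ _)), pow_succ, pow_mul]
    exact pow_dvd_pow_of_dvd ih _

theorem dvd_g (c : Ctx p n) {e : PowerSeries (GaloisField p n)} (he : PowerSeries.constantCoeff e = 0) (i : ℕ) :
    (PowerSeries.X : PowerSeries (GaloisField p n)) ^ i ∣
      (c.Γ.toPowerSeries.subst ![PowerSeries.X, (mulSeries c.Γ (p ^ i)).subst e] : PowerSeries _) - PowerSeries.X := by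
  have hp := (Fact.out : p.Prime)
  set ei : PowerSeries (GaloisField p n) := (mulSeries c.Γ (p ^ i)).subst e with hei
  have h0 : PowerSeries.constantCoeff ei = 0 := FGA.constps he (mul_const _ _)
  have h1 : (PowerSeries.X : PowerSeries (GaloisField p n)) ^ i ∣ ei := by
    obtain ⟨K, hK⟩ := dvd_mul_pow c i
    rw [hei, hK, PowerSeries.subst_mul (FGA.hs0 he), PowerSeries.subst_pow (FGA.hs0 he),
      PowerSeries.subst_X (FGA.hs0 he)]
    refine Dvd.dvd.mul_right ?_ _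
    refine (pow_dvd_pow _ ?_).trans (pow_dvd_pow_of_dvd (PowerSeries.X_dvd_iff.2 he) _)
    exact (Nat.lt_pow_self (Nat.one_lt_pow (by have := c.hn; omega) hp.one_lt)).le
  obtain ⟨K, hK⟩ := fg_eq_add c.Γ
  have hs := FGA.hs2 (PowerSeries.HasSubst.X' (R := GaloisField p n)) (FGA.hs0 h0)
  rw [hK, subst_add hs, subst_add hs, subst_mul hs, subst_mul hs,
    FGA.sX0 PowerSeries.HasSubst.X' (FGA.hs0 h0), FGA.sX1 PowerSeries.HasSubst.X' (FGA.hs0 h0)]
  refine h1.trans ⟨1 + PowerSeries.X * (K.subst ![PowerSeries.X, ei] : PowerSeries _), ?_⟩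
  ring

omit [CharZero C] in
/-- `[p^i] ∘ η` is an endomorphism modulo `𝔞(s_i)`. -/
theorem congr_i (c : Ctx p n) (z : LTRing p n →+* Ob C) {δ : ℝ} (hδ : ∀ f ∈ mm p n, ‖z f‖ ≤ δ)
    (s : ℕ → ℝ) (hs : ∀ i, 0 ≤ s i) (hs0 : s 0 = δ) (hδ1 : δ ≤ 1)
    (hss : ∀ i, s (i + 1) = s i * max ‖(p : C)‖ (s i))
    {η : PowerSeries (LTRing p n)} (h0 : PowerSeries.constantCoeff η = 0)
    (hη : IsFGHom c.Γ c.Γ (η.map (LTRing.residue p n))) (i : ℕ) :
    ∀ d, coeff d ((mulSeries c.H (p ^ i)).subst (η.subst c.H.toPowerSeries : MvPowerSeries (Fin 2) _) -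
      (mulSeries c.H (p ^ i)).subst (c.H.toPowerSeries.subst
        ![η.subst (X 0 : MvPowerSeries (Fin 2) (LTRing p n)), η.subst (X 1 : MvPowerSeries (Fin 2) (LTRing p n))])) ∈
      idl z (s i) (hs i) := by
  set A : MvPowerSeries (Fin 2) (LTRing p n) := η.subst c.H.toPowerSeries with hA
  set B : MvPowerSeries (Fin 2) (LTRing p n) := c.H.toPowerSeries.subst
    ![η.subst (X 0 : MvPowerSeries (Fin 2) (LTRing p n)), η.subst (X 1 : MvPowerSeries (Fin 2) (LTRing p n))] with hB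
  have hA0 : constantCoeff A = 0 := FGA.constps c.H.zero_constantCoeff h0
  have hB0 : constantCoeff B = 0 :=
    FGA.const2 (FGA.constps (by simp) h0) (FGA.constps (by simp) h0) c.H.zero_constantCoeff
  have hsA := PowerSeries.HasSubst.of_constantCoeff_zero hA0
  have hsB := PowerSeries.HasSubst.of_constantCoeff_zero hB0
  induction i with
  | zero =>
    have hAB : ∀ d, coeff d (A - B) ∈ idl z (s 0) (hs 0) := by
      intro d
      rw [mem_idl, hs0]
      apply hδ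
      change LTRing.residue p n _ = 0
      rw [← coeff_map, map_sub, hA, hB, PowerSeries.map_subst (FGA.hsF0 _),
        FGA.map2 (FGA.hs_ps (FGA.hsX _) (FGA.hs0 h0)) (FGA.hs_ps (FGA.hsX _) (FGA.hs0 h0)),
        PowerSeries.map_subst (FGA.hsX _), PowerSeries.map_subst (FGA.hsX _), map_X, map_X,
        ← FormalGroup.map_toPowerSeries, H_res, hη.2, sub_self, map_zero]
    intro d
    have h1 := impr c.H (p ^ 0) _ hA0 hB0 hAB d
    have h2 : Ideal.span {((p ^ 0 : ℕ) : LTRing p n)} * idl z (s 0) (hs 0) ⊔ idl z (s 0) (hs 0) ^ 2 ≤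
        idl z (s 0) (hs 0) := sup_le Ideal.mul_le_right (Ideal.pow_le_self two_ne_zero)
    exact h2 h1
  | succ i ih =>
    intro d
    rw [pow_succ' p i, mul_mul, FGA.comp hsA (FGA.hs0 (mul_const _ _)), FGA.comp hsB (FGA.hs0 (mul_const _ _))]
    exact step z (hs i) (hs (i + 1)) (hss i).ge
      (impr c.H p _ (FGA.constps hA0 (mul_const _ _)) (FGA.constps hB0 (mul_const _ _)) ih d)

end ZA

/-- PLAN.  `δ` from `exists_delta`, `π = ‖z p‖ ∈ (0,1)`, `R₁` from `rec_bound`.  `𝔞(s) = (Ob.ball s).comap z`.  `η_i = [p^i] ∘ η`, `A_i = η_i(H(X,Y))`, `B_i = H(η_i X, η_i Y)`;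
`A_{i+1} = [p] A_i`, `B_{i+1} = [p] B_i` (`mul_mul`, `hom_apply (hom_mul ..)`); `A_0 ≡ B_0 mod mm`.  With `s_0 = δ`, `s_{i+1} = s_i max π s_i`, `impr` gives `A_i ≡ B_i mod 𝔞(s_i)`.
For `i` large: `s = R₁ π^i < 1`, `𝔞 = 𝔞(s) ≤ mm` (`Ob.isUnit_iff`, `mm_eq_max`), `mm^N ≤ 𝔞`, `π : E → B = E ⧸ 𝔞`; `η_i` is an endomorphism of `H_B`, `θ̃ = H_B(X, η_i)` too (`hom_add`).
`g = Γ(X, [p^i] ∘ η̄)`, `[p^i]_Γ ∘ η̄ = η̄^(q^i)` has order `≥ q^i ≥ max M 2`, so `g` is an automorphism `≡ X mod X^M` (`fg_eq_add`); `orb` gives `ψ, θ`.  Over `B`: `θ'` inverse of `θ` (`hom_inv`),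
`χ = θ̃ ∘ θ' : (ψ H)_B → H_B` reduces to `X` (`subst_cancel`: `χ̄ ∘ g = g`); `uniqQ` ⇒ `π ∘ ψ = π`; `rigid` ⇒ `χ = X` ⇒ `θ̃ = π θ`. -/
theorem approx (c : Ctx p n) {M : ℕ} {J : Ideal (LTRing p n)} (hJ : IsStableIdeal p n c.Γ c.H M J)
    (z : LTRing p n →+* Ob C) (zm : ∀ f ∈ mm p n, ‖z f‖ < 1) :
    ∃ R₁ : ℝ, 1 ≤ R₁ ∧ ∀ η : PowerSeries (LTRing p n), PowerSeries.constantCoeff η = 0 →
      IsFGHom c.Γ c.Γ (η.map (LTRing.residue p n)) → ∃ i₀ : ℕ, ∀ i, i₀ ≤ i →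
      ∃ (ψ : LTRing p n →ₐ[WW p n] LTRing p n) (θ : PowerSeries (LTRing p n)),
        (LTRing.residue p n).comp ψ.toRingHom = LTRing.residue p n ∧ (∀ f ∈ J, ψ f ∈ J) ∧
        IsFGHom c.H (c.H.map ψ.toRingHom) θ ∧
        (∀ l, ‖z (ψ (X l)) - z (X l)‖ ≤ R₁ * ‖(p : C)‖ ^ i) ∧
        ∀ d, ‖z (PowerSeries.coeff d (θ - c.H.toPowerSeries.subst
          ![PowerSeries.X, (mulSeries c.H (p ^ i)).subst η]))‖ ≤ R₁ * ‖(p : C)‖ ^ i := by
  have hp := (Fact.out : p.Prime)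
  obtain ⟨δ, hδ0, hδ1, hδ⟩ := exists_delta z zm
  have hπ0 : 0 < ‖(p : C)‖ := norm_pos_iff.2 (Nat.cast_ne_zero.2 hp.ne_zero)
  have hπ1 : ‖(p : C)‖ < 1 := by rw [← ZA.norm_p z]; exact zm _ (p_mem_mm p n)
  obtain ⟨R₁, hR1, hR⟩ := rec_bound hδ1 hπ0 hπ1
  refine ⟨R₁, hR1, fun η h0 hη => ?_⟩
  let s : ℕ → ℝ := fun i => Nat.rec δ (fun _ x => x * max ‖(p : C)‖ x) i
  have hs : ∀ i, 0 ≤ s i := fun i => by
    induction i with
    | zero => exact hδ0
    | succ i ih => exact mul_nonneg ih (le_max_of_le_right ih)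
  have hsR := hR s hs le_rfl fun _ => le_rfl
  obtain ⟨i₁, hi₁⟩ : ∃ i₁ : ℕ, ‖(p : C)‖ ^ i₁ < R₁⁻¹ := exists_pow_lt_of_lt_one (by positivity) hπ1
  refine ⟨max i₁ (max M 2), fun i hi => ?_⟩
  set t := R₁ * ‖(p : C)‖ ^ i with ht
  have ht0 : 0 < t := by positivity
  have ht1 : t < 1 := by
    have h1 : ‖(p : C)‖ ^ i ≤ ‖(p : C)‖ ^ i₁ := pow_le_pow_of_le_one hπ0.le hπ1.le (le_of_max_le_left hi)
    have h2 : R₁ * R₁⁻¹ = 1 := mul_inv_cancel₀ (by linarith)
    nlinarith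
  set 𝔞 := ZA.idl z t ht0.le with h𝔞
  have h1 : 𝔞 ≤ mm p n := fun f hf => by
    rw [mm_eq_max]
    by_contra hn
    have := Ob.isUnit_iff.1 ((IsLocalRing.notMem_maximalIdeal.1 hn).map z)
    have h2 : ‖z f‖ ≤ t := hf
    linarith
  obtain ⟨N, hN⟩ : ∃ N : ℕ, δ ^ N < t := exists_pow_lt_of_lt_one ht0 hδ1
  have h2 : mm p n ^ N ≤ 𝔞 := by
    have : ∀ k : ℕ, mm p n ^ k ≤ ZA.idl z (δ ^ k) (pow_nonneg hδ0 _) := fun k => by
      induction k with
      | zero => intro f _; rw [ZA.mem_idl, pow_zero]; exact Ob.norm_le_one _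
      | succ k ih =>
        rw [pow_succ]
        exact (Ideal.mul_mono ih (show mm p n ≤ ZA.idl z δ hδ0 from hδ)).trans
          (ZA.idl_mul z _ _ _ (pow_succ δ k).ge)
    exact fun f hf => (this N hf : ‖z f‖ ≤ δ ^ N).trans hN.le
  set π := Ideal.Quotient.mk 𝔞 with hπ
  have hres : (resQ p n 𝔞 h1).comp π = LTRing.residue p n := RingHom.ext fun _ => rfl
  set ηi : PowerSeries (LTRing p n) := (mulSeries c.H (p ^ i)).subst η with hηi
  have hi0 : PowerSeries.constantCoeff ηi = 0 := FGA.constps h0 (mul_const _ _)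
  have hend : IsFGHom (c.H.map π) (c.H.map π) (ηi.map π) := by
    refine ⟨by rw [← PowerSeries.coeff_zero_eq_constantCoeff_apply, PowerSeries.coeff_map,
      PowerSeries.coeff_zero_eq_constantCoeff_apply, hi0, map_zero], ?_⟩
    have hc := ZA.congr_i c z hδ s hs rfl hδ1.le (fun _ => rfl) h0 hη i
    rw [← FGA.comp (FGA.hsF0 _) (FGA.hs0 h0), hom_apply (hom_mul c.H (p ^ i))
      (FGA.hs_ps (FGA.hsX _) (FGA.hs0 h0)) (FGA.hs_ps (FGA.hsX _) (FGA.hs0 h0)),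
      ← FGA.comp (FGA.hsX _) (FGA.hs0 h0), ← FGA.comp (FGA.hsX _) (FGA.hs0 h0), ← hηi] at hc
    have he : (ηi.subst c.H.toPowerSeries : MvPowerSeries (Fin 2) _).map π =
        (c.H.toPowerSeries.subst ![ηi.subst (X 0 : MvPowerSeries (Fin 2) (LTRing p n)),
          ηi.subst (X 1 : MvPowerSeries (Fin 2) (LTRing p n))]).map π := by
      rw [← sub_eq_zero, ← map_sub]
      ext d
      rw [coeff_map, map_zero, hπ, Ideal.Quotient.eq_zero_iff_mem]
      exact (hc d : ‖z _‖ ≤ s i).trans (hsR i)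
    rw [PowerSeries.map_subst (FGA.hsF0 _),
      FGA.map2 (FGA.hs_ps (FGA.hsX _) (FGA.hs0 hi0)) (FGA.hs_ps (FGA.hsX _) (FGA.hs0 hi0)),
      PowerSeries.map_subst (FGA.hsX _), PowerSeries.map_subst (FGA.hsX _), map_X, map_X] at he
    exact he
  set θ₀ : PowerSeries (LTRing p n) := c.H.toPowerSeries.subst ![PowerSeries.X, ηi] with hθ₀
  have hmap : ∀ {S : Type} [CommRing S] (f : LTRing p n →+* S), PowerSeries.map f θ₀ =
      (c.H.map f).toPowerSeries.subst ![PowerSeries.X, PowerSeries.map f ηi] := by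
    intro S _ f
    have := FGA.map2 (PowerSeries.HasSubst.X' (R := LTRing p n)) (FGA.hs0 hi0) c.H.toPowerSeries f
    refine this.trans ?_
    congr 2
    exact PowerSeries.map_X f
  have hθ₀B : IsFGHom (c.H.map π) (c.H.map π) (θ₀.map π) := by
    rw [hmap]; exact hom_add (hom_X _) hend
  set g : PowerSeries (GaloisField p n) := θ₀.map (LTRing.residue p n) with hg
  have hg' : g = c.Γ.toPowerSeries.subst
      ![PowerSeries.X, (mulSeries c.Γ (p ^ i)).subst (η.map (LTRing.residue p n))] := by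
    rw [hg, hmap, H_res, hηi]
    congr 3
    refine (PowerSeries.map_subst (FGA.hs0 h0) _).trans ?_
    rw [mul_map, H_res]; rfl
  have hgX : ∀ j < max M 2, PowerSeries.coeff j g = PowerSeries.coeff j PowerSeries.X := fun j hj => by
    have := ZA.dvd_g c hη.1 i
    rw [← hg', PowerSeries.X_pow_dvd_iff] at this
    have h3 := this j (lt_of_lt_of_le hj (le_of_max_le_right hi))
    rwa [map_sub, sub_eq_zero] at h3
  have hg1 : IsUnit (PowerSeries.coeff 1 g) := by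
    rw [hgX 1 (lt_max_of_lt_right one_lt_two), PowerSeries.coeff_one_X]; exact isUnit_one
  have hgh : IsFGHom c.Γ c.Γ g := by
    rw [hg']; exact hom_add (hom_X _) (hom_comp hη (hom_mul _ _))
  obtain ⟨ψ, θ, hψ, hψJ, -, hθ, hθg, hθu⟩ := orb c hJ ⟨hgh, hg1⟩ fun j hj => hgX j (lt_max_of_lt_left hj)
  let φ₂ : LTRing p n →ₐ[WW p n] LTRing p n ⧸ 𝔞 := Ideal.Quotient.mkₐ _ 𝔞
  let φ₁ : LTRing p n →ₐ[WW p n] LTRing p n ⧸ 𝔞 := φ₂.comp ψ
  have hθB : IsFGHom (c.H.map π) (c.H.map φ₁.toRingHom) (θ.map π) := by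
    have := hom_map hθ π
    rwa [fg_map_map] at this
  obtain ⟨θ', hθ', -, hinv, -⟩ := hom_inv hθB (by rw [PowerSeries.coeff_map]; exact hθu.map _)
  set χ : PowerSeries (LTRing p n ⧸ 𝔞) := (θ₀.map π).subst θ' with hχ
  have hχh : IsFGHom (c.H.map φ₁.toRingHom) (c.H.map π) χ := hom_comp hθ' hθ₀B
  have hχθ : χ.subst (θ.map π) = θ₀.map π := by
    rw [hχ, FGA.comp (FGA.hs0 hθB.1) (FGA.hs0 hθ'.1), hinv, PowerSeries.X_subst]
  have hmm : ∀ f : PowerSeries (LTRing p n), (f.map π).map (resQ p n 𝔞 h1) = f.map (LTRing.residue p n) := by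
    intro f; ext d; simp only [PowerSeries.coeff_map]; rfl
  have hχX : χ.map (resQ p n 𝔞 h1) = PowerSeries.X := by
    refine subst_cancel hgh.1 hg1 ?_
    rw [PowerSeries.subst_X (FGA.hs0 hgh.1)]
    have := congrArg (PowerSeries.map (resQ p n 𝔞 h1)) hχθ
    rw [hmm, ← hg] at this
    have h3 : PowerSeries.map (resQ p n 𝔞 h1) (χ.subst (θ.map π)) =
        (χ.map (resQ p n 𝔞 h1)).subst ((θ.map π).map (resQ p n 𝔞 h1)) :=
      PowerSeries.map_subst (FGA.hs0 hθB.1) _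
    rw [hmm, hθg] at h3
    rw [← h3, this]
  have hφ : φ₁ = φ₂ := uniqQ c 𝔞 h1 N h2 φ₁ φ₂ (by
    refine RingHom.ext fun f => ?_
    exact congrArg (fun F : LTRing p n →+* GaloisField p n => F f) hψ) hres χ hχh hχX
  have hker : ∀ x, resQ p n 𝔞 h1 x = 0 → x ∈ (mm p n).map π := fun x hx => by
    obtain ⟨y, rfl⟩ := Ideal.Quotient.mk_surjective x
    exact Ideal.mem_map_of_mem _ hx
  have hχ1 : χ = PowerSeries.X := by
    rw [hφ] at hχh
    refine rigid p (p ^ n) (pow_ne_zero _ hp.ne_zero) (c.H.map π) ((mm p n).map π) N ?_ ?_ ?_ hχh ?_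
    · rw [← Ideal.map_pow, eq_bot_iff, Ideal.map_le_iff_le_comap]
      exact fun f hf => Ideal.Quotient.eq_zero_iff_mem.2 (h2 hf)
    · rw [← map_natCast π]; exact Ideal.mem_map_of_mem _ (p_mem_mm p n)
    · intro d
      have := Ideal.mem_map_of_mem π (mul_sub_mem_mm c d)
      rwa [← PowerSeries.coeff_map, map_sub, map_pow, PowerSeries.map_X, mul_map] at this
    · intro d
      apply hker
      rw [← PowerSeries.coeff_map, map_sub, hχX, PowerSeries.map_X, sub_self, map_zero]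
  refine ⟨ψ, θ, hψ, hψJ, hθ, fun l => ?_, fun d => ?_⟩
  · have : π (ψ (X l)) = π (X l) := congrArg (fun F : LTRing p n →ₐ[WW p n] LTRing p n ⧸ 𝔞 => F (X l)) hφ
    rw [← map_sub]
    exact Ideal.Quotient.eq.1 this
  · rw [hχ1, PowerSeries.subst_X (FGA.hs0 hθB.1)] at hχθ
    have := congrArg (PowerSeries.coeff d) hχθ
    rw [PowerSeries.coeff_map, PowerSeries.coeff_map] at this
    rw [map_sub]
    exact Ideal.Quotient.eq.1 this

end
end Crest.Agent.R227
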