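import Crest.Agent.R227.Log

/-!
# Truncated sup-norm estimates for power series over `C`.
-/
set_option autoImplicit false
open PowerSeries

namespace Crest.Agent.R227.ZB
noncomputable section
variable {C : Type} [NormedField C] [IsUltrametricDist C]

/-- coefficients `< D` have norm `≤ t`. -/
def Sm (D : ℕ) (t : ℝ) (A : PowerSeries C) : Prop := ∀ d < D, ‖coeff d A‖ ≤ t

variable {D : ℕ} {s t : ℝ} {A B : PowerSeries C}

omit [IsUltrametricDist C] in
theorem Sm.mono (h : Sm D s A) (hst : s ≤ t) : Sm D t A := fun d hd => (h d hd).trans hst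

theorem Sm.add (hA : Sm D t A) (hB : Sm D t B) : Sm D t (A + B) := fun d hd => by
  rw [map_add]
  exact (IsUltrametricDist.norm_add_le_max _ _).trans (max_le (hA d hd) (hB d hd))

omit [IsUltrametricDist C] in
theorem Sm.neg (hA : Sm D t A) : Sm D t (-A) := fun d hd => by
  rw [map_neg, norm_neg]; exact hA d hd

theorem Sm.sub (hA : Sm D t A) (hB : Sm D t B) : Sm D t (A - B) := by
  rw [sub_eq_add_neg]; exact hA.add hB.neg

omit [IsUltrametricDist C] in
theorem Sm.zero (ht : 0 ≤ t) : Sm D t (0 : PowerSeries C) := fun d _ => by simpa using ht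

theorem Sm.sum {ι : Type*} (S : Finset ι) (f : ι → PowerSeries C) (ht : 0 ≤ t) (h : ∀ i ∈ S, Sm D t (f i)) :
    Sm D t (∑ i ∈ S, f i) :=
  Finset.sum_induction f (Sm D t) (fun _ _ => Sm.add) (Sm.zero ht) h

omit [IsUltrametricDist C] in
theorem Sm.smul {a : C} (ha : ‖a‖ ≤ s) (hA : Sm D t A) : Sm D (s * t) (a • A) := fun d hd => by
  rw [coeff_smul, smul_eq_mul, norm_mul]
  exact mul_le_mul ha (hA d hd) (norm_nonneg _) ((norm_nonneg _).trans ha)

theorem norm_sum_le {ι : Type*} (S : Finset ι) (f : ι → C) (ht : 0 ≤ t) (h : ∀ i ∈ S, ‖f i‖ ≤ t) :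
    ‖∑ i ∈ S, f i‖ ≤ t :=
  Finset.sum_induction f (fun x => ‖x‖ ≤ t)
    (fun _ _ ha hb => (IsUltrametricDist.norm_add_le_max _ _).trans (max_le ha hb)) (by simpa using ht) h

theorem Sm.mul (hs : 0 ≤ s) (ht : 0 ≤ t) (hA : Sm D s A) (hB : Sm D t B) : Sm D (s * t) (A * B) := fun d hd => by
  rw [coeff_mul]
  refine norm_sum_le _ _ (mul_nonneg hs ht) fun x hx => ?_
  have : x.1 + x.2 = d := by simpa using hx
  rw [norm_mul]
  exact mul_le_mul (hA _ (by omega)) (hB _ (by omega)) (norm_nonneg _) hs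

theorem Sm.mul_one (hs : 0 ≤ s) (hA : Sm D s A) (hB : Sm D 1 B) : Sm D s (A * B) := by
  simpa using hA.mul hs zero_le_one hB

omit [IsUltrametricDist C] in
theorem Sm.one : Sm D 1 (1 : PowerSeries C) := fun d _ => by
  rw [coeff_one]; split_ifs <;> simp

omit [IsUltrametricDist C] in
theorem Sm.X : Sm D 1 (X : PowerSeries C) := fun d _ => by
  rw [coeff_X]; split_ifs <;> simp

theorem Sm.pow (hA : Sm D 1 A) (i : ℕ) : Sm D 1 (A ^ i) := by
  induction i with
  | zero => simpa using Sm.one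
  | succ i ih => rw [pow_succ]; exact ih.mul_one zero_le_one hA

theorem Sm.map {R : Type*} [CommRing R] (z : R →+* Ob C) (f : PowerSeries R) :
    Sm D 1 (f.map ((Ob C).subtype.comp z)) := fun d _ => by
  rw [coeff_map]; exact Ob.norm_le_one (z _)

theorem Sm.subst {f : PowerSeries C} (ht : 0 ≤ t) (hf : Sm D t f) (hA : Sm D 1 A) (h0 : constantCoeff A = 0) :
    Sm D t (f.subst A) := fun d hd => by
  rw [coeff_subst_eq_sum f A h0 D d hd]
  refine norm_sum_le _ _ ht fun i hi => ?_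
  rw [norm_mul]
  simpa using mul_le_mul (hf i (Finset.mem_range.1 hi)) (hA.pow i d hd) (norm_nonneg _) ht

theorem Sm.pow_sub (hs : 0 ≤ s) (hA : Sm D 1 A) (hB : Sm D 1 B) (h : Sm D s (A - B)) (i : ℕ) :
    Sm D s (A ^ i - B ^ i) := by
  induction i with
  | zero => simpa using Sm.zero hs
  | succ i ih =>
    have : A ^ (i + 1) - B ^ (i + 1) = (A ^ i - B ^ i) * A + (A - B) * B ^ i := by ring
    rw [this]
    exact (ih.mul_one hs hA).add (h.mul_one hs (hB.pow i))

theorem Sm.pow_sub2 (hs : 0 ≤ s) (hA : Sm D 1 A) (hB : Sm D 1 B) (h : Sm D s (A - B)) (i : ℕ) :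
    Sm D (s * s) (A ^ (i + 1) - B ^ (i + 1) - ((i + 1 : ℕ) : C) • ((A - B) * B ^ i)) := by
  induction i with
  | zero => simpa using Sm.zero (mul_nonneg hs hs)
  | succ i ih =>
    have : A ^ (i + 1 + 1) - B ^ (i + 1 + 1) - ((i + 1 + 1 : ℕ) : C) • ((A - B) * B ^ (i + 1)) =
        (A ^ (i + 1) - B ^ (i + 1) - ((i + 1 : ℕ) : C) • ((A - B) * B ^ i)) * B +
          (A - B) * (A ^ (i + 1) - B ^ (i + 1)) := by
      simp only [Nat.cast_smul_eq_nsmul, nsmul_eq_mul]
      push_cast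
      ring
    rw [this]
    exact (ih.mul_one (mul_nonneg hs hs) hB).add (h.mul hs hs (Sm.pow_sub hs hA hB h _))

theorem Sm.subst_sub {f : PowerSeries C} (hs : 0 ≤ s) (ht : 0 ≤ t) (hf : Sm D t f) (hA : Sm D 1 A) (hB : Sm D 1 B)
    (h : Sm D s (A - B)) (hA0 : constantCoeff A = 0) (hB0 : constantCoeff B = 0) :
    Sm D (t * s) (f.subst A - f.subst B) := fun d hd => by
  rw [map_sub, coeff_subst_eq_sum f A hA0 D d hd, coeff_subst_eq_sum f B hB0 D d hd, ← Finset.sum_sub_distrib]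
  refine norm_sum_le _ _ (mul_nonneg ht hs) fun i hi => ?_
  rw [← mul_sub, ← map_sub, norm_mul]
  exact mul_le_mul (hf i (Finset.mem_range.1 hi)) (Sm.pow_sub hs hA hB h i d hd) (norm_nonneg _) ht

theorem Sm.subst_sub2 {f : PowerSeries C} (hs : 0 ≤ s) (ht : 0 ≤ t) (hts : t * s ≤ 1) (hf : Sm D t f)
    (hf' : ∀ i, ‖coeff (i + 1) f * ((i + 1 : ℕ) : C)‖ ≤ 1) (hA : Sm D 1 A) (hB : Sm D 1 B)
    (h : Sm D s (A - B)) (hA0 : constantCoeff A = 0) (hB0 : constantCoeff B = 0) :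
    Sm D s (f.subst A - f.subst B) := fun d hd => by
  rw [map_sub, coeff_subst_eq_sum f A hA0 D d hd, coeff_subst_eq_sum f B hB0 D d hd, ← Finset.sum_sub_distrib]
  refine norm_sum_le _ _ hs fun i hi => ?_
  rw [← mul_sub, ← map_sub]
  rcases i with _ | i
  · simpa using hs
  have e : coeff (i + 1) f * coeff d (A ^ (i + 1) - B ^ (i + 1)) =
      coeff (i + 1) f * coeff d (A ^ (i + 1) - B ^ (i + 1) - ((i + 1 : ℕ) : C) • ((A - B) * B ^ i)) +
        coeff (i + 1) f * ((i + 1 : ℕ) : C) * coeff d ((A - B) * B ^ i) := by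
    rw [map_sub (coeff d) (A ^ (i + 1) - B ^ (i + 1)), coeff_smul, smul_eq_mul]
    ring
  rw [e]
  refine (IsUltrametricDist.norm_add_le_max _ _).trans (max_le ?_ ?_)
  · rw [norm_mul]
    refine (mul_le_mul (hf _ (Finset.mem_range.1 hi)) (Sm.pow_sub2 hs hA hB h i d hd) (norm_nonneg _) ht).trans ?_
    rw [← mul_assoc]
    exact mul_le_of_le_one_left hs hts
  · rw [norm_mul]
    simpa using mul_le_mul (hf' i) (h.mul_one hs (hB.pow i) d hd) (norm_nonneg _) zero_le_one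

omit [IsUltrametricDist C] in
theorem exists_K (D : ℕ) : ∃ K : ℝ, 1 ≤ K ∧ ∀ d < D, ‖(d : C)‖⁻¹ ≤ K := by
  refine ⟨1 + ∑ d ∈ Finset.range D, ‖(d : C)‖⁻¹, ?_, fun d hd => ?_⟩
  · have : 0 ≤ ∑ d ∈ Finset.range D, ‖(d : C)‖⁻¹ := Finset.sum_nonneg fun _ _ => by positivity
    linarith
  · have := Finset.single_le_sum (f := fun d : ℕ => ‖(d : C)‖⁻¹) (fun _ _ => by positivity)
      (Finset.mem_range.2 hd)
    linarith

omit [IsUltrametricDist C] in
theorem Sm.intg {K : ℝ} (hK0 : 0 ≤ K) (hK : ∀ d < D, ‖(d : C)‖⁻¹ ≤ K) (ht : 0 ≤ t) (hA : Sm D t A) :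
    Sm D (K * t) (intg A) := fun d hd => by
  simp only [R227.intg, coeff_mk]
  split_ifs with h
  · simpa using mul_nonneg hK0 ht
  · rw [norm_div, div_eq_inv_mul]
    exact mul_le_mul (hK d hd) (hA _ (by omega)) (norm_nonneg _) hK0

omit [IsUltrametricDist C] in
theorem intg_comb {ι : Type*} [Fintype ι] (A B : PowerSeries C) (a : ι → C) (w : ι → PowerSeries C) :
    intg A - intg B - ∑ j, a j • intg (w j) = intg (A - B - ∑ j, a j • w j) := by
  ext d
  simp only [R227.intg, map_sub, map_sum, coeff_smul, coeff_mk, smul_eq_mul]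
  split_ifs with h
  · simp
  · rw [sub_div, sub_div, Finset.sum_div]
    simp only [mul_div_assoc]

end
end Crest.Agent.R227.ZB
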