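import Crest.Agent.R227.ZeroA
import Crest.Agent.R227.ZeroBA

/-!
# 227-ZB: if `J̃` is not `∂`-stable, the quasi-logarithms lie in an `(n-1)`-dimensional space.
-/
set_option autoImplicit false
open Crest.LubinTate MvPowerSeries

namespace Crest.Agent.R227
noncomputable section
variable {C : Type} [NormedField C] [IsUltrametricDist C] [CharZero C] {p : ℕ} [Fact p.Prime] {n : ℕ}

/-- the conclusion of `quasi`. -/
def Quasi (c : Ctx p n) (z : LTRing p n →+* Ob C) (R : ℝ) (v : Fin (n - 1) → PowerSeries C) : Prop :=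
  ∀ η : PowerSeries (LTRing p n), PowerSeries.constantCoeff η = 0 → IsFGHom c.Γ c.Γ (η.map (LTRing.residue p n)) →
    ∀ D : ℕ, ∃ γ : Fin (n - 1) → C, ∀ d < D,
      ‖PowerSeries.coeff d ((flog (c.H.map ((Ob C).subtype.comp z))).subst (η.map ((Ob C).subtype.comp z)) -
        ∑ j, γ j • v j)‖ ≤ R

namespace ZB

omit [CharZero C] in
/-- the series `H(X, E)` and its difference with `X`. -/
theorem add_sub_X {R : Type*} [CommRing R] (F : FormalGroup R) {E : PowerSeries R}
    (hE : PowerSeries.constantCoeff E = 0) :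
    ∃ W : PowerSeries R, F.toPowerSeries.subst ![PowerSeries.X, E] - PowerSeries.X = E * W := by
  obtain ⟨K, hK⟩ := fg_eq_add F
  have hs : HasSubst (![PowerSeries.X, E] : Fin 2 → MvPowerSeries Unit R) :=
    hasSubst_of_constantCoeff_zero fun i => by
      fin_cases i
      · exact PowerSeries.constantCoeff_X
      · exact hE
  refine ⟨1 + PowerSeries.X * K.subst ![PowerSeries.X, E], ?_⟩
  rw [hK, subst_add hs, subst_add hs, subst_mul hs, subst_mul hs, subst_X hs, subst_X hs]
  simp only [Matrix.cons_val_zero, Matrix.cons_val_one, Matrix.cons_val_fin_one]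
  ring

omit [IsUltrametricDist C] in
theorem flog_tilde (G : FormalGroup C) [G.IsComm] (m : ℕ) {η : PowerSeries C}
    (hη : PowerSeries.constantCoeff η = 0) :
    (flog G).subst (G.toPowerSeries.subst ![PowerSeries.X, (mulSeries G m).subst η]) =
      flog G + (m : C) • ((flog G).subst η : PowerSeries C) := by
  have hs := PowerSeries.HasSubst.of_constantCoeff_zero' hη
  have hs' := PowerSeries.HasSubst.of_constantCoeff_zero' (mul_const G m)
  have h1 : constantCoeff ((mulSeries G m).subst η) = 0 :=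
    PowerSeries.constantCoeff_subst_eq_zero hη _ (mul_const G m)
  rw [flog_add G (A := PowerSeries.X) PowerSeries.constantCoeff_X h1, PowerSeries.X_subst,
    ← PowerSeries.subst_comp_subst_apply hs' hs, flog_hom (hom_mul G m), mul_coeff_one,
    ← PowerSeries.smul_eq_C_mul, PowerSeries.subst_smul hs]

end ZB

open ZB in
/-- PLAN.  `zC = subtype ∘ z`, `l = flog (H.map zC)`, `ω = om H`, `L_j = intg (mk fun d => zC (∂_j ω_d))`, `b_j = zC (∂_j f)`, `v l₀ = l`, `v j = L_j - (b_j/b_{l₀}) L_{l₀}`, `R = R₁` of `approx`.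
Fix `η, D`; `‖A‖_D` = max of the norms of the coefficients `< D` (use the additive subgroups `{A | ∀ d < D, ‖coeff d A‖ ≤ t}`; they are stable under `∘ θ` for integral `θ` with `θ(0)=0`,
`coeff_subst_eq_sum`), `K = max_{1 ≤ d < D} ‖d‖⁻¹`.  Take `i` large, `s = R₁ ‖p‖^i`, `ψ, θ` from `approx`, `z' = z ∘ ψ`, `Δ_j = z' X_j - z X_j`, `l' = flog (H.map z'C)`, `θ̃ = H(X, [p^i] η)`.
(a) `l' ∘ θ = θ₁ l` (`flog_hom`); (b) `l ∘ θ̃ = l + p^i l ∘ η` (`flog_add`, `flog_hom`); (c) `‖l' - l - ∑ Δ_j L_j‖_D ≤ K s²` (`taylor1`, `om_map`);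
(d) `‖l ∘ θ - l ∘ θ̃‖_D ≤ max s (K s²)` (`a^d - b^d ≡ d b^(d-1) (a-b) mod (a-b)²`, or `subst_taylor` on the truncation of `l`); (e) `‖L_j ∘ θ - L_j‖_D ≤ K max s ε_i`, `ε_i = ‖[p^i] η‖_D → 0`
(`coeff_mul_pow_mem`, `fg_eq_add`); (f) `0 = z' f - z f = ∑ b_j Δ_j + O(s²)` (`hf`, `taylor1`).  So `p^i l ∘ η = (θ₁ - 1) l - ∑_{j ≠ l₀} Δ_j v_j + O(s)` for `i` large; divide by `p^i`. -/
theorem quasi (c : Ctx p n) {M : ℕ} {J : Ideal (LTRing p n)} (hJ : IsStableIdeal p n c.Γ c.H M J)
    (z : LTRing p n →+* Ob C) (zm : ∀ f ∈ mm p n, ‖z f‖ < 1) (zJ : ∀ f ∈ J, z f = 0) (f : LTRing p n)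
    (hf : ∀ z' : LTRing p n →+* Ob C, (∀ g ∈ mm p n, ‖z' g‖ < 1) → (∀ g ∈ J, z' g = 0) → z' f = 0)
    (l₀ : Fin (n - 1)) (hl : z (pderiv (WW p n) l₀ f) ≠ 0) :
    ∃ (R : ℝ) (v : Fin (n - 1) → PowerSeries C), Quasi c z R v := by
  classical
  obtain ⟨R₁, hR₁, happ⟩ := approx c hJ z zm
  let zC : LTRing p n →+* C := (Ob C).subtype.comp z
  let G := c.H.map zC
  let w : Fin (n - 1) → PowerSeries C := fun j =>
    (PowerSeries.mk fun d => pderiv (WW p n) j (PowerSeries.coeff d (om c.H))).map zC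
  let L : Fin (n - 1) → PowerSeries C := fun j => intg (w j)
  let b : Fin (n - 1) → C := fun j => zC (pderiv (WW p n) j f)
  have hb : b l₀ ≠ 0 := fun h => hl (Subtype.ext h)
  let u : Fin (n - 1) → PowerSeries C := fun j => L j - (b j / b l₀) • L l₀
  have hu0 : u l₀ = 0 := by simp [u, div_self hb]
  refine ⟨R₁, Function.update u l₀ (flog G), fun η hη0 hη D => ?_⟩
  obtain ⟨i₀, hi₀⟩ := happ η hη0 hη
  obtain ⟨K, hK1, hK⟩ := exists_K (C := C) D
  have hK0 : 0 ≤ K := zero_le_one.trans hK1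
  have hp0 : (p : C) ≠ 0 := Nat.cast_ne_zero.2 (Fact.out : p.Prime).ne_zero
  set π := ‖(p : C)‖ with hπ
  have hπ0 : 0 < π := norm_pos_iff.2 hp0
  have hπ1 : π < 1 := by
    have := zm _ (p_mem_mm p n)
    rwa [map_natCast, ← Ob.norm_coe, SubringClass.coe_natCast] at this
  have hbn : 0 < ‖b l₀‖ := norm_pos_iff.2 hb
  have hb1 : ‖b l₀‖ ≤ 1 := Ob.norm_le_one (z _)
  obtain ⟨N, hN⟩ := exists_pow_lt_of_lt_one (show 0 < ‖b l₀‖ / (K * R₁) by positivity) hπ1
  have hN' : K * R₁ * π ^ N ≤ ‖b l₀‖ := by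
    rw [lt_div_iff₀ (by positivity)] at hN
    linarith
  obtain ⟨ψ, θ, hres, hψJ, hθ, hΔ, hθθ⟩ := hi₀ (i₀ + N + D) (by omega)
  set i := i₀ + N + D with hi
  set s := R₁ * π ^ i with hs
  have hs0 : 0 ≤ s := by positivity
  have hπN : ∀ j, N ≤ j → K * (R₁ * π ^ j) ≤ ‖b l₀‖ := fun j hj => by
    rw [← mul_assoc]
    exact (mul_le_mul_of_nonneg_left (pow_le_pow_of_le_one hπ0.le hπ1.le hj) (by positivity)).trans hN'
  have hKs' : K * s ≤ ‖b l₀‖ := hπN i (by omega)
  have hKs : K * s ≤ 1 := hKs'.trans hb1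
  -- the moved point
  let z' : LTRing p n →+* Ob C := z.comp ψ.toRingHom
  have hmm : ∀ g ∈ mm p n, ψ g ∈ mm p n := by
    intro g hg
    have : LTRing.residue p n (ψ g) = LTRing.residue p n g := DFunLike.congr_fun hres g
    change LTRing.residue p n (ψ g) = 0
    rw [this]
    exact hg
  have zm' : ∀ g ∈ mm p n, ‖z' g‖ < 1 := fun g hg => zm _ (hmm g hg)
  have hT := taylor1 z z' s hs0 (fun r => by
      change z _ = z (ψ (algebraMap _ _ r))
      rw [AlgHom.commutes]; rfl)
    (fun j => zm _ (X_mem_mm p n j)) (fun j => zm' _ (X_mem_mm p n j)) hΔ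
  let Δ : Fin (n - 1) → C := fun j => (z' (X j) - z (X j) : Ob C)
  have hΔ' : ∀ j, ‖Δ j‖ ≤ s := hΔ
  have hTC : ∀ g, ‖((z' g : Ob C) : C) - zC g - ∑ j, Δ j * zC (pderiv (WW p n) j g)‖ ≤ s * s := by
    intro g
    have := hT g
    rw [← Ob.norm_coe, sq] at this
    convert this using 2
    push_cast
    simp only [Δ, zC, mul_comm]
    push_cast
    rfl
  let z'C : LTRing p n →+* C := (Ob C).subtype.comp z'
  let G' := c.H.map z'C
  let θC : PowerSeries C := θ.map zC
  have hθC : IsFGHom G G' θC := by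
    have := hom_map hθ zC
    rwa [fg_map_map] at this
  have hθ0 : PowerSeries.constantCoeff θC = 0 := hθC.1
  have hsθ := PowerSeries.HasSubst.of_constantCoeff_zero' hθ0
  let ηC : PowerSeries C := η.map zC
  have hηC : PowerSeries.constantCoeff ηC = 0 := (congrArg zC hη0).trans (map_zero zC)
  let E : PowerSeries (LTRing p n) := (mulSeries c.H (p ^ i)).subst η
  have hE0 : PowerSeries.constantCoeff E = 0 :=
    PowerSeries.constantCoeff_subst_eq_zero hη0 _ (mul_const _ _)
  let θt : PowerSeries (LTRing p n) := c.H.toPowerSeries.subst ![PowerSeries.X, E]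
  have hsE : HasSubst (![PowerSeries.X, E] : Fin 2 → MvPowerSeries Unit (LTRing p n)) :=
    hasSubst_of_constantCoeff_zero fun i => by
      fin_cases i
      · exact PowerSeries.constantCoeff_X
      · exact hE0
  have hθt0 : PowerSeries.constantCoeff θt = 0 :=
    constantCoeff_subst_eq_zero hsE (fun i => by
      fin_cases i
      · exact PowerSeries.constantCoeff_X
      · exact hE0) c.H.zero_constantCoeff
  let θtC : PowerSeries C := θt.map zC
  have hθtC0 : PowerSeries.constantCoeff θtC = 0 := (congrArg zC hθt0).trans (map_zero zC)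
  have hθtC : θtC = G.toPowerSeries.subst ![PowerSeries.X, (mulSeries G (p ^ i)).subst ηC] := by
    change MvPowerSeries.map zC _ = _
    rw [map_subst hsE]
    congr 1
    funext j
    fin_cases j
    · exact PowerSeries.map_X zC
    · change MvPowerSeries.map zC (PowerSeries.subst η _) = _
      rw [PowerSeries.map_subst (PowerSeries.HasSubst.of_constantCoeff_zero' hη0), mul_map]
      rfl
  have hb' : (flog G).subst θtC = flog G + ((p : C) ^ i) • ((flog G).subst ηC : PowerSeries C) := by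
    rw [hθtC, flog_tilde G _ hηC, Nat.cast_pow]
  have ha' : (flog G').subst θC = PowerSeries.coeff 1 θC • flog G := by
    rw [flog_hom hθC, PowerSeries.smul_eq_C_mul]
  have iθ : Sm D 1 θC := Sm.map z θ
  have iθt : Sm D 1 θtC := Sm.map z θt
  have dθ : Sm D s (θC - θtC) := fun d _ => by
    simp only [θC, θtC, ← map_sub, PowerSeries.coeff_map]
    exact hθθ d
  have homG : om G = (om c.H).map zC := (om_map _ _).symm
  have homG' : om G' = (om c.H).map z'C := (om_map _ _).symm
  have il : Sm D K (flog G) := by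
    simpa [flog] using Sm.intg hK0 hK zero_le_one (homG ▸ Sm.map z (om c.H))
  have iL : ∀ j, Sm D K (L j) := fun j => by
    simpa using Sm.intg hK0 hK zero_le_one (Sm.map z _)
  -- (d)
  have e1 : Sm D s ((flog G).subst θC - (flog G).subst θtC) := by
    refine Sm.subst_sub2 hs0 hK0 hKs il (fun j => ?_) iθ iθt dθ hθ0 hθtC0
    have : ((j + 1 : ℕ) : C) ≠ 0 := Nat.cast_ne_zero.2 (by omega)
    simp only [flog, intg, PowerSeries.coeff_mk, Nat.add_eq_zero_iff, one_ne_zero, and_false, if_false,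
      div_mul_cancel₀ _ this, homG, PowerSeries.coeff_map]
    exact Ob.norm_le_one (z _)
  -- (c)
  have e2 : Sm D s ((flog G' - flog G - ∑ j, Δ j • L j).subst θC) := by
    refine Sm.subst hs0 ?_ iθ hθ0
    simp only [flog, L]
    rw [intg_comb]
    refine (Sm.intg hK0 hK (mul_nonneg hs0 hs0) fun d _ => ?_).mono ?_
    · simp only [map_sub, map_sum, PowerSeries.coeff_smul, homG, homG', w, PowerSeries.coeff_map,
        PowerSeries.coeff_mk, smul_eq_mul]
      exact hTC _
    · rw [← mul_assoc]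
      exact mul_le_of_le_one_left hs0 hKs
  -- (e)
  have dX : Sm D (R₁ * π ^ (i₀ + N)) (θC - PowerSeries.X) := by
    have h1 : Sm D (R₁ * π ^ (i₀ + N)) (θtC - PowerSeries.X) := by
      obtain ⟨W, hW⟩ := add_sub_X c.H hE0
      have : θtC - PowerSeries.X = E.map zC * W.map zC := by
        rw [← map_mul, ← hW, map_sub, PowerSeries.map_X]
      rw [this]
      refine Sm.mul_one (by positivity) (fun d hd => ?_) (Sm.map z W)
      obtain ⟨a, ha⟩ := coeff_mul_pow_mem p c.H hη0 i d
      rw [PowerSeries.coeff_map, ha, map_mul, map_pow, map_natCast, norm_mul, norm_pow, mul_comm]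
      refine mul_le_mul ((Ob.norm_le_one (z a)).trans hR₁)
        (pow_le_pow_of_le_one hπ0.le hπ1.le (by omega)) (by positivity) (by positivity)
    have h2 := (dθ.mono (t := R₁ * π ^ (i₀ + N)) (mul_le_mul_of_nonneg_left
      (pow_le_pow_of_le_one hπ0.le hπ1.le (by omega)) (by positivity))).add h1
    rwa [sub_add_sub_cancel] at h2
  have e4 : Sm D s (∑ j, Δ j • ((L j).subst θC - L j)) := by
    refine Sm.sum _ _ hs0 fun j _ => ?_
    have h1 := Sm.subst_sub (by positivity) hK0 (iL j) iθ Sm.X dX hθ0 PowerSeries.constantCoeff_X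
    rw [PowerSeries.X_subst] at h1
    simpa using Sm.smul (hΔ' j) (h1.mono ((hπN _ (by omega)).trans hb1))
  -- (f)
  have e5 : Sm D s (((∑ j, Δ j * b j) / b l₀) • L l₀) := by
    have h1 := hTC f
    have h2 : zC f = 0 := congrArg Subtype.val (hf z zm zJ)
    rw [hf z' zm' fun g hg => zJ _ (hψJ g hg), h2] at h1
    simp only [ZeroMemClass.coe_zero, sub_zero, zero_sub, norm_neg] at h1
    have h3 : ‖(∑ j, Δ j * b j) / b l₀‖ ≤ s * s / ‖b l₀‖ := by
      rw [norm_div]
      exact div_le_div_of_nonneg_right h1 hbn.le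
    refine (Sm.smul h3 (iL l₀)).mono ?_
    rw [div_mul_eq_mul_div, div_le_iff₀ hbn, mul_assoc, mul_comm s K]
    exact mul_le_mul_of_nonneg_left hKs' hs0
  have hpi : (p : C) ^ i ≠ 0 := pow_ne_zero _ hp0
  refine ⟨fun j => if j = l₀ then (PowerSeries.coeff 1 θC - 1) / (p : C) ^ i else -Δ j / (p : C) ^ i, ?_⟩
  have hsum : ((p : C) ^ i) • ∑ j, (if j = l₀ then (PowerSeries.coeff 1 θC - 1) / (p : C) ^ i
      else -Δ j / (p : C) ^ i) • Function.update u l₀ (flog G) j =
      (PowerSeries.coeff 1 θC - 1) • flog G - ∑ j, Δ j • u j := by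
    rw [Finset.smul_sum, ← Finset.add_sum_erase _ _ (Finset.mem_univ l₀),
      ← Finset.add_sum_erase _ (fun j => Δ j • u j) (Finset.mem_univ l₀), hu0, smul_zero, zero_add,
      if_pos rfl, Function.update_self, smul_smul, mul_div_cancel₀ _ hpi, sub_eq_add_neg (_ • flog G),
      ← Finset.sum_neg_distrib]
    congr 1
    refine Finset.sum_congr rfl fun j hj => ?_
    have hj' := Finset.ne_of_mem_erase hj
    rw [if_neg hj', Function.update_of_ne hj', smul_smul, mul_div_cancel₀ _ hpi, neg_smul]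
  have hu : ∑ j, Δ j • u j = ∑ j, Δ j • L j - ((∑ j, Δ j * b j) / b l₀) • L l₀ := by
    simp only [u, smul_sub, Finset.sum_sub_distrib, smul_smul, Finset.sum_div, Finset.sum_smul, mul_div_assoc]
  have hsub : (flog G' - flog G - ∑ j, Δ j • L j).subst θC =
      (flog G').subst θC - (flog G).subst θC - ∑ j, Δ j • ((L j).subst θC : PowerSeries C) := by
    simp only [← PowerSeries.coe_substAlgHom hsθ, map_sub, map_sum, map_smul]
  have key : Sm D s (((p : C) ^ i) • (((flog G).subst ηC : PowerSeries C) -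
      ∑ j, (if j = l₀ then (PowerSeries.coeff 1 θC - 1) / (p : C) ^ i
      else -Δ j / (p : C) ^ i) • Function.update u l₀ (flog G) j)) := by
    have h1 := ((e1.add e2).add e4).add e5
    refine (congrArg (Sm D s) ?_).mp h1.neg
    rw [smul_sub, hsum, hu, hsub, ha', hb']
    simp only [smul_sub, Finset.sum_sub_distrib, sub_smul, one_smul]
    abel
  intro d hd
  have h1 := key d hd
  rw [PowerSeries.coeff_smul, smul_eq_mul, norm_mul, norm_pow, hs, mul_comm R₁] at h1
  exact le_of_mul_le_mul_left h1 (pow_pos hπ0 _)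

end
end Crest.Agent.R227
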